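import Crest.Agent.R75.Slot

set_option autoImplicit false

namespace Crest.Agent.R75

open Complex MeasureTheory Set Filter Topology intervalIntegral
open scoped Real ComplexConjugate

theorem tail_sum {a : ℝ} (ha : 1 < a) :
    Summable (fun j : ℕ => 1 / (a + j) ^ 2) ∧ ∑' j : ℕ, 1 / (a + j) ^ 2 ≤ 1 / (a - 1) := by
  have key : ∀ n : ℕ, ∑ j ∈ Finset.range n, 1 / (a + j) ^ 2 ≤ 1 / (a - 1) - 1 / (a - 1 + n) := by
    intro n
    induction n with
    | zero => simp
    | succ n ih =>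
      rw [Finset.sum_range_succ]
      have h0 : 0 < a - 1 + n := by have : (0 : ℝ) ≤ n := n.cast_nonneg
                                    linarith
      have e : 1 / (a - 1 + n) - 1 / (a - 1 + (n + 1 : ℕ)) = 1 / ((a - 1 + n) * (a + n)) := by
        have : 0 < a + n := by linarith
        push_cast
        rw [show a - 1 + (n + 1) = a + n by ring]
        field_simp
        ring
      have : 1 / (a + n) ^ 2 ≤ 1 / ((a - 1 + n) * (a + n)) :=
        one_div_le_one_div_of_le (mul_pos h0 (by linarith)) (by nlinarith)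
      linarith
  have key2 : ∀ n : ℕ, ∑ j ∈ Finset.range n, 1 / (a + j) ^ 2 ≤ 1 / (a - 1) := fun n => by
    have : 0 ≤ 1 / (a - 1 + n) := by
      have : (0 : ℝ) ≤ n := n.cast_nonneg
      have : 0 < a - 1 + n := by linarith
      positivity
    linarith [key n]
  exact ⟨summable_of_sum_range_le (fun _ => by positivity) key2,
    Real.tsum_le_of_sum_range_le (fun _ => by positivity) key2⟩

theorem exists_ee {ζ : ℂ} (h : ‖ζ‖ = 1) : ∃ ϑ : ℝ, ee ϑ = ζ := by
  obtain ⟨x, hx⟩ := (Complex.norm_eq_one_iff ζ).mp h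
  refine ⟨x / (2 * π), ?_⟩
  rw [← hx, ee]
  congr 1
  have hpi : (π : ℂ) ≠ 0 := by exact_mod_cast Real.pi_ne_zero
  push_cast
  field_simp

theorem ev_le {C r : ℝ} (hr : 0 < r) : ∀ᶠ N : ℕ in atTop, C ≤ r * N :=
  (tendsto_natCast_atTop_atTop.const_mul_atTop hr).eventually_ge_atTop C

/-- From a time-frequency design to an ultraflat polynomial with real coefficients. -/
theorem analysis {ι : Type} [Fintype ι] {x ℓ : ι → ℝ} (hP : Part x ℓ) {δ : ℝ} (hδ : 0 < δ)
    (t T : ι → ℝ) (hT : ∀ i, 0 < T i) (ht0 : ∀ i, δ ≤ t i) (ht1 : ∀ i, t i + T i ≤ 1 - δ)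
    (ζ : ι → ℂ) (hζ : ∀ i, ‖ζ i‖ = 1) {ε : ℝ} (hε : 0 < ε) (hε1 : ε ≤ 1) :
    ∀ᶠ N : ℕ in atTop, ∃ c : ℕ → ℝ,
      (∀ θ : ℝ, |‖∑ k ∈ Finset.range N, (c k : ℂ) * ee (k * θ)‖ - √N| ≤ ε * √N) ∧
      ∀ k : ℕ, ∃ w H : ℝ → ℝ → ℝ, (∀ a b, 0 ≤ w a b ∧ w a b ≤ 1 + ε) ∧
        (∀ a b, 0 < b → w a b ≠ 0 → a ≤ k / N ∧ k / N < a + b) ∧
        |c k - 2 * (∑ i, (w (t i) (T i) * √(ℓ i / T i) : ℝ) *
          (ζ i * ee (-(k * x i) + ℓ i * H (t i) (T i)))).re| ≤ ε := by
  have hℓ := hP.pos
  set A := ∑ i, √(ℓ i / T i) with hA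
  have hA0 : 0 ≤ A := Finset.sum_nonneg fun _ _ => Real.sqrt_nonneg _
  set η := ε / (8 * (A + 1)) with hη
  have hη0 : 0 < η := by positivity
  have hη1 : η ≤ 1 := by rw [hη, div_le_one (by positivity)]; linarith
  have hηA : A * (2 * η) ≤ ε / 4 := by
    rw [hη, ← mul_div_assoc, ← mul_div_assoc, div_le_iff₀ (by positivity)]; nlinarith
  obtain ⟨B, S0, S1, S2, S3, hS⟩ := exists_shape (c := 1 / (1 + ε) ^ 2) (K := (8 / η) ^ 2)
    (by positivity) (by rw [div_lt_one (by positivity)]; nlinarith) (by positivity)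
  have hK8 : 8 / √((8 / η) ^ 2) = η := by rw [Real.sqrt_sq (by positivity)]; field_simp
  have hc : 1 / √(1 / (1 + ε) ^ 2) = 1 + ε := by
    rw [← one_div_pow, Real.sqrt_sq (by positivity), one_div_one_div]
  obtain ⟨la, hla, hsp⟩ := hS.JJ_sp (by positivity) hη0
  obtain ⟨lb, hlb, hbd⟩ := hS.JJ_bound (by positivity) hη0
  rw [hK8] at hsp
  rw [hK8, hc] at hbd
  set A' := ∑ i, √(ℓ i / (δ / 2)) with hA'
  have hA'0 : 0 ≤ A' := Finset.sum_nonneg fun _ _ => Real.sqrt_nonneg _
  set g := ε / (32 * (A' + 1)) with hg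
  have hg0 : 0 < g := by positivity
  have hg1 : g ≤ 1 / 32 := by
    rw [hg, div_le_div_iff₀ (by positivity) (by norm_num)]; linarith
  have hgA : 8 * g * A' ≤ ε / 4 := by
    rw [hg, ← mul_div_assoc, div_mul_eq_mul_div, div_le_iff₀ (by positivity)]; nlinarith
  set γ := g ^ 2 with hγ
  have hγ0 : 0 < γ := by positivity
  have hγ1 : γ ≤ 1 / 4 := by nlinarith
  set L : ι → ℝ := fun i => γ * ℓ i with hL
  have hL0 : ∀ i, 0 < L i := fun i => mul_pos hγ0 (hℓ i)
  have hL3 : ∀ i, 4 * L i ≤ ℓ i := fun i => by have := hℓ i; simp only [hL]; nlinarith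
  choose ϑ hϑ using fun i => exists_ee (ζ := ζ i / Fr) (by rw [norm_div, hζ, norm_Fr, div_one])
  have hFr : Fr ≠ 0 := fun h => by simpa [h] using norm_Fr
  choose u hu hu1 hu0 huw using hS.exists_u
  set ρ := 4 / δ with hρ
  set C := 2 * ∑ i, 3 * ((3 * ρ * B + 3 * ρ ^ 2 * B ^ 2) / L i + 2 * (1 / L i)) with hC
  have hC0 : 0 ≤ C := by
    have := hS.Bnn
    refine mul_nonneg zero_le_two (Finset.sum_nonneg fun i _ => ?_)
    have := hL0 i
    positivity
  filter_upwards [eventually_gt_atTop 0,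
    eventually_all.mpr fun i => ev_le (C := lb) (mul_pos (hL0 i) (half_pos hδ)),
    eventually_all.mpr fun i => ev_le (C := la) (mul_pos (half_pos (hℓ i)) (hT i)),
    eventually_all.mpr fun i => ev_le (C := 1 / L i) (show 0 < δ / 4 by positivity),
    ev_le (C := 2 * C / ε + 2) (show 0 < δ / 4 by positivity)] with N hN0 hN1 hN2 hN3 hN4
  have hN : (0 : ℝ) < N := by exact_mod_cast hN0
  set τ := δ / 2 with hτ
  set μ1 : ι → ℝ := fun i =>
    Int.fract (ϑ i - ph S0 (x i) (L i) (N * τ) (N * (t i - τ)) 0 (x i + L i)) with hμ1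
  set μ3 : ι → ℝ := fun i => Int.fract (-ph S0 (x i + L i) (ℓ i - 2 * L i) (N * t i) (N * T i) (ϑ i)
    (x i + L i + (ℓ i - 2 * L i))
      - ph S0 (-(x i + ℓ i)) (L i) (N * τ) (N * (t i + T i - τ)) 0 (-(x i + ℓ i) + L i)) with hμ3
  set G : ι → ℝ → ℂ := fun i => slotFn S0 (x i) (ℓ i) (L i) (N * τ + μ1 i / L i) (N * (t i - τ))
    (N * t i) (N * T i) (ϑ i) (N * τ + μ3 i / L i) (N * (t i + T i - τ)) with hG
  set J : ι → ℝ → ℂ := fun i k => JJ S0 (x i) (L i) (N * τ + μ1 i / L i) (N * (t i - τ)) 0 k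
    + JJ S0 (x i + L i) (ℓ i - 2 * L i) (N * t i) (N * T i) (ϑ i) k
    + conj (JJ S0 (-(x i + ℓ i)) (L i) (N * τ + μ3 i / L i) (N * (t i + T i - τ)) 0 k) with hJ
  have hGm : ∀ i, Measurable (G i) := fun i => measurable_slotFn hS.c0 _ _ _ _ _ _ _ _ _ _
  have hG1 : ∀ i θ, ‖G i θ‖ = 1 := fun i θ => norm_slotFn _ _ _ _ _ _ _ _ _ _ _ _
  set r : ℤ → ℝ := fun k => 2 * (∑ i, J i k).re with hr
  have hcoef : ∀ k : ℤ, (r k : ℂ) = ∫ θ in (0 : ℝ)..1, glue x ℓ G θ * ee (-(k * θ)) := fun k => by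
    rw [hP.integral_glue hGm hG1]
    simp only [hr, hG, hJ]
    congr 4
    funext i
    exact (integral_slotFn hS.c0 (hL0 i).le (by linarith [hL3 i, hL0 i]) _ _ _ _ _ _ _ _).symm
  have htail : ∀ (k : ℤ) (D : ℝ), k ≠ 0 → δ / 4 * N ≤ D →
      (∀ z, δ / 4 * N ≤ z → z ≤ N - δ / 4 * N → D ≤ |z - k|) → ‖(r k : ℂ)‖ ≤ C * (1 / D ^ 2) := by
    intro k D hk hD hz
    have hD0 : 0 < D := lt_of_lt_of_le (by positivity) hD
    have a1 := hP.telescope hk (N * τ - k)
    rw [Complex.norm_real, Real.norm_eq_abs, hr]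
    simp only
    rw [← sub_zero (∑ i, J i k).re, ← a1, ← Complex.sub_re, ← Finset.sum_sub_distrib, abs_mul,
      abs_two, hC, mul_assoc (2 : ℝ) (Finset.sum _ _), Finset.sum_mul]
    refine mul_le_mul_of_nonneg_left ((Complex.abs_re_le_norm _).trans ((norm_sum_le _ _).trans
      (Finset.sum_le_sum fun i _ => ?_))) zero_le_two
    obtain ⟨m1, m3, rfl, rfl, hb⟩ := hS.slot_tail (x := x i) (ℓ := ℓ i) (L := L i) (N := N) (τ := τ)
      (t := t i) (T := T i) (ϑ := ϑ i) (k := k) (D := D) (ρ := ρ) (hL0 i) (by linarith [hL3 i, hL0 i])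
      hN.le (by positivity) (by linarith [ht0 i]) (hT i).le (by linarith [ht1 i]) hD0
      (by rw [hρ, div_mul_eq_mul_div, le_div_iff₀ hδ]; linarith)
      (fun z h1 h2 => by
        have b1 := hN3 i
        have b2 := mul_le_mul_of_nonneg_left (ht1 i) hN.le
        have e2 : 2 / L i = 2 * (1 / L i) := by ring
        have : 0 < δ * N := by positivity
        have e3 : (N : ℝ) * τ = δ / 2 * N := by rw [hτ]; ring
        exact hz z (by linarith) (by linarith))
    refine hb.trans (le_of_eq ?_)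
    ring
  have ha1 : 1 < δ / 4 * N := by
    have : 0 ≤ 2 * C / ε := by positivity
    linarith
  obtain ⟨hs1, hs2⟩ := tail_sum ha1
  refine ⟨fun k => √N * r k, fun θ => ?_, fun k => ?_⟩
  · have a1 := inversion (measurable_glue x ℓ hGm) (fun θ hθ => by
        obtain ⟨i, hi | hi⟩ := hP.glue_apply G hθ <;> simp [hi, hG1]) N (fun k => r k) hcoef
      (fun j => C * (1 / (δ / 4 * N + j) ^ 2)) (hs1.mul_left C)
      (fun j => htail _ _ (by omega) (by simp) fun z h1 h2 => by
        refine le_trans ?_ (neg_le_abs _)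
        push_cast; linarith)
      (fun j => htail _ _ (by omega) (by simp) fun z h1 h2 => by
        refine le_trans ?_ (le_abs_self _)
        push_cast; linarith) θ
    rw [tsum_mul_left] at a1
    have a2 : 2 * (C * ∑' j : ℕ, 1 / (δ / 4 * N + j) ^ 2) ≤ ε := by
      have b1 := mul_le_mul_of_nonneg_left hs2 hC0
      have b2 : C * (1 / (δ / 4 * N - 1)) ≤ ε / 2 := by
        rw [mul_one_div, div_le_iff₀ (by linarith)]
        have : 2 * C / ε ≤ δ / 4 * N - 1 := by linarith
        rw [div_le_iff₀ hε] at this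
        linarith
      linarith
    have e : ∑ k ∈ Finset.range N, ((√N * r k : ℝ) : ℂ) * ee (k * θ)
        = (√N : ℝ) * ∑ k ∈ Finset.range N, (r k : ℂ) * ee (k * θ) := by
      rw [Finset.mul_sum]
      refine Finset.sum_congr rfl fun k _ => ?_
      push_cast; ring
    rw [e, norm_mul, Complex.norm_real, Real.norm_of_nonneg (Real.sqrt_nonneg _), ← mul_sub_one,
      abs_mul, abs_of_nonneg (Real.sqrt_nonneg _), mul_comm]
    exact mul_le_mul_of_nonneg_right (a1.trans a2) (Real.sqrt_nonneg _)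
  · set s : ℝ → ℝ → ℝ := fun a b => (k - N * a) / (N * b) with hs
    set w0 : ℝ → ℝ := fun s => if 0 ≤ s ∧ s < 1 then 1 else 0 with hw0
    have hw01 : ∀ s, 0 ≤ w0 s ∧ w0 s ≤ 1 := fun s => by
      simp only [hw0]; split_ifs <;> norm_num
    refine ⟨fun a b => √(1 - 2 * γ) * (w0 (s a b) / √(S2 (u (s a b)))),
      fun a b => -(k * γ) + (1 - 2 * γ) * (N * b) * (S0 (u (s a b)) - s a b * u (s a b)),
      fun a b => ⟨by have := (hw01 (s a b)).1; positivity, ?_⟩, fun a b hb hw => ?_, ?_⟩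
    · have b1 : √(1 - 2 * γ) ≤ 1 := Real.sqrt_le_one.mpr (by linarith)
      have b2 : w0 (s a b) / √(S2 (u (s a b))) ≤ 1 + ε := by
        rw [← hc]
        exact div_le_div₀ zero_le_one (hw01 _).2 (Real.sqrt_pos.mpr hS.cpos)
          (Real.sqrt_le_sqrt (hS.lo _))
      have := mul_le_mul b1 b2 (by have := (hw01 (s a b)).1; positivity) zero_le_one
      linarith
    · have : 0 ≤ s a b ∧ s a b < 1 := by
        by_contra hc
        simp [hw0, hc] at hw
      simp only [hs] at this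
      rw [le_div_iff₀ (by positivity), div_lt_one (by positivity)] at this
      rw [le_div_iff₀ hN, div_lt_iff₀ hN]
      constructor <;> linarith [this.1, this.2]
    · simp only [hr]
      rw [mul_left_comm, ← mul_sub, abs_mul, abs_two, ← Complex.re_ofReal_mul, ← Complex.sub_re,
        Finset.mul_sum, ← Finset.sum_sub_distrib]
      have key : ∀ i, ‖(√N : ℝ) * J i ((k : ℤ) : ℝ) - ((√(1 - 2 * γ) *
          (w0 (s (t i) (T i)) / √(S2 (u (s (t i) (T i))))) * √(ℓ i / T i) : ℝ) : ℂ) *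
          (ζ i * ee (-(k * x i) + ℓ i * (-(k * γ) + (1 - 2 * γ) * (N * T i) *
            (S0 (u (s (t i) (T i))) - s (t i) (T i) * u (s (t i) (T i))))))‖
          ≤ 8 * g * √(ℓ i / (δ / 2)) + √(ℓ i / T i) * (2 * η) := by
        intro i
        have hℓi := hℓ i
        have hTi := hT i
        have tr : ∀ (y p T' : ℝ), δ / 2 ≤ T' →
            ‖(√N : ℝ) * JJ S0 y (L i) p (N * T') 0 k‖ ≤ 4 * g * √(ℓ i / (δ / 2)) := by
          intro y p T' hT'
          have hT'0 : 0 < T' := lt_of_lt_of_le (by positivity) hT'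
          refine (hbd N y (L i) p T' 0 k hN (hL0 i) hT'0 ((hN1 i).trans ?_)).trans ?_
          · rw [mul_assoc, mul_comm (N : ℝ)]
            have := hL0 i
            gcongr
          · have b1 : √(L i / T') ≤ g * √(ℓ i / (δ / 2)) := by
              rw [← Real.sqrt_sq hg0.le, ← Real.sqrt_mul (by positivity)]
              refine Real.sqrt_le_sqrt ?_
              simp only [hL, hγ]
              rw [mul_div_assoc]
              gcongr
            have := mul_le_mul b1 (show 1 + ε + (η + η) ≤ 4 by linarith) (by positivity)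
              (by positivity)
            linarith
        have c1 := tr (x i) (N * τ + μ1 i / L i) (t i - τ) (by linarith [ht0 i])
        have c3 := tr (-(x i + ℓ i)) (N * τ + μ3 i / L i) (t i + T i - τ) (by linarith [ht0 i])
        have hL2 : ℓ i - 2 * L i = (1 - 2 * γ) * ℓ i := by simp only [hL]; ring
        have hL2' : 0 < ℓ i - 2 * L i := by linarith [hL3 i, hL0 i]
        have c2 := hsp N (x i + L i) (ℓ i - 2 * L i) (N * t i) (T i) (ϑ i) k hN hL2' hTi
          ((hN2 i).trans (by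
            rw [mul_assoc, mul_comm (N : ℝ)]
            gcongr
            linarith [hL3 i])) _ (hu _) (hu1 _) (hu0 _) (w0 (s (t i) (T i)))
          (abs_le.mpr ⟨by linarith [(hw01 (s (t i) (T i))).1], (hw01 _).2⟩)
          (fun h0 h1 => if_pos (huw _ h0 h1))
        have e1 : √((ℓ i - 2 * L i) / T i) = √(1 - 2 * γ) * √(ℓ i / T i) := by
          rw [← Real.sqrt_mul (by linarith), hL2, mul_div_assoc]
        have c4 : √((ℓ i - 2 * L i) / T i) * (η + η) ≤ √(ℓ i / T i) * (2 * η) := by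
          rw [← two_mul]
          gcongr
          linarith [hL0 i]
        have e2 : Fr * ee (ϑ i - k * (x i + L i) + (ℓ i - 2 * L i) * (N * T i) *
            (S0 (u (s (t i) (T i))) - s (t i) (T i) * u (s (t i) (T i))))
            = ζ i * ee (-(k * x i) + ℓ i * (-(k * γ) + (1 - 2 * γ) * (N * T i) *
              (S0 (u (s (t i) (T i))) - s (t i) (T i) * u (s (t i) (T i))))) := by
          rw [sub_eq_add_neg (ϑ i), add_assoc (ϑ i), ee_add (ϑ i), hϑ, ← mul_assoc,
            mul_div_cancel₀ _ hFr]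
          congr 2
          simp only [hL]; ring
        replace c2 := c2.trans c4
        simp only [hs] at e2 ⊢
        rw [e2, e1] at c2
        rw [← Complex.norm_conj, map_mul, Complex.conj_ofReal] at c3
        simp only [hJ, Int.cast_natCast]
        have e : ∀ n a b c m : ℂ, n * (a + b + c) - m = n * a + (n * b - m) + n * c := by
          intros; ring
        rw [e, mul_right_comm (√(1 - 2 * γ))]
        refine norm_add₃_le.trans ?_
        simp only [hs] at c2
        linarith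
      have a1 := (Complex.abs_re_le_norm _).trans ((norm_sum_le _ _).trans
        (Finset.sum_le_sum (s := Finset.univ) fun i _ => key i))
      rw [Finset.sum_add_distrib, ← Finset.mul_sum, ← Finset.sum_mul, ← hA, ← hA'] at a1
      linarith

end Crest.Agent.R75
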