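import Mathlib

set_option autoImplicit false

namespace Crest.Agent.R75

open Finset

/-- sign of a boolean -/
def sg (b : Bool) : ℝ := if b then 1 else -1

theorem sg_cases (b : Bool) : sg b = 1 ∨ sg b = -1 := by cases b <;> simp [sg]

theorem round_le_exp (u : ℝ) {σ : ℝ} (hσ : 1 ≤ σ) :
    (|round u| : ℤ) ≤ Real.exp (-σ) * (Real.exp (2 * σ * u) + Real.exp (-(2 * σ * u))) := by
  by_cases h : |u| < 1 / 2
  · have : round u = 0 := round_eq_zero_iff.mpr ⟨(abs_lt.mp h).1.le, (abs_lt.mp h).2⟩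
    rw [this]
    simp only [abs_zero, Int.cast_zero]
    positivity
  · push Not at h
    have a1 : ((|round u| : ℤ) : ℝ) ≤ 2 * |u| := by
      have := abs_sub_round u
      have b := abs_sub_abs_le_abs_sub (round u : ℝ) u
      rw [abs_sub_comm] at b
      push_cast
      linarith
    have a2 : 2 * |u| ≤ Real.exp (σ * (2 * |u| - 1)) := by
      have := Real.add_one_le_exp (σ * (2 * |u| - 1))
      nlinarith
    have a3 : Real.exp (σ * (2 * |u| - 1)) = Real.exp (-σ) * Real.exp (2 * σ * |u|) := by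
      rw [← Real.exp_add]; congr 1; ring
    refine a1.trans (a2.trans ?_)
    rw [a3]
    refine mul_le_mul_of_nonneg_left ?_ (Real.exp_pos _).le
    rcases abs_cases u with h' | h'
    · rw [h'.1]; linarith [Real.exp_pos (-(2 * σ * u))]
    · rw [h'.1, mul_neg]; linarith [Real.exp_pos (2 * σ * u)]

theorem sum_exp_sg {κ : Type} [Fintype κ] [DecidableEq κ] (a : κ → ℝ) (ha : ∀ i, |a i| ≤ 1)
    (l : ℝ) : ∑ χ : κ → Bool, Real.exp (l * ∑ i, a i * sg (χ i))
      ≤ 2 ^ Fintype.card κ * Real.exp (Fintype.card κ * (l ^ 2 / 2)) := by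
  have e : ∀ χ : κ → Bool, Real.exp (l * ∑ i, a i * sg (χ i))
      = ∏ i, Real.exp (l * (a i * sg (χ i))) := fun χ => by rw [mul_sum, Real.exp_sum]
  simp only [e]
  rw [← Fintype.prod_sum (fun i (b : Bool) => Real.exp (l * (a i * sg b))), Real.exp_nat_mul,
    ← mul_pow, ← Finset.card_univ, ← prod_const]
  refine prod_le_prod (fun i _ => sum_nonneg fun _ _ => (Real.exp_pos _).le) fun i _ => ?_
  have h1 := Real.cosh_le_exp_half_sq (l * a i)
  rw [Real.cosh_eq] at h1
  have h2 : Real.exp ((l * a i) ^ 2 / 2) ≤ Real.exp (l ^ 2 / 2) := by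
    refine Real.exp_le_exp.mpr ?_
    have : a i ^ 2 ≤ 1 := by have := ha i; rw [← sq_abs]; nlinarith [abs_nonneg (a i)]
    rw [mul_pow]
    nlinarith [sq_nonneg l]
  simp only [Fintype.sum_bool, sg, if_true, Bool.false_eq_true, if_false, mul_one, mul_neg]
  linarith

theorem sum_geom_abs {q : ℝ} (h0 : 0 ≤ q) (h1 : q ≤ 1 / 2) (B : ℕ) :
    ∑ b ∈ Icc (-(B : ℤ)) B, q ^ b.natAbs ≤ 1 + 4 * q - 4 * q ^ (B + 1) := by
  induction B with
  | zero => simp
  | succ B ih =>
    have e : Icc (-((B + 1 : ℕ) : ℤ)) (B + 1 : ℕ)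
        = insert (-((B + 1 : ℕ) : ℤ)) (insert ((B + 1 : ℕ) : ℤ) (Icc (-(B : ℤ)) B)) := by
      ext b; simp only [mem_Icc, mem_insert]; omega
    rw [e, sum_insert (by simp only [mem_Icc, mem_insert]; omega),
      sum_insert (by simp only [mem_Icc]; omega), Int.natAbs_neg, Int.natAbs_natCast]
    have : 0 ≤ q ^ (B + 1) := by positivity
    rw [pow_succ q (B + 1)]
    nlinarith

/-- Partial colouring. -/
theorem partial_colouring {κ ρ : Type} [Fintype κ] [Fintype ρ] (hn : 0 < Fintype.card κ)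
    (hm : Fintype.card κ ≤ Fintype.card ρ) (a : ρ → κ → ℝ) (ha : ∀ r i, |a r i| ≤ 1) :
    ∃ (B : Finset κ) (χ : κ → ℝ), Fintype.card κ ≤ 10 * #B ∧ (∀ i ∈ B, χ i = 1 ∨ χ i = -1) ∧
      ∀ r, |∑ i ∈ B, a r i * χ i| ≤ 6 * √√(Fintype.card κ * Fintype.card ρ) := by
  classical
  set n := Fintype.card κ with hnn
  set m := Fintype.card ρ with hmm
  have hn' : (0 : ℝ) < n := by exact_mod_cast hn
  have hm' : (n : ℝ) ≤ m := by exact_mod_cast hm
  set y := √((m : ℝ) / n) with hy
  have hy1 : 1 ≤ y := Real.one_le_sqrt.mpr (by rw [le_div_iff₀ hn']; linarith)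
  have hy2 : (m : ℝ) = n * y ^ 2 := by rw [hy, Real.sq_sqrt (by positivity)]; field_simp
  set s := 16 * y with hs
  have hs16 : 16 ≤ s := by linarith
  set Δ := √(8 * n * s) with hΔ
  have hΔ0 : 0 < Δ := Real.sqrt_pos.mpr (by positivity)
  have hΔ2 : Δ ^ 2 = 8 * n * s := Real.sq_sqrt (by positivity)
  have hΔ3 : Δ ≤ 12 * √√((n : ℝ) * m) := by
    have : √((n : ℝ) * m) = n * y := by
      rw [hy2, show (n : ℝ) * (n * y ^ 2) = (n * y) ^ 2 by ring, Real.sqrt_sq (by positivity)]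
    rw [this, hΔ, Real.sqrt_le_left (by positivity), mul_pow, Real.sq_sqrt (by positivity), hs]
    have : 0 < n * y := by positivity
    linarith
  set x : ρ → (κ → Bool) → ℝ := fun r χ => ∑ i, a r i * sg (χ i) with hx
  set b : (κ → Bool) → ρ → ℤ := fun χ r => round (x r χ / Δ) with hb
  suffices h : ∃ χ χ' : κ → Bool, b χ = b χ' ∧ n ≤ 10 * #{i | χ i ≠ χ' i} by
    obtain ⟨χ, χ', h1, h2⟩ := h
    refine ⟨_, fun i => sg (χ i), h2, fun i _ => sg_cases _, fun r => ?_⟩
    have e : x r χ - x r χ' = 2 * ∑ i ∈ {i | χ i ≠ χ' i}, a r i * sg (χ i) := by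
      simp only [hx]
      rw [sum_filter, mul_sum, ← sum_sub_distrib]
      refine sum_congr rfl fun i _ => ?_
      cases χ i <;> cases χ' i <;> simp [sg] <;> ring
    have c1 := abs_sub_round (x r χ / Δ)
    have c2 := abs_sub_round (x r χ' / Δ)
    have c3 : round (x r χ / Δ) = round (x r χ' / Δ) := congrFun h1 r
    rw [c3] at c1
    have c4 : |x r χ / Δ - x r χ' / Δ| ≤ 1 := by
      rw [abs_le] at c1 c2 ⊢; constructor <;> linarith
    rw [← sub_div, e, abs_div, abs_of_pos hΔ0, div_le_one hΔ0, abs_mul, abs_two] at c4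
    linarith
  by_contra hcon
  push Not at hcon
  set q := Real.exp (-s) with hq
  have hq0 : 0 < q := Real.exp_pos _
  have hq3 : s ^ 3 * q ≤ 6 := by
    have := Real.pow_div_factorial_le_exp s (by linarith) 3
    rw [hq, Real.exp_neg, ← div_eq_mul_inv, div_le_iff₀ (Real.exp_pos _)]
    norm_num [Nat.factorial] at this
    linarith
  have hq1 : q ≤ 1 / 2 := by
    have : 16 ^ 3 ≤ s ^ 3 := by gcongr
    nlinarith
  set T := m * (2 * s * q) with hT
  have hTn : T + m * (4 * q) ≤ n / 10 := by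
    have : 4 * q ≤ 2 * s * q := by nlinarith
    have b1 : (m : ℝ) * (4 * q) ≤ m * (2 * s * q) := by gcongr
    have b2 : (m : ℝ) * (2 * s * q) = n * (s ^ 3 * q) / 128 := by rw [hy2, hs]; ring
    have b3 : (n : ℝ) * (s ^ 3 * q) ≤ n * 6 := by gcongr
    linarith
  have hcost : ∑ χ : κ → Bool, ∑ r, s * ((|b χ r| : ℤ) : ℝ) ≤ 2 ^ n * T := by
    rw [sum_comm, hT, mul_left_comm, hmm, ← Finset.card_univ, ← nsmul_eq_mul, ← sum_const]
    refine sum_le_sum fun r _ => ?_
    rw [← mul_sum]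
    have d1 := sum_exp_sg (a r) (ha r) (4 * s / Δ)
    have d2 := sum_exp_sg (a r) (ha r) (-(4 * s / Δ))
    have e : (n : ℝ) * ((4 * s / Δ) ^ 2 / 2) = s := by rw [div_pow, hΔ2]; field_simp; ring
    rw [neg_sq] at d2
    rw [← hnn, e] at d1 d2
    have d3 : ∑ χ : κ → Bool, ((|b χ r| : ℤ) : ℝ) ≤ Real.exp (-(2 * s)) *
        (∑ χ : κ → Bool, Real.exp (4 * s / Δ * ∑ i, a r i * sg (χ i))
          + ∑ χ : κ → Bool, Real.exp (-(4 * s / Δ) * ∑ i, a r i * sg (χ i))) := by
      rw [← sum_add_distrib, mul_sum]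
      refine sum_le_sum fun χ _ => (round_le_exp _ (σ := 2 * s) (by linarith)).trans (le_of_eq ?_)
      simp only [hx]
      congr 3 <;> ring
    have d4 : Real.exp (-(2 * s)) * Real.exp s = q := by rw [← Real.exp_add]; congr 1; ring
    have d5 : ∑ χ : κ → Bool, ((|b χ r| : ℤ) : ℝ) ≤ 2 ^ n * (2 * q) := by
      refine d3.trans ((mul_le_mul_of_nonneg_left (add_le_add d1 d2) (Real.exp_pos _).le).trans
        (le_of_eq ?_))
      rw [← d4]; ring
    calc _ ≤ s * (2 ^ n * (2 * q)) := by gcongr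
      _ = _ := by ring
  set ν : (ρ → ℤ) → ℝ := fun β => ∏ r, q ^ (β r).natAbs with hν
  have hν0 : ∀ β, 0 ≤ ν β := fun β => prod_nonneg fun _ _ => by positivity
  have hlow : 2 ^ n * Real.exp (-T) ≤ ∑ χ : κ → Bool, ν (b χ) := by
    have e : ∀ χ, Real.exp (-T) * (1 + T - ∑ r, s * ((|b χ r| : ℤ) : ℝ)) ≤ ν (b χ) := fun χ => by
      have e1 : ν (b χ) = Real.exp (-T) * Real.exp (T - ∑ r, s * ((|b χ r| : ℤ) : ℝ)) := by
        rw [← Real.exp_add, show ∀ u v : ℝ, -u + (u - v) = -v from fun u v => by ring,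
          ← sum_neg_distrib, Real.exp_sum]
        refine prod_congr rfl fun r _ => ?_
        rw [hq, ← Real.exp_nat_mul, Nat.cast_natAbs]
        congr 1; ring
      rw [e1]
      refine mul_le_mul_of_nonneg_left ?_ (Real.exp_pos _).le
      linarith [Real.add_one_le_exp (T - ∑ r, s * ((|b χ r| : ℤ) : ℝ))]
    refine le_trans ?_ (sum_le_sum fun χ _ => e χ)
    rw [← mul_sum, sum_sub_distrib, sum_const, Finset.card_univ, Fintype.card_fun,
      Fintype.card_bool, ← hnn, nsmul_eq_mul, mul_comm]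
    refine mul_le_mul_of_nonneg_left ?_ (Real.exp_pos _).le
    rw [Nat.cast_pow, Nat.cast_ofNat]
    linarith
  set P := Real.exp (n / 10) * (1 + Real.exp (-1)) ^ n with hP
  have hP0 : 0 < P := by positivity
  have hcls : ∀ β, (#{χ : κ → Bool | b χ = β} : ℝ) ≤ P := fun β => by
    rcases ({χ : κ → Bool | b χ = β} : Finset _).eq_empty_or_nonempty with h | ⟨χ₀, h⟩
    · rw [h]; simpa using hP0.le
    · have e : (1 + Real.exp (-1)) ^ n = ∑ χ : κ → Bool,
          ∏ i, if χ₀ i ≠ χ i then Real.exp (-1) else 1 := by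
        rw [← Fintype.prod_sum (fun i (c : Bool) => if χ₀ i ≠ c then Real.exp (-1) else 1), hnn,
          ← Finset.card_univ, ← prod_const]
        refine prod_congr rfl fun i _ => ?_
        cases χ₀ i <;> simp [add_comm]
      rw [hP, e, mul_sum, card_eq_sum_ones, Nat.cast_sum]
      refine (sum_le_sum fun χ hχ => ?_).trans (sum_le_sum_of_subset_of_nonneg (subset_univ _)
        fun χ _ _ => mul_nonneg (Real.exp_pos _).le (prod_nonneg fun i _ => by positivity))
      have h1 := hcon χ₀ χ (by rw [(mem_filter.mp h).2, (mem_filter.mp hχ).2])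
      rw [← prod_filter, prod_const, ← Real.exp_nat_mul, ← Real.exp_add, Nat.cast_one]
      refine Real.one_le_exp ?_
      have : (10 * #{i | χ₀ i ≠ χ i} : ℝ) ≤ n := by exact_mod_cast h1.le
      linarith
  obtain ⟨B, hB⟩ := (Set.finite_range fun p : (κ → Bool) × ρ => (b p.1 p.2).natAbs).bddAbove
  have hup : ∑ χ : κ → Bool, ν (b χ) ≤ P * Real.exp (m * (4 * q)) := by
    rw [← sum_fiberwise_of_maps_to (t := Fintype.piFinset fun _ : ρ => Icc (-(B : ℤ)) B) (g := b)
      (fun χ _ => Fintype.mem_piFinset.mpr fun r => by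
        have := hB ⟨(χ, r), rfl⟩
        simp only [mem_Icc] at this ⊢
        omega)]
    calc _ ≤ ∑ β ∈ Fintype.piFinset fun _ : ρ => Icc (-(B : ℤ)) B, P * ν β := by
          refine sum_le_sum fun β _ => ?_
          rw [sum_congr rfl (g := fun _ => ν β) (fun χ hχ => by rw [(mem_filter.mp hχ).2]),
            sum_const, nsmul_eq_mul]
          exact mul_le_mul_of_nonneg_right (hcls β) (hν0 β)
      _ ≤ _ := by
          rw [← mul_sum]
          refine mul_le_mul_of_nonneg_left ?_ hP0.le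
          simp only [hν]
          rw [← prod_univ_sum (fun _ : ρ => Icc (-(B : ℤ)) B) (fun _ c => q ^ c.natAbs),
            prod_const, Finset.card_univ, Real.exp_nat_mul]
          refine pow_le_pow_left₀ (sum_nonneg fun _ _ => by positivity) ?_ _
          have := sum_geom_abs hq0.le hq1 B
          have h2 : 0 ≤ q ^ (B + 1) := by positivity
          linarith [Real.add_one_le_exp (4 * q)]
  have h1 : (2 : ℝ) ^ n ≤ (Real.exp (1 / 5) * (1 + Real.exp (-1))) ^ n := by
    have c1 := mul_le_mul_of_nonneg_right (hlow.trans hup) (Real.exp_pos T).le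
    rw [mul_assoc, ← Real.exp_add, neg_add_cancel, Real.exp_zero, mul_one, hP] at c1
    refine c1.trans ?_
    rw [mul_pow, ← Real.exp_nat_mul, mul_assoc, ← Real.exp_add, mul_right_comm, ← Real.exp_add]
    gcongr
    linarith
  have h2 : Real.exp (1 / 5) * (1 + Real.exp (-1)) < 2 := by
    have c1 := Real.exp_neg_one_lt_d9
    have c2 : Real.exp (1 / 5) ≤ 5 / 4 := by
      have := Real.add_one_le_exp (-(1 / 5))
      have e : Real.exp (1 / 5) * Real.exp (-(1 / 5)) = 1 := by rw [← Real.exp_add]; simp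
      nlinarith [Real.exp_pos (1 / 5)]
    nlinarith [Real.exp_pos (1 / 5), Real.exp_pos (-1)]
  exact absurd h1 (not_le.mpr (pow_lt_pow_left₀ h2 (by positivity) hn.ne'))

/-- Full colouring (Spencer-type bound). -/
theorem full_colouring {ι ρ : Type} [Fintype ρ] (a : ρ → ι → ℝ) (ha : ∀ r i, |a r i| ≤ 1)
    (A : Finset ι) (hm : #A ≤ Fintype.card ρ) :
    ∃ χ : ι → ℝ, (∀ i, χ i = 1 ∨ χ i = -1) ∧
      ∀ r, |∑ i ∈ A, a r i * χ i| ≤ 300 * √√(#A * Fintype.card ρ) := by
  classical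
  induction A using Finset.strongInduction with
  | H A ih =>
    rcases A.eq_empty_or_nonempty with rfl | hA
    · exact ⟨fun _ => 1, fun _ => Or.inl rfl, fun r => by simp⟩
    obtain ⟨B, χ, h1, h2, h3⟩ := partial_colouring (κ := A) (ρ := ρ)
      (by simpa using hA) (by simpa using hm) (fun r i => a r i) (fun r i => ha r i)
    rw [Fintype.card_coe] at h1 h3
    set B' := B.map (Function.Embedding.subtype _) with hB'
    have hBA : B' ⊆ A := fun i hi => by
      obtain ⟨j, -, rfl⟩ := mem_map.mp hi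
      exact j.2
    have hc : #B' = #B := card_map _
    have hA0 := hA.card_pos
    have hc2 : #(A \ B') = #A - #B := by rw [card_sdiff_of_subset hBA, hc]
    obtain ⟨χ', h4, h5⟩ := ih (A \ B') (sdiff_ssubset hBA (card_pos.mp (by omega)))
      (by omega)
    set χ'' : ι → ℝ := fun i => if h : i ∈ B' then χ ⟨i, hBA h⟩ else χ' i with hχ''
    have g1 : ∀ i ∈ B, χ'' i = χ i := fun i hi => dif_pos (mem_map_of_mem _ hi)
    have g2 : ∀ i ∉ B', χ'' i = χ' i := fun i hi => dif_neg hi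
    clear_value χ''
    refine ⟨χ'', fun i => ?_, fun r => ?_⟩
    · by_cases h : i ∈ B'
      · obtain ⟨j, hj, rfl⟩ := mem_map.mp h
        have := h2 j hj
        rwa [← g1 j hj] at this
      · rw [g2 i h]; exact h4 i
    · have g3 : ∑ i ∈ B', a r i * χ'' i = ∑ i ∈ B, a r i * χ i := by
        rw [hB', sum_map]
        exact sum_congr rfl fun i hi => by rw [← g1 i hi]; rfl
      rw [← sum_sdiff hBA, sum_congr rfl (g := fun i => a r i * χ' i)
        (fun i hi => by rw [g2 i (mem_sdiff.mp hi).2]), g3]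
      have e : √√((#(A \ B') : ℝ) * Fintype.card ρ) ≤ 49 / 50 * √√(#A * Fintype.card ρ) := by
        have : (#(A \ B') : ℝ) ≤ ((49 / 50) ^ 2) ^ 2 * #A := by
          have : 10 * #(A \ B') ≤ 9 * #A := by omega
          have : (10 * #(A \ B') : ℝ) ≤ 9 * #A := by exact_mod_cast this
          have : (0 : ℝ) ≤ #A := by positivity
          linarith
        rw [← Real.sqrt_sq (show (0 : ℝ) ≤ 49 / 50 by norm_num), ← Real.sqrt_mul (by positivity),
          ← Real.sqrt_sq (show (0 : ℝ) ≤ (49 / 50) ^ 2 by norm_num),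
          ← Real.sqrt_mul (by positivity), ← mul_assoc]
        gcongr
      refine (abs_add_le _ _).trans ?_
      linarith [h5 r, h3 r]

theorem dyadic_rounding {ι ρ : Type} [Fintype ι] [Fintype ρ] (a : ρ → ι → ℝ)
    (ha : ∀ r i, |a r i| ≤ 1) (hm : Fintype.card ι ≤ Fintype.card ρ) {E : ℝ} (j : ℕ) :
    ∀ z : ι → ℤ, (∀ i, 0 ≤ z i ∧ z i ≤ 2 ^ j) →
      ∑ i, (z i : ℝ) / 2 ^ j * (1 - z i / 2 ^ j) ≤ E →
      ∃ p : ι → ℝ, (∀ i, p i = 0 ∨ p i = 1) ∧ ∀ r, |∑ i, a r i * (z i / 2 ^ j - p i)|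
        ≤ 900 * (1 - (3 / 4) ^ j) * √√(E * Fintype.card ρ) := by
  classical
  induction j with
  | zero =>
    intro z hz _
    refine ⟨fun i => z i, fun i => ?_, fun r => by simp⟩
    have := hz i
    have : z i = 0 ∨ z i = 1 := by omega
    beta_reduce
    exact_mod_cast this
  | succ j ih =>
    intro z hz hE
    set A : Finset ι := {i | z i % 2 = 1} with hA
    have h2 : (0 : ℝ) < 2 ^ j := by positivity
    have hz0 : ∀ i, 0 ≤ (z i : ℝ) / 2 ^ (j + 1) * (1 - z i / 2 ^ (j + 1)) := fun i => by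
      have h1 : (0 : ℝ) ≤ z i := by exact_mod_cast (hz i).1
      have h3 : (z i : ℝ) ≤ 2 ^ (j + 1) := by exact_mod_cast (hz i).2
      exact mul_nonneg (by positivity) (by rw [sub_nonneg, div_le_one (by positivity)]; exact h3)
    have hAE : (#A : ℝ) ≤ 2 ^ (j + 2) * E := by
      refine le_trans ?_ (mul_le_mul_of_nonneg_left ((sum_le_sum_of_subset_of_nonneg
        (subset_univ A) fun i _ _ => hz0 i).trans hE) (by positivity))
      rw [mul_sum, card_eq_sum_ones, Nat.cast_sum]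
      refine sum_le_sum fun i hi => ?_
      have h0 := (mem_filter.mp hi).2
      have h4 := hz i
      rw [pow_succ] at h4
      have h1 : (1 : ℝ) ≤ z i := by exact_mod_cast (by omega : 1 ≤ z i)
      have h3 : (z i : ℝ) + 1 ≤ 2 ^ j * 2 := by exact_mod_cast (by omega : z i + 1 ≤ 2 ^ j * 2)
      rw [pow_succ, pow_succ, Nat.cast_one]
      field_simp
      nlinarith [mul_nonneg (sub_nonneg.mpr h1) (sub_nonneg.mpr h3)]
    obtain ⟨χ, hχ, hb, hs⟩ : ∃ χ : ι → ℝ, (∀ i, χ i = 1 ∨ χ i = -1) ∧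
        (∀ r, |∑ i ∈ A, a r i * χ i| ≤ 300 * √√(#A * Fintype.card ρ)) ∧
        ∑ i ∈ A, χ i * (2 ^ j - z i) ≤ 0 := by
      obtain ⟨χ, hχ, hb⟩ := full_colouring a ha A ((card_le_univ _).trans hm)
      by_cases h : ∑ i ∈ A, χ i * (2 ^ j - z i) ≤ 0
      · exact ⟨χ, hχ, hb, h⟩
      · refine ⟨fun i => -χ i, fun i => by rcases hχ i with h | h <;> simp [h], fun r => ?_, ?_⟩
        · simpa only [mul_neg, sum_neg_distrib, abs_neg] using hb r
        · simp only [neg_mul, sum_neg_distrib]; linarith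
    have hex : ∀ i, ∃ w : ℤ, (0 ≤ w ∧ w ≤ 2 ^ j) ∧
        (w : ℝ) * 2 = z i + if i ∈ A then χ i else 0 := fun i => by
      have h4 := hz i
      rw [pow_succ] at h4
      by_cases hi : i ∈ A
      · have h0 := (mem_filter.mp hi).2
        rw [if_pos hi]
        rcases hχ i with h | h <;> rw [h]
        · exact ⟨(z i + 1) / 2, by omega,
            by exact_mod_cast (by omega : (z i + 1) / 2 * 2 = z i + 1)⟩
        · exact ⟨(z i - 1) / 2, by omega,
            by exact_mod_cast (by omega : (z i - 1) / 2 * 2 = z i + -1)⟩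
      · have h0 : ¬ z i % 2 = 1 := by simpa [hA] using hi
        rw [if_neg hi]
        exact ⟨z i / 2, by omega, by exact_mod_cast (by omega : z i / 2 * 2 = z i + 0)⟩
    choose w hw hw2 using hex
    have hw3 : ∀ i, (w i : ℝ) / 2 ^ j
        = z i / 2 ^ (j + 1) + (if i ∈ A then χ i else 0) / 2 ^ (j + 1) := fun i => by
      rw [← add_div, ← hw2, pow_succ]; field_simp
    obtain ⟨p, hp, hp2⟩ := ih w hw (by
      refine le_trans ?_ hE
      have : ∀ i, (w i : ℝ) / 2 ^ j * (1 - w i / 2 ^ j) ≤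
          z i / 2 ^ (j + 1) * (1 - z i / 2 ^ (j + 1))
            + (if i ∈ A then χ i * (2 ^ j - z i) else 0) / (2 * (2 ^ j) ^ 2) := fun i => by
        rw [hw3]
        split_ifs
        · have : 0 ≤ (χ i / 2 ^ (j + 1)) ^ 2 := sq_nonneg _
          have e : χ i * (2 ^ j - z i) / (2 * (2 ^ j) ^ 2)
            = χ i / 2 ^ (j + 1) * (1 - 2 * (z i / 2 ^ (j + 1))) := by
            rw [pow_succ 2 j]; field_simp
          rw [e]; nlinarith
        · simp
      refine (sum_le_sum fun i _ => this i).trans ?_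
      rw [sum_add_distrib, ← sum_div, ← sum_filter, filter_mem_eq_inter, univ_inter]
      have := div_nonpos_of_nonpos_of_nonneg hs (show (0 : ℝ) ≤ 2 * (2 ^ j) ^ 2 by positivity)
      linarith)
    refine ⟨p, hp, fun r => ?_⟩
    have e : ∑ i, a r i * (z i / 2 ^ (j + 1) - p i)
        = ∑ i, a r i * (w i / 2 ^ j - p i) - (∑ i ∈ A, a r i * χ i) / 2 ^ (j + 1) := by
      rw [← univ_inter A, ← filter_mem_eq_inter, sum_filter, sum_div, ← sum_sub_distrib]
      refine sum_congr rfl fun i _ => ?_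
      rw [hw3]
      split_ifs <;> ring
    have hE0 : 0 ≤ E := (sum_nonneg fun i _ => hz0 i).trans hE
    have e2 : √√((#A : ℝ) * Fintype.card ρ) ≤ (3 / 2) ^ (j + 1) * √√(E * Fintype.card ρ) := by
      have : (2 : ℝ) ^ (j + 2) ≤ (((3 / 2) ^ (j + 1)) ^ 2) ^ 2 := by
        rw [← pow_mul, ← pow_mul, mul_comm (j + 1), pow_mul, pow_succ 2, pow_succ 2, pow_succ _ j,
          mul_assoc]
        gcongr <;> norm_num
      rw [← Real.sqrt_sq (show (0 : ℝ) ≤ (3 / 2) ^ (j + 1) by positivity),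
        ← Real.sqrt_mul (by positivity),
        ← Real.sqrt_sq (show (0 : ℝ) ≤ ((3 / 2) ^ (j + 1)) ^ 2 by positivity),
        ← Real.sqrt_mul (by positivity), ← mul_assoc]
      gcongr
      exact hAE.trans (by gcongr)
    rw [e]
    refine (abs_sub _ _).trans ?_
    rw [abs_div, abs_of_pos (show (0 : ℝ) < 2 ^ (j + 1) by positivity)]
    have e3 : |∑ i ∈ A, a r i * χ i| / 2 ^ (j + 1)
        ≤ 300 * (3 / 4) ^ (j + 1) * √√(E * Fintype.card ρ) := by
      rw [div_le_iff₀ (by positivity)]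
      refine (hb r).trans ((mul_le_mul_of_nonneg_left e2 (by norm_num)).trans (le_of_eq ?_))
      rw [show (3 / 2 : ℝ) = 3 / 4 * 2 by norm_num, mul_pow]; ring
    refine (add_le_add (hp2 r) e3).trans (le_of_eq ?_)
    ring

/-- Rounding a vector of `[-1,1]^ι` to signs. -/
theorem sign_rounding {ι ρ : Type} [Fintype ι] [Fintype ρ] (a : ρ → ι → ℝ)
    (ha : ∀ r i, |a r i| ≤ 1) (hm : Fintype.card ι ≤ Fintype.card ρ) {E : ℝ} (c : ι → ℝ)
    (hc : ∀ i, |c i| ≤ 1) (hE : ∑ i, (1 - c i ^ 2) ≤ E) :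
    ∃ χ : ι → ℝ, (∀ i, χ i = 1 ∨ χ i = -1) ∧
      ∀ r, |∑ i, a r i * (c i - χ i)| ≤ 1800 * √√((E + 1) * Fintype.card ρ) + 2 := by
  set j := Fintype.card ι with hj
  have h2 : (0 : ℝ) < 2 ^ j := by positivity
  have hj2 : (j : ℝ) * (1 / 2 ^ j) ≤ 1 := by
    rw [mul_one_div, div_le_one h2]
    exact_mod_cast Nat.lt_two_pow_self.le
  set z : ι → ℤ := fun i => ⌊(1 + c i) / 2 * 2 ^ j⌋ with hz
  have hc' : ∀ i, -1 ≤ c i ∧ c i ≤ 1 := fun i => abs_le.mp (hc i)
  have hz1 : ∀ i, (z i : ℝ) / 2 ^ j ≤ (1 + c i) / 2 := fun i => by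
    rw [div_le_iff₀ h2]; exact Int.floor_le _
  have hz2 : ∀ i, (1 + c i) / 2 ≤ (z i : ℝ) / 2 ^ j + 1 / 2 ^ j := fun i => by
    rw [← add_div, le_div_iff₀ h2]; exact (Int.lt_floor_add_one _).le
  have hz3 : ∀ i, 0 ≤ z i := fun i =>
    Int.floor_nonneg.mpr (mul_nonneg (by linarith [(hc' i).1]) h2.le)
  obtain ⟨p, hp, hp2⟩ := dyadic_rounding a ha hm (E := E + 1) j z
    (fun i => ⟨hz3 i, by
      have : (z i : ℝ) / 2 ^ j ≤ 1 := by linarith [hz1 i, (hc' i).2]
      rw [div_le_one h2] at this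
      exact_mod_cast this⟩) (by
      have : ∀ i, (z i : ℝ) / 2 ^ j * (1 - z i / 2 ^ j) ≤ (1 - c i ^ 2) + 1 / 2 ^ j := fun i => by
        have h1 := hz1 i
        have h3 := hz2 i
        have h4 : 0 ≤ (z i : ℝ) / 2 ^ j := div_nonneg (by exact_mod_cast hz3 i) h2.le
        have h5 := hc' i
        nlinarith [mul_nonneg h4 (sub_nonneg.mpr h1), mul_nonneg (sub_nonneg.mpr h5.1)
          (sub_nonneg.mpr h5.2), mul_nonneg (sub_nonneg.mpr h5.1) (sub_nonneg.mpr h1)]
      refine (sum_le_sum fun i _ => this i).trans ?_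
      rw [sum_add_distrib, sum_const, Finset.card_univ, nsmul_eq_mul, ← hj]
      linarith)
  refine ⟨fun i => 2 * p i - 1, fun i => by rcases hp i with h | h <;> simp only [h] <;> norm_num,
    fun r => ?_⟩
  have e : ∑ i, a r i * (c i - (2 * p i - 1)) = 2 * (∑ i, a r i * (z i / 2 ^ j - p i)
      + ∑ i, a r i * ((1 + c i) / 2 - z i / 2 ^ j)) := by
    rw [← sum_add_distrib, mul_sum]
    exact sum_congr rfl fun i _ => by ring
  have e2 : |∑ i, a r i * ((1 + c i) / 2 - z i / 2 ^ j)| ≤ 1 := by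
    refine (abs_sum_le_sum_abs _ _).trans (le_trans ?_ hj2)
    have : (j : ℝ) * (1 / 2 ^ j) = ∑ _i : ι, (1 / 2 ^ j : ℝ) := by
      rw [sum_const, Finset.card_univ, nsmul_eq_mul]
    rw [this]
    refine sum_le_sum fun i _ => ?_
    rw [abs_mul, abs_of_nonneg (sub_nonneg.mpr (hz1 i))]
    have := mul_le_mul_of_nonneg_right (ha r i) (sub_nonneg.mpr (hz1 i))
    linarith [hz2 i]
  rw [e, abs_mul, abs_two]
  have e3 := abs_add_le (∑ i, a r i * (z i / 2 ^ j - p i))
    (∑ i, a r i * ((1 + c i) / 2 - z i / 2 ^ j))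
  have e4 : 0 ≤ (3 / 4 : ℝ) ^ j * √√((E + 1) * Fintype.card ρ) := by positivity
  nlinarith [hp2 r]

end Crest.Agent.R75
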