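import Crest.Agent.R75.Osc
import Crest.Agent.R75.Spencer

set_option autoImplicit false

namespace Crest.Agent.R75

open Complex Finset Filter
open scoped Real ComplexConjugate

theorem ee_eq_one_iff {x : ℝ} : ee x = 1 ↔ ∃ n : ℤ, x = n := by
  refine ⟨fun h => ?_, fun ⟨n, h⟩ => h ▸ ee_int n⟩
  obtain ⟨n, hn⟩ := Complex.exp_eq_one_iff.mp h
  refine ⟨n, ?_⟩
  have hpi : (2 * π * I : ℂ) ≠ 0 := Complex.two_pi_I_ne_zero
  have : (x : ℂ) = n := mul_left_cancel₀ hpi (by rw [hn]; ring)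
  exact_mod_cast this

theorem sum_ee_div {M : ℕ} (hM : 0 < M) (h : ℤ) :
    ∑ j ∈ range M, ee (j * (h / M)) = if (M : ℤ) ∣ h then (M : ℂ) else 0 := by
  have hM' : (M : ℝ) ≠ 0 := by positivity
  simp only [ee_nat_mul]
  split_ifs with hd
  · obtain ⟨c, rfl⟩ := hd
    have : (((M * c : ℤ) : ℝ) / M) = c := by push_cast; field_simp
    rw [this, ee_int]; simp
  · have h1 : ee (h / M) ≠ 1 := fun h1 => by
      obtain ⟨n, hn⟩ := ee_eq_one_iff.mp h1
      rw [div_eq_iff hM'] at hn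
      exact hd ⟨n, by rw [mul_comm]; exact_mod_cast hn⟩
    rw [geom_sum_eq h1, ← ee_nat_mul, mul_div_cancel₀ _ hM', ee_int, sub_self, zero_div]

theorem normSq_ofReal (z : ℂ) : ((‖z‖ ^ 2 : ℝ) : ℂ) = z * conj z := by
  rw [Complex.mul_conj, Complex.normSq_eq_norm_sq]

theorem parseval_disc {M n : ℕ} (hM : 0 < M) (hn : n ≤ M) (d : ℕ → ℂ) :
    ∑ j ∈ range M, ‖∑ k ∈ range n, d k * ee (k * (j / M))‖ ^ 2
      = M * ∑ k ∈ range n, ‖d k‖ ^ 2 := by
  apply Complex.ofReal_injective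
  rw [Complex.ofReal_mul, Complex.ofReal_sum, Complex.ofReal_sum]
  simp only [normSq_ofReal, map_sum, sum_mul_sum, map_mul, ← ee_neg]
  rw [sum_comm, mul_sum]
  refine sum_congr rfl fun k hk => ?_
  rw [sum_comm, sum_eq_single_of_mem k hk]
  · have e : ∀ j : ℕ, d k * ee (k * (j / M)) * (conj (d k) * ee (-(k * (j / M))))
        = d k * conj (d k) := fun j => by
      rw [mul_mul_mul_comm, ← ee_add, add_neg_cancel, ee_zero, mul_one]
    simp only [e]
    simp
  · intro k' hk' hne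
    have e : ∀ j : ℕ, d k * ee (k * (j / M)) * (conj (d k') * ee (-(k' * (j / M))))
        = d k * conj (d k') * ee (j * (((k - k' : ℤ) : ℝ) / M)) := fun j => by
      rw [mul_mul_mul_comm, ← ee_add]; congr 2; push_cast; ring
    simp only [e]
    rw [← mul_sum, sum_ee_div hM, if_neg, mul_zero]
    intro hd
    have := mem_range.mp hk
    have := mem_range.mp hk'
    have := Int.eq_zero_of_abs_lt_dvd hd (by rw [abs_lt]; omega)
    omega

theorem dirichlet_sq {M n : ℕ} (hM : 0 < M) (hn : n ≤ M) (θ : ℝ) :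
    ∑ j ∈ range M, ‖∑ k ∈ range n, ee (k * (j / M - θ))‖ ^ 2 = M * n := by
  have := parseval_disc hM hn (fun k => ee (-(k * θ)))
  simp only [norm_ee, one_pow, sum_const, card_range, nsmul_eq_mul, mul_one, ← ee_add] at this
  rw [← this]
  refine sum_congr rfl fun j _ => ?_
  congr 2
  refine sum_congr rfl fun k _ => ?_
  congr 1; ring

/-- Sampling inequality. -/
theorem sampling {N : ℕ} (hN : 0 < N) (d : ℕ → ℂ) {B : ℝ}
    (hB : ∀ j < 2 * N, ‖∑ k ∈ range N, d k * ee (k * (j / (2 * N : ℕ)))‖ ≤ B) (θ : ℝ) :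
    ‖∑ k ∈ range N, d k * ee (k * θ)‖ ≤ 3 / 2 * B := by
  set M := 2 * N with hM
  have hM0 : 0 < M := by omega
  have key : ∑ j ∈ range M, (∑ k ∈ range N, d k * ee (k * (j / M))) *
      ((∑ a ∈ range N, ee (a * (j / M - θ))) * conj (∑ b ∈ range M, ee (b * (j / M - θ))))
      = (M * N : ℕ) * ∑ k ∈ range N, d k * ee (k * θ) := by
    have e : ∀ j : ℕ, (∑ k ∈ range N, d k * ee (k * (j / M))) *
        ((∑ a ∈ range N, ee (a * (j / M - θ))) * conj (∑ b ∈ range M, ee (b * (j / M - θ))))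
        = ∑ k ∈ range N, ∑ a ∈ range N, ∑ b ∈ range M,
          d k * ee ((b - a) * θ) * ee (j * (((k + a - b : ℤ) : ℝ) / M)) := fun j => by
      rw [map_sum, sum_mul_sum (range N) (range M), sum_mul]
      refine sum_congr rfl fun k _ => ?_
      rw [mul_sum]
      refine sum_congr rfl fun a _ => ?_
      rw [mul_sum]
      refine sum_congr rfl fun b _ => ?_
      rw [← ee_neg, ← ee_add, mul_assoc, mul_assoc, ← ee_add, ← ee_add]
      congr 2; push_cast; ring
    simp only [e]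
    rw [sum_comm, mul_sum]
    refine sum_congr rfl fun k hk => ?_
    have e0 : ((M * N : ℕ) : ℂ) * (d k * ee (k * θ))
        = ∑ a ∈ range N, (M : ℂ) * (d k * ee (k * θ)) := by
      rw [sum_const, card_range, nsmul_eq_mul]; push_cast; ring
    rw [e0, sum_comm]
    refine sum_congr rfl fun a ha => ?_
    have hk := mem_range.mp hk
    have ha := mem_range.mp ha
    rw [sum_comm, sum_eq_single_of_mem (k + a) (mem_range.mpr (by omega))]
    · rw [← mul_sum, sum_ee_div hM0, if_pos (by simp)]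
      push_cast
      rw [add_sub_cancel_right, mul_comm]
    · intro b hb hne
      rw [← mul_sum, sum_ee_div hM0, if_neg, mul_zero]
      intro hd
      have := mem_range.mp hb
      have := Int.eq_zero_of_abs_lt_dvd hd (by rw [abs_lt]; omega)
      omega
  have hN' : (0 : ℝ) < N := by exact_mod_cast hN
  have hB0 : 0 ≤ B := (norm_nonneg _).trans (hB 0 hM0)
  have h1 := congrArg norm key
  rw [norm_mul, Complex.norm_natCast] at h1
  have h2 : ‖∑ j ∈ range M, (∑ k ∈ range N, d k * ee (k * (j / M))) *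
      ((∑ a ∈ range N, ee (a * (j / M - θ))) * conj (∑ b ∈ range M, ee (b * (j / M - θ))))‖
      ≤ ∑ j ∈ range M, B * ((‖∑ a ∈ range N, ee (a * (j / M - θ))‖ ^ 2
        + ‖∑ b ∈ range M, ee (b * (j / M - θ))‖ ^ 2) / 2) := by
    refine (norm_sum_le _ _).trans (sum_le_sum fun j hj => ?_)
    rw [norm_mul, norm_mul, Complex.norm_conj]
    refine mul_le_mul (hB j (mem_range.mp hj)) ?_ (by positivity) hB0
    nlinarith [sq_nonneg (‖∑ a ∈ range N, ee (a * (j / M - θ))‖
      - ‖∑ b ∈ range M, ee (b * (j / M - θ))‖)]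
  rw [← mul_sum, ← sum_div, sum_add_distrib, dirichlet_sq hM0 (by omega),
    dirichlet_sq hM0 le_rfl, h1, hM] at h2
  push_cast at h2
  have h3 : (0 : ℝ) < 2 * N * N := by positivity
  nlinarith

/-- Rounding an almost flat polynomial with almost bounded real coefficients to signs. -/
theorem round_poly {ε : ℝ} (hε : 0 < ε) : ∃ η : ℝ, 0 < η ∧ η ≤ 1 ∧ ∀ᶠ N : ℕ in atTop,
    ∀ c : ℕ → ℝ, (∀ k, |c k| ≤ 1 + η) →
      (∀ θ : ℝ, |‖∑ k ∈ range N, (c k : ℂ) * ee (k * θ)‖ - √N| ≤ η * √N) →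
      ∃ χ : Fin N → ℝ, (∀ k, χ k = 1 ∨ χ k = -1) ∧
        ∀ θ : ℝ, |‖∑ k : Fin N, (χ k : ℂ) * ee ((k : ℕ) * θ)‖ - √N| ≤ ε * √N := by
  set τ := min (ε / 20000) 1 with hτ
  have hτ0 : 0 < τ := by positivity
  have hτ1 : τ ≤ 1 := min_le_right _ _
  have hτ2 : τ ≤ ε / 20000 := min_le_left _ _
  set η := (τ ^ 2) ^ 2 / 20 with hη
  have hη0 : 0 < η := by positivity
  have hη1 : η ≤ τ := by
    have : τ ^ 3 ≤ 1 := pow_le_one₀ hτ0.le hτ1
    rw [hη]; nlinarith
  refine ⟨η, hη0, by linarith, ?_⟩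
  filter_upwards [eventually_gt_atTop 0,
    (tendsto_natCast_atTop_atTop.const_mul_atTop hη0).eventually_ge_atTop 1,
    ((Real.tendsto_sqrt_atTop.comp tendsto_natCast_atTop_atTop).const_mul_atTop
      hε).eventually_ge_atTop 12] with N hN hN1 hN2 c hc hP
  simp only [Function.comp] at hN2
  have hN' : (0 : ℝ) < N := by exact_mod_cast hN
  have hs0 : 0 < √(N : ℝ) := Real.sqrt_pos.mpr hN'
  have hsq : (1 - η) ^ 2 * N ≤ ∑ k ∈ range N, c k ^ 2 := by
    have a1 := parseval_disc hN le_rfl (fun k => (c k : ℂ))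
    simp only [Complex.norm_real, Real.norm_eq_abs, sq_abs] at a1
    refine le_of_mul_le_mul_left ?_ hN'
    rw [← a1]
    refine le_trans (le_of_eq ?_) (card_nsmul_le_sum _ _ ((1 - η) ^ 2 * N) fun j _ => ?_)
    · rw [card_range, nsmul_eq_mul]
    · have := (abs_le.mp (hP (j / N))).1
      calc (1 - η) ^ 2 * N = ((1 - η) * √N) ^ 2 := by rw [mul_pow, Real.sq_sqrt hN'.le]
        _ ≤ _ := pow_le_pow_left₀ (mul_nonneg (by linarith) hs0.le) (by linarith) 2
  obtain ⟨χ, hχ, hb⟩ := sign_rounding (ι := Fin N) (ρ := Fin (2 * N) × Bool)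
    (fun r k => if r.2 then (ee ((k : ℕ) * ((r.1 : ℕ) / (2 * N : ℕ)))).re
      else (ee ((k : ℕ) * ((r.1 : ℕ) / (2 * N : ℕ)))).im)
    (fun r k => by
      split_ifs
      · exact (Complex.abs_re_le_norm _).trans (norm_ee _).le
      · exact (Complex.abs_im_le_norm _).trans (norm_ee _).le)
    (by simp; omega) (E := 4 * η * N) (fun k => c k / (1 + η))
    (fun k => by rw [abs_div, abs_of_pos (show 0 < 1 + η by linarith), div_le_one (by linarith)]
                 exact hc k)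
    (by
      rw [sum_sub_distrib, Fin.sum_univ_eq_sum_range (fun k => (c k / (1 + η)) ^ 2) N]
      simp only [div_pow, sum_const, card_univ, Fintype.card_fin, nsmul_eq_mul, mul_one]
      rw [← sum_div, sub_le_comm, le_div_iff₀ (by positivity)]
      refine le_trans ?_ hsq
      have : (1 - 4 * η) * (1 + η) ^ 2 ≤ (1 - η) ^ 2 := by nlinarith [sq_nonneg η, pow_pos hη0 3]
      nlinarith)
  refine ⟨χ, hχ, fun θ => ?_⟩
  have hroot : √√((4 * η * N + 1) * Fintype.card (Fin (2 * N) × Bool)) ≤ τ * √N := by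
    rw [Real.sqrt_le_left (by positivity), Real.sqrt_le_left (by positivity), mul_pow,
      Real.sq_sqrt hN'.le]
    simp only [Fintype.card_prod, Fintype.card_fin, Fintype.card_bool]
    push_cast
    have : (τ ^ 2 * N) ^ 2 = 20 * η * N * N := by rw [hη]; ring
    rw [this]
    nlinarith
  set d : ℕ → ℝ := fun k => if h : k < N then c k / (1 + η) - χ ⟨k, h⟩ else 0 with hd
  have hd2 : ∀ x : ℕ → ℂ, ∑ k ∈ range N, (d k : ℂ) * x k
      = ∑ k : Fin N, ((c k / (1 + η) - χ k : ℝ) : ℂ) * x k := fun x => by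
    rw [← Fin.sum_univ_eq_sum_range (fun k => (d k : ℂ) * x k) N]
    exact sum_congr rfl fun k _ => by simp only [hd, dif_pos k.2]
  have a1 := sampling hN (fun k => (d k : ℂ)) (B := 2 * (1800 * (τ * √N) + 2)) (fun j hj => by
    rw [hd2]
    refine (Complex.norm_le_abs_re_add_abs_im _).trans ?_
    have b1 := hb (⟨j, hj⟩, true)
    have b2 := hb (⟨j, hj⟩, false)
    simp only [if_true, Bool.false_eq_true, if_false, mul_comm _ (_ - χ _)] at b1 b2
    rw [Complex.re_sum, Complex.im_sum]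
    simp only [Complex.re_ofReal_mul, Complex.im_ofReal_mul]
    linarith) θ
  rw [hd2] at a1
  have e : ∑ k : Fin N, (χ k : ℂ) * ee ((k : ℕ) * θ)
      = ((1 / (1 + η) : ℝ) : ℂ) * ∑ k ∈ range N, (c k : ℂ) * ee (k * θ)
        - ∑ k : Fin N, ((c k / (1 + η) - χ k : ℝ) : ℂ) * ee ((k : ℕ) * θ) := by
    rw [← Fin.sum_univ_eq_sum_range (fun k => (c k : ℂ) * ee (k * θ)) N, mul_sum,
      ← sum_sub_distrib]
    exact sum_congr rfl fun k _ => by push_cast; ring
  have a2 := abs_norm_sub_norm_le (∑ k : Fin N, (χ k : ℂ) * ee ((k : ℕ) * θ))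
    (((1 / (1 + η) : ℝ) : ℂ) * ∑ k ∈ range N, (c k : ℂ) * ee (k * θ))
  have e2 : ∀ u v w : ℂ, u = v - w → ‖u - v‖ = ‖w‖ := fun u v w h => by simp [h]
  rw [e2 _ _ _ e, norm_mul, Complex.norm_real, Real.norm_of_nonneg (by positivity)] at a2
  have a3 := abs_le.mp (hP θ)
  set p := ‖∑ k ∈ range N, (c k : ℂ) * ee (k * θ)‖ with hp
  have a4 : 1 / (1 + η) * p ≤ √N := by
    rw [one_div_mul_eq_div, div_le_iff₀ (by linarith)]; linarith
  have a5 : (1 - 2 * η) * √N ≤ 1 / (1 + η) * p := by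
    rw [one_div_mul_eq_div, le_div_iff₀ (by linarith)]
    have : 0 ≤ η ^ 2 * √N := by positivity
    nlinarith
  have a6 := mul_le_mul_of_nonneg_right hη1 hs0.le
  have a7 := mul_le_mul_of_nonneg_right hτ2 hs0.le
  have a8 := abs_le.mp (a2.trans a1)
  rw [abs_le]
  constructor <;> linarith

end Crest.Agent.R75
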