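import Crest.Agent.R75.Inv
import Crest.Agent.R75.Round

set_option autoImplicit false

namespace Crest.Agent.R75

open Complex MeasureTheory Filter Topology intervalIntegral Finset
open scoped Real ComplexConjugate

/-- The Fejér kernel. -/
noncomputable def fej (A : ℕ) (x : ℝ) : ℝ := ‖∑ j ∈ range A, ee (j * x)‖ ^ 2 / A

/-- Its Fourier coefficients. -/
noncomputable def kap (A : ℕ) (a : ℤ) : ℝ := 1 - |(a : ℝ)| / A

/-- Fourier coefficients on `[0,1]`. -/
noncomputable def hat (h : ℝ → ℂ) (a : ℤ) : ℂ := ∫ x in (0 : ℝ)..1, h x * ee (-(a * x))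

theorem fej_nonneg (A : ℕ) (x : ℝ) : 0 ≤ fej A x := by unfold fej; positivity

theorem fej_eq {A : ℕ} (hA : 0 < A) (x : ℝ) :
    (fej A x : ℂ) = ∑ a ∈ Ioo (-(A : ℤ)) A, (kap A a : ℂ) * ee (a * x) := by
  have hA' : (A : ℂ) ≠ 0 := by exact_mod_cast hA.ne'
  rw [fej, Complex.ofReal_div, normSq_ofReal, map_sum, sum_mul_sum, ← sum_product',
    ← sum_fiberwise_of_maps_to (t := Ioo (-(A : ℤ)) A) (g := fun p : ℕ × ℕ => (p.1 : ℤ) - p.2)
      (fun p hp => by simp only [mem_product, mem_range, mem_Ioo] at hp ⊢; omega), sum_div]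
  refine sum_congr rfl fun a ha => ?_
  rw [sum_congr rfl (g := fun _ => ee (a * x)) (fun p hp => by
    rw [← ee_neg, ← ee_add, ← (mem_filter.mp hp).2]; congr 1; push_cast; ring), sum_const]
  have ha := mem_Ioo.mp ha
  have : #{p ∈ range A ×ˢ range A | (p.1 : ℤ) - p.2 = a} = #(range (A - a.natAbs)) := by
    refine card_nbij' (fun p => min p.1 p.2) (fun t => (t + a.toNat, t + (-a).toNat)) ?_ ?_ ?_ ?_
    · intro p hp
      simp only [coe_filter, mem_product, mem_range, Set.mem_ofPred_eq, coe_range, Set.mem_Iio]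
        at hp ⊢
      omega
    · intro t ht
      simp only [coe_filter, mem_product, mem_range, Set.mem_ofPred_eq, coe_range, Set.mem_Iio]
        at ht ⊢
      omega
    · intro p hp
      simp only [coe_filter, mem_product, mem_range, Set.mem_ofPred_eq] at hp
      ext <;> simp only <;> omega
    · intro t ht
      simp only
      omega
  rw [this, card_range, nsmul_eq_mul, Nat.cast_sub (by omega), kap, ← Int.cast_abs,
    ← Nat.cast_natAbs]
  push_cast
  field_simp

theorem fej_conv {A : ℕ} (hA : 0 < A) {h : ℝ → ℂ} (hh : IntervalIntegrable h volume 0 1) (ψ : ℝ) :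
    ∫ x in (0 : ℝ)..1, (fej A (ψ - x) : ℂ) * h x
      = ∑ a ∈ Ioo (-(A : ℤ)) A, (kap A a : ℂ) * hat h a * ee (a * ψ) := by
  simp only [fej_eq hA, sum_mul]
  rw [intervalIntegral.integral_finsetSum fun a _ => hh.continuousOn_mul (by fun_prop)]
  refine sum_congr rfl fun a _ => ?_
  rw [hat, mul_right_comm, ← intervalIntegral.integral_const_mul]
  refine integral_congr fun x _ => ?_
  rw [mul_sub, sub_eq_add_neg, ee_add]; ring

theorem continuous_fej (A : ℕ) : Continuous (fej A) := by unfold fej; fun_prop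

theorem fej_bound {A : ℕ} (hA : 0 < A) {h : ℝ → ℂ} (hh : IntervalIntegrable h volume 0 1)
    (hb : ∀ x, |(h x).re| ≤ 1) (ψ : ℝ) :
    |(∑ a ∈ Ioo (-(A : ℤ)) A, (kap A a : ℂ) * hat h a * ee (a * ψ)).re| ≤ 1 := by
  have hc : Continuous fun x => fej A (ψ - x) := (continuous_fej A).comp (by fun_prop)
  have h1 : ∫ x in (0 : ℝ)..1, fej A (ψ - x) = 1 := by
    have := fej_conv hA (h := fun _ => 1) intervalIntegrable_const ψ
    simp only [mul_one, hat, one_mul] at this
    rw [intervalIntegral.integral_ofReal, sum_eq_single_of_mem 0 (by simpa using hA)] at this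
    · simp only [kap, Int.cast_zero, abs_zero, zero_div, sub_zero, zero_mul, neg_zero,
        ee_zero] at this
      simpa using this
    · intro a _ ha
      have := integral_ee_int (-a)
      simp only [Int.cast_neg, neg_mul, neg_eq_zero, if_neg ha] at this
      rw [this]; simp
  rw [← fej_conv hA hh, ← Complex.reCLM_apply, ← Complex.reCLM.intervalIntegral_comp_comm
    (hh.continuousOn_mul (g := fun x => (fej A (ψ - x) : ℂ))
      (continuous_ofReal.comp hc).continuousOn), ← Real.norm_eq_abs]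
  refine (intervalIntegral.norm_integral_le_of_norm_le zero_le_one (ae_of_all _ fun x _ => ?_)
    (hc.intervalIntegrable _ _)).trans h1.le
  rw [Complex.reCLM_apply, Complex.re_ofReal_mul, Real.norm_eq_abs, abs_mul,
    abs_of_nonneg (fej_nonneg _ _)]
  exact mul_le_of_le_one_right (fej_nonneg _ _) (hb x)

theorem fej_lim {h : ℝ → ℂ} (hm : Measurable h) (h1 : ∀ x, ‖h x‖ = 1) :
    Tendsto (fun A : ℕ => ∑ a ∈ Ioo (-(A : ℤ)) A, ‖(kap A a : ℂ) * hat h a‖ ^ 2) atTop (𝓝 1) := by
  have hp := parseval hm (C := 1) (fun x _ => (h1 x).le)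
  simp only [h1, one_pow, intervalIntegral.integral_const, sub_zero, smul_eq_mul, mul_one] at hp
  rw [← hp.tsum_eq]
  have e : ∀ A : ℕ, ∑ a ∈ Ioo (-(A : ℤ)) A, ‖(kap A a : ℂ) * hat h a‖ ^ 2
      = ∑' a : ℤ, if a ∈ Ioo (-(A : ℤ)) A then kap A a ^ 2 * ‖hat h a‖ ^ 2 else 0 := fun A => by
    rw [tsum_eq_sum (s := Ioo (-(A : ℤ)) A) (fun a ha => if_neg ha)]
    refine sum_congr rfl fun a ha => ?_
    rw [if_pos ha, norm_mul, mul_pow, Complex.norm_real, Real.norm_eq_abs, sq_abs]
  simp only [e]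
  refine tendsto_tsum_of_dominated_convergence hp.summable (fun a => ?_)
    (Eventually.of_forall fun A a => ?_)
  · have a1 : Tendsto (fun A : ℕ => kap A a ^ 2 * ‖hat h a‖ ^ 2) atTop
        (𝓝 ((1 - 0) ^ 2 * ‖hat h a‖ ^ 2)) :=
      (((tendsto_const_div_atTop_nhds_zero_nat _).const_sub 1).pow 2).mul_const _
    rw [sub_zero, one_pow, one_mul] at a1
    refine a1.congr' ?_
    filter_upwards [eventually_gt_atTop a.natAbs] with A hA
    rw [if_pos (mem_Ioo.mpr (by omega))]
  · split_ifs with ha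
    · have ha := mem_Ioo.mp ha
      have hA : (0 : ℝ) < A := by exact_mod_cast (by omega : 0 < A)
      have b1 : |(a : ℝ)| / A ≤ 1 := by
        rw [div_le_one hA, ← Int.cast_abs]
        exact_mod_cast (abs_lt.mpr ha).le
      have b2 : 0 ≤ |(a : ℝ)| / A := by positivity
      rw [Real.norm_of_nonneg (by positivity)]
      refine mul_le_of_le_one_left (by positivity) ?_
      rw [kap]; nlinarith
    · rw [norm_zero]; positivity

theorem sum_Ioo_symm {M : Type} [AddCommMonoid M] {A : ℕ} (hA : 0 < A) (τ : ℤ → M) :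
    ∑ a ∈ Ioo (-(A : ℤ)) A, τ a = τ 0 + ∑ a ∈ Ioo (0 : ℤ) A, (τ a + τ (-a)) := by
  have e : Ioo (-(A : ℤ)) A = insert 0 (Ioo 0 (A : ℤ) ∪ Ioo (-(A : ℤ)) 0) := by
    ext a; simp only [mem_Ioo, mem_insert, mem_union]; omega
  rw [e, sum_insert (by simp), sum_union (by
    rw [disjoint_left]; intro a; simp only [mem_Ioo]; omega), sum_add_distrib]
  congr 2
  exact sum_nbij' (fun a => -a) (fun a => -a) (fun a => by simp only [mem_Ioo]; omega)
    (fun a => by simp only [mem_Ioo]; omega) (fun a _ => neg_neg a) (fun a _ => neg_neg a)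
    (fun a _ => by rw [neg_neg])

/-- Pairing of a frequency vector with a point. -/
noncomputable def dot {ι : Type} [Fintype ι] (n : ι → ℤ) (φ : ι → ℝ) : ℝ := ∑ i, n i * φ i

/-- The inductive statement. -/
def Good (m L : ℕ) (c : ℝ) : Prop :=
  ∃ (ι S : Type) (_ : Fintype ι) (_ : Fintype S) (i₀ : ι) (n : S → ι → ℤ) (f : S → ℂ),
    Function.Injective n ∧ (∀ s, 0 < n s i₀ ∧ n s i₀ ≤ L) ∧
    (∀ s, f s ≠ 0 → n s i₀ ≤ m → ∃ i, n s i = 1) ∧
    (∀ φ, |2 * (∑ s, f s * ee (dot (n s) φ)).re| ≤ 1) ∧ c < 2 * ∑ s, ‖f s‖ ^ 2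

theorem good_zero {c : ℝ} (hc : c < 1) : ∃ L, Good 0 L c := by
  set h : ℝ → ℂ := fun x => if x ≤ 1 / 2 then 1 else -1 with hh
  have hm : Measurable h := Measurable.ite measurableSet_Iic measurable_const measurable_const
  have h1 : ∀ x, ‖h x‖ = 1 := fun x => by simp only [hh]; split_ifs <;> simp
  have hi : ∀ a b, IntervalIntegrable h volume a b := fun a b =>
    ii_of_bound hm (C := 1) fun x _ => (h1 x).le
  have h0 : hat h 0 = 0 := by
    simp only [hat, Int.cast_zero, zero_mul, neg_zero, ee_zero, mul_one]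
    rw [← integral_add_adjacent_intervals (hi 0 (1 / 2)) (hi (1 / 2) 1),
      intervalIntegral.integral_congr_ae (g := fun _ => 1) (ae_of_all _ fun x hx => by
        rw [Set.uIoc_of_le (by norm_num)] at hx; exact if_pos hx.2),
      intervalIntegral.integral_congr_ae (a := 1 / 2) (g := fun _ => -1) (ae_of_all _ fun x hx => by
        rw [Set.uIoc_of_le (by norm_num)] at hx; exact if_neg (not_le.mpr hx.1))]
    simp
    norm_num
  have hs : ∀ a, hat h (-a) = conj (hat h a) := fun a => by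
    rw [hat, hat, ← intervalIntegral_conj]
    refine integral_congr fun x _ => ?_
    simp only [map_mul, ← ee_neg, Int.cast_neg, neg_mul]
    congr 1
    simp only [hh]; split_ifs <;> simp
  have hk : ∀ A a, kap A (-a) = kap A a := fun A a => by simp [kap]
  obtain ⟨A, hA1, hA⟩ := (((fej_lim hm h1).eventually (lt_mem_nhds hc)).and
    (eventually_gt_atTop 0)).exists
  refine ⟨A, Unit, Ioo (0 : ℤ) A, inferInstance, inferInstance, (), fun a _ => a,
    fun a => kap A a * hat h a, fun a b hab => Subtype.ext (congrFun hab ()),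
    fun a => ⟨(mem_Ioo.mp a.2).1, (mem_Ioo.mp a.2).2.le⟩, fun a _ ha => ?_, fun φ => ?_, ?_⟩
  · have := (mem_Ioo.mp a.2).1
    simp only at ha
    omega
  · have := fej_bound hA (hi 0 1) (fun x => (Complex.abs_re_le_norm _).trans (h1 x).le) (φ ())
    rw [sum_Ioo_symm hA, h0] at this
    simp only [dot, Finset.univ_unique, sum_singleton]
    rw [sum_coe_sort (Ioo (0 : ℤ) A) (fun a => (kap A a : ℂ) * hat h a * ee (a * φ ()))]
    refine le_of_eq_of_le ?_ this
    congr 1
    simp only [mul_zero, zero_mul, zero_add, Complex.re_sum, mul_sum, hs, hk, Int.cast_neg,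
      neg_mul, ee_neg]
    refine sum_congr rfl fun a _ => ?_
    rw [← Complex.conj_ofReal (kap A a), ← map_mul, ← map_mul, Complex.conj_ofReal,
      Complex.add_re, Complex.conj_re, two_mul]
  · rw [sum_Ioo_symm hA, h0] at hA1
    rw [sum_coe_sort (Ioo (0 : ℤ) A) (fun a => ‖(kap A a : ℂ) * hat h a‖ ^ 2)]
    refine hA1.trans_le (le_of_eq ?_)
    simp only [hs, hk, norm_mul, Complex.norm_conj, ← two_mul, ← mul_sum]
    simp

theorem Good.succ {m L : ℕ} {c : ℝ} (h : Good m L c) : Good (m + 1) L c := by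
  classical
  obtain ⟨ι, S, _, _, i₀, n, f, hn, hl, h1, hb, hc⟩ := h
  set h : S → ℝ → ℂ := fun s x => ee (n s i₀ * (x / (m + 1))) with hh
  have hcont : ∀ s, Continuous (h s) := fun s => by simp only [hh]; fun_prop
  have hlim : Tendsto (fun A : ℕ => 2 * ∑ s, ‖f s‖ ^ 2 *
      ∑ a ∈ Ioo (-(A : ℤ)) A, ‖(kap A a : ℂ) * hat (h s) a‖ ^ 2) atTop
      (𝓝 (2 * ∑ s, ‖f s‖ ^ 2 * 1)) :=
    (tendsto_finsetSum _ fun s _ =>
      (fej_lim (hcont s).measurable fun x => norm_ee _).const_mul _).const_mul _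
  simp only [mul_one] at hlim
  obtain ⟨A, hA1, hA⟩ := ((hlim.eventually (lt_mem_nhds hc)).and (eventually_gt_atTop 0)).exists
  refine ⟨Option ι, S × Ioo (-(A : ℤ)) A, inferInstance, inferInstance, some i₀,
    fun p o => o.elim p.2 (n p.1), fun p => f p.1 * (kap A p.2 * hat (h p.1) p.2),
    fun p q hpq => Prod.ext (hn (funext fun i => congrFun hpq (some i)))
      (Subtype.ext (congrFun hpq none)), fun p => hl p.1, fun p hp hm => ?_, fun φ => ?_, ?_⟩
  · by_cases hm' : n p.1 i₀ ≤ m
    · obtain ⟨i, hi⟩ := h1 p.1 (left_ne_zero_of_mul hp) hm'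
      exact ⟨some i, hi⟩
    · refine ⟨none, ?_⟩
      have e : n p.1 i₀ = m + 1 := by simp only [Option.elim] at hm; push_cast at hm; omega
      by_contra hne
      refine hp ?_
      have : hat (h p.1) p.2 = 0 := by
        have := integral_ee_int (1 - p.2)
        rw [if_neg (fun h0 => hne (by simp only [Option.elim]; omega))] at this
        rw [hat, ← this]
        refine integral_congr fun x _ => ?_
        simp only [hh, e, ← ee_add]
        congr 1
        push_cast
        field_simp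
        ring
      simp only [this, mul_zero]
  · set g : ℝ → ℂ := fun x => ∑ s, 2 * (f s * ee (dot (n s) (φ ∘ some))) * h s x with hg
    have := fej_bound hA (h := g) ((by simp only [hg]; fun_prop : Continuous g).intervalIntegrable
      0 1) (fun x => by
        refine le_of_eq_of_le ?_ (hb (φ ∘ some + Pi.single i₀ (x / (m + 1))))
        congr 1
        rw [← Complex.re_ofReal_mul, mul_sum]
        congr 1
        refine sum_congr rfl fun s _ => ?_
        simp only [hh, dot, Pi.add_apply, mul_add, sum_add_distrib, ee_add, Pi.single_apply,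
          mul_ite, mul_zero, sum_ite_eq', mem_univ, if_true]
        push_cast; ring) (φ none)
    refine le_of_eq_of_le ?_ this
    congr 1
    rw [← Complex.re_ofReal_mul, Fintype.sum_prod_type, sum_comm, mul_sum,
      ← sum_coe_sort (Ioo (-(A : ℤ)) A)]
    congr 1
    refine sum_congr rfl fun a _ => ?_
    have e : hat g a = ∑ s, 2 * (f s * ee (dot (n s) (φ ∘ some))) * hat (h s) a := by
      simp only [hat, hg, sum_mul]
      rw [intervalIntegral.integral_finsetSum fun s _ =>
        Continuous.intervalIntegrable (by fun_prop) _ _]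
      simp only [mul_assoc, intervalIntegral.integral_const_mul]
    rw [e, mul_sum, mul_sum, sum_mul]
    refine sum_congr rfl fun s _ => ?_
    simp only [dot, Fintype.sum_option, Option.elim, ee_add, Function.comp]
    push_cast; ring
  · refine hA1.trans_le (le_of_eq ?_)
    rw [Fintype.sum_prod_type]
    congr 1
    refine sum_congr rfl fun s _ => ?_
    rw [mul_sum, ← sum_coe_sort (Ioo (-(A : ℤ)) A)]
    exact sum_congr rfl fun a _ => by rw [norm_mul (f s), mul_pow]

theorem exists_avoid {ι S : Type} [Fintype ι] (d : S → ι → ℤ) (T : Finset S)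
    (hd : ∀ s ∈ T, d s ≠ 0) : ∃ γ : ι → ℤ, ∀ s ∈ T, ∑ i, γ i * d s i ≠ 0 := by
  classical
  induction T using Finset.induction_on with
  | empty => exact ⟨0, by simp⟩
  | insert s T hs ih =>
    obtain ⟨γ, hγ⟩ := ih fun s' hs' => hd s' (mem_insert_of_mem hs')
    by_cases h : ∑ i, γ i * d s i = 0
    · obtain ⟨i, hi⟩ := Function.ne_iff.mp (hd s (mem_insert_self _ _))
      set K : ℤ := 1 + ∑ s' ∈ T, |d s' i| with hK
      have e : ∀ s', ∑ j, (K • γ + Pi.single i 1 : ι → ℤ) j * d s' j
          = K * ∑ j, γ j * d s' j + d s' i := fun s' => by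
        simp [add_mul, sum_add_distrib, mul_sum, mul_assoc, Pi.single_apply]
      refine ⟨K • γ + Pi.single i 1, fun s' hs' => ?_⟩
      rw [e]
      rcases mem_insert.mp hs' with rfl | hs'
      · simpa [h] using hi
      · have a1 : |d s' i| ≤ ∑ s' ∈ T, |d s' i| :=
          single_le_sum (f := fun s' => |d s' i|) (fun _ _ => abs_nonneg _) hs'
        intro h0
        have a2 : |d s' i| = K * |∑ j, γ j * d s' j| := by
          rw [eq_neg_of_add_eq_zero_right h0, abs_neg, abs_mul, abs_of_nonneg (a := K)]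
          linarith [abs_nonneg (d s' i)]
        have a3 := Int.one_le_abs (hγ s' hs')
        nlinarith [abs_nonneg (d s' i)]
    · exact ⟨γ, fun s' hs' => by rcases mem_insert.mp hs' with rfl | hs'; exacts [h, hγ s' hs']⟩

/-- An almost unimodular real trigonometric polynomial with pairwise non-proportional
frequencies. -/
theorem exists_F {ε : ℝ} (hε : 0 < ε) :
    ∃ (ι S : Type) (_ : Fintype ι) (_ : Fintype S) (i₀ : ι) (n β : S → ι → ℤ) (f : S → ℂ),
      (∀ s, 0 < n s i₀) ∧ (∀ s, f s ≠ 0) ∧ (∀ s, ∑ i, β s i * n s i = 0) ∧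
      (∀ s s', s' ≠ s → ∑ i, β s i * n s' i ≠ 0) ∧
      (∀ φ, |2 * (∑ s, f s * ee (dot (n s) φ)).re| ≤ 1 + ε) ∧ 2 * ∑ s, ‖f s‖ ^ 2 = 1 := by
  classical
  obtain ⟨L, hL⟩ := good_zero (c := 1 / (1 + ε) ^ 2)
    (by rw [div_lt_one (by positivity)]; nlinarith)
  have : ∀ m, Good m L (1 / (1 + ε) ^ 2) := fun m => by
    induction m with
    | zero => exact hL
    | succ m ih => exact ih.succ
  obtain ⟨ι, S, _, _, i₀, n, f, hn, hl, h1, hb, hc⟩ := this L
  set r := √(2 * ∑ s, ‖f s‖ ^ 2) with hr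
  have hr1 : 1 / (1 + ε) < r := by
    rw [hr]; refine Real.lt_sqrt_of_sq_lt ?_; rwa [one_div_pow]
  have hr0 : 0 < r := lt_trans (by positivity) hr1
  have hβ : ∀ s : {s // f s ≠ 0}, ∃ β : ι → ℤ, ∑ i, β i * n s i = 0 ∧
      ∀ s' : {s // f s ≠ 0}, s' ≠ s → ∑ i, β i * n s' i ≠ 0 := fun s => by
    obtain ⟨γ, hγ⟩ := exists_avoid (fun (s' : {s // f s ≠ 0}) i =>
      n s i₀ * n s' i - n s i * n s' i₀) (univ.erase s) (fun s' hs' h0 => by
        refine (mem_erase.mp hs').1 (Subtype.ext (hn ?_))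
        have h2 : ∀ i, n s i₀ * n s' i = n s i * n s' i₀ := fun i => sub_eq_zero.mp (congrFun h0 i)
        obtain ⟨i, hi⟩ := h1 s s.2 (hl s).2
        obtain ⟨i', hi'⟩ := h1 s' s'.2 (hl s').2
        have a1 := h2 i
        have a2 := h2 i'
        rw [hi, one_mul] at a1
        rw [hi', mul_one] at a2
        have a3 : n s i₀ = n s' i₀ := Int.dvd_antisymm (hl s).1.le (hl s').1.le ⟨_, a1.symm⟩
          ⟨_, by rw [mul_comm]; exact a2⟩
        funext j
        have := h2 j
        rw [← a3, mul_comm] at this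
        exact mul_right_cancel₀ (hl s).1.ne' this)
    have e : ∀ v : ι → ℤ, ∑ i, (n s i₀ • γ - Pi.single i₀ (∑ j, γ j * n s j) : ι → ℤ) i * v i
        = ∑ i, γ i * (n s i₀ * v i - n s i * v i₀) := fun v => by
      simp only [Pi.sub_apply, Pi.smul_apply, smul_eq_mul, sub_mul, mul_sub, sum_sub_distrib,
        Pi.single_apply, ite_mul, zero_mul, sum_ite_eq', mem_univ, if_true, sum_mul]
      congr 1 <;> exact sum_congr rfl fun _ _ => by ring
    refine ⟨n s i₀ • γ - Pi.single i₀ (∑ j, γ j * n s j), ?_, fun s' hs' => ?_⟩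
    · rw [e]; exact sum_eq_zero fun i _ => by ring
    · rw [e]; exact hγ s' (mem_erase.mpr ⟨hs', mem_univ _⟩)
  choose β hβ1 hβ2 using hβ
  have hsub : ∀ {M : Type} [AddCommMonoid M] (F : S → M), (∀ s, f s = 0 → F s = 0) →
      ∑ s : {s // f s ≠ 0}, F s = ∑ s, F s := fun F hF => by
    rw [← Finset.sum_subtype (univ.filter fun s => f s ≠ 0) (by simp) F]
    exact sum_filter_of_ne fun s _ h h' => h (hF s h')
  refine ⟨ι, {s // f s ≠ 0}, inferInstance, inferInstance, i₀, fun s => n s, β,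
    fun s => ((1 / r : ℝ) : ℂ) * f s, fun s => (hl s).1,
    fun s => mul_ne_zero (by exact_mod_cast (by positivity : 1 / r ≠ 0)) s.2, hβ1, hβ2,
    fun φ => ?_, ?_⟩
  · simp only [mul_assoc]
    rw [← mul_sum, hsub (fun s => f s * ee (dot (n s) φ)) (fun s h => by simp [h]),
      Complex.re_ofReal_mul, mul_left_comm, abs_mul, abs_of_pos (by positivity)]
    have : 1 / r ≤ 1 + ε := by
      rw [div_lt_iff₀ (by positivity)] at hr1
      rw [div_le_iff₀ hr0]; linarith
    have := mul_le_mul this (hb φ) (abs_nonneg _) (by positivity)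
    linarith
  · simp only [norm_mul, mul_pow]
    rw [← mul_sum, hsub (fun s => ‖f s‖ ^ 2) (fun s h => by simp [h]), mul_left_comm,
      ← Real.sq_sqrt (show 0 ≤ 2 * ∑ s, ‖f s‖ ^ 2 by positivity), ← hr, Complex.norm_real,
      Real.norm_of_nonneg (by positivity)]
    field_simp

end Crest.Agent.R75
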