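import Crest.Agent.R75.Osc

set_option autoImplicit false

namespace Crest.Agent.R75

open Complex Finset
open scoped Real ComplexConjugate

theorem sum_range_zmod {Q : ℕ} [NeZero Q] (F : ZMod Q → ℂ) :
    ∑ a ∈ range Q, F a = ∑ x, F x :=
  sum_nbij' (fun a => (a : ZMod Q)) (fun x => x.val) (fun _ _ => mem_univ _)
    (fun x _ => mem_range.mpr (ZMod.val_lt x))
    (fun a ha => ZMod.val_cast_of_lt (mem_range.mp ha)) (fun x _ => ZMod.natCast_zmod_val x)
    (fun _ _ => rfl)

theorem std_eq_ee {Q : ℕ} [NeZero Q] (j : ℤ) :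
    ZMod.stdAddChar (j : ZMod Q) = ee (j / Q) := by
  rw [ZMod.stdAddChar_coe, ee]; congr 1; push_cast; ring

/-- Expansion of a quadratic phase in additive characters with coefficients of equal size. -/
theorem gauss {Q : ℕ} (hQ : 0 < Q) {B : ℤ} (hB : IsCoprime (2 * B) Q) (E : ℤ) :
    ∃ g : ℕ → ℂ, (∀ a, ‖g a‖ = 1) ∧ ∀ k : ℤ,
      ∑ a ∈ range Q, g a * ee (-(k * a / Q)) = (√Q : ℝ) * ee ((B * k ^ 2 + E * k) / Q) := by
  have : NeZero Q := ⟨hQ.ne'⟩
  set ψ : AddChar (ZMod Q) ℂ := ZMod.stdAddChar with hψ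
  have horth : ∀ b : ZMod Q, ∑ x, ψ (x * b) = if b = 0 then (Q : ℂ) else 0 := fun b => by
    rw [AddChar.sum_mulShift b (ZMod.isPrimitive_stdAddChar Q), ZMod.card]
    split_ifs <;> simp
  set G : ZMod Q → ℂ := fun c => ∑ h, ψ (B * h ^ 2 + c * h) with hG
  have hu : IsUnit ((2 * B : ℤ) : ZMod Q) := (ZMod.coe_int_isUnit_iff_isCoprime _ _).mpr hB.symm
  have hs : (0 : ℝ) < √Q := Real.sqrt_pos.mpr (by exact_mod_cast hQ)
  have hGn : ∀ c, ‖G c‖ = √Q := fun c => by
    have : G c * conj (G c) = Q := by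
      simp only [hG, map_sum, ← AddChar.map_neg_eq_conj]
      rw [mul_comm, sum_mul_sum]
      have e : ∀ h' : ZMod Q, ∑ h, ψ (-(B * h' ^ 2 + c * h')) * ψ (B * h ^ 2 + c * h)
          = ∑ u, ψ (B * u ^ 2 + c * u) * ψ (h' * ((2 * B : ℤ) * u)) := fun h' => by
        rw [← Equiv.sum_comp (Equiv.addLeft h')]
        refine sum_congr rfl fun u _ => ?_
        rw [← AddChar.map_add_eq_mul, ← AddChar.map_add_eq_mul]
        congr 1
        simp only [Equiv.coe_addLeft]
        push_cast; ring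
      simp only [e]
      rw [sum_comm]
      simp only [← mul_sum, horth, hu.mul_right_eq_zero]
      simp
    rw [Complex.mul_conj, Complex.normSq_eq_norm_sq] at this
    have : ‖G c‖ ^ 2 = Q := by exact_mod_cast this
    rw [← this, Real.sqrt_sq (norm_nonneg _)]
  refine ⟨fun a => G (E + a) / (√Q : ℝ), fun a => ?_, fun k => ?_⟩
  · rw [norm_div, hGn, Complex.norm_real, Real.norm_of_nonneg hs.le, div_self hs.ne']
  · have e1 : ∀ a : ℕ, ee (-(k * a / Q)) = ψ (a * (-k)) := fun a => by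
      have := std_eq_ee (Q := Q) (a * -k)
      push_cast at this
      rw [this]; congr 1; ring
    have e2 : ee ((B * k ^ 2 + E * k) / Q) = ψ (B * k ^ 2 + E * k) := by
      have := std_eq_ee (Q := Q) (B * k ^ 2 + E * k)
      push_cast at this
      rw [this]
    simp only [e1, e2]
    rw [sum_range_zmod (fun a : ZMod Q => G (E + a) / (√Q : ℝ) * ψ (a * (-k)))]
    have e3 : ∀ a : ZMod Q, G (E + a) / (√Q : ℝ) * ψ (a * (-k))
        = ∑ h, ψ (B * h ^ 2 + E * h) / (√Q : ℝ) * ψ (a * (h - k)) := fun a => by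
      simp only [hG]
      rw [sum_div, sum_mul]
      refine sum_congr rfl fun h _ => ?_
      rw [div_mul_eq_mul_div, div_mul_eq_mul_div, ← AddChar.map_add_eq_mul,
        ← AddChar.map_add_eq_mul]
      congr 2; ring
    simp only [e3]
    rw [sum_comm]
    simp only [← mul_sum, horth, sub_eq_zero]
    rw [sum_eq_single (k : ZMod Q) (fun h _ hh => by simp [hh]) (by simp), if_pos rfl]
    have : (Q : ℂ) = (√Q : ℝ) * (√Q : ℝ) := by
      rw [← Complex.ofReal_mul, Real.mul_self_sqrt (by positivity)]; simp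
    have hs' : ((√Q : ℝ) : ℂ) ≠ 0 := by exact_mod_cast hs.ne'
    rw [this]
    field_simp

end Crest.Agent.R75
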