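import Crest.Agent.R75.Pack
import Crest.Agent.R75.Fejer
import Crest.Agent.R75.Gauss

set_option autoImplicit false

namespace Crest.Agent.R75

open Complex Finset Filter Topology
open scoped Real ComplexConjugate

theorem part_of_cells {ι : Type} [Fintype ι] {M : ℕ} (hM : 0 < M) (a len : ι → ℤ)
    (h0 : ∀ i, 0 ≤ a i) (h1 : ∀ i, 0 < len i) (h2 : ∀ i, a i + len i ≤ M)
    (hu : ∀ m : ℤ, 0 ≤ m → m < M → ∃! p : ι × Bool,
      a p.1 ≤ (if p.2 then m else M - 1 - m) ∧ (if p.2 then m else M - 1 - m) < a p.1 + len p.1) :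
    Part (fun i => (a i : ℝ) / M) (fun i => (len i : ℝ) / M) := by
  have hM' : (0 : ℝ) < M := by exact_mod_cast hM
  refine ⟨fun i => div_nonneg (by exact_mod_cast h0 i) hM'.le,
    fun i => div_pos (by exact_mod_cast h1 i) hM', fun i => ?_, fun θ hθ => ?_⟩
  · rw [← add_div, div_le_one hM']; exact_mod_cast h2 i
  · have k1 : ∀ z : ℤ, (z : ℝ) / M < θ ↔ z < ⌈θ * M⌉ := fun z => by
      rw [div_lt_iff₀ hM', Int.lt_ceil]
    have k2 : ∀ z : ℤ, θ ≤ (z : ℝ) / M ↔ ⌈θ * M⌉ ≤ z := fun z => by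
      rw [le_div_iff₀ hM', Int.ceil_le]
    have a1 := (k1 0).mp (by simpa using hθ.1)
    have a2 := (k2 M).mp (by simpa [hM'.ne'] using hθ.2)
    refine (existsUnique_congr fun p => ?_).mp (hu (⌈θ * M⌉ - 1) (by omega) (by omega))
    obtain ⟨i, b⟩ := p
    cases b
    · have e1 : 1 - ((a i : ℝ) / M + len i / M) = ((M - (a i + len i) : ℤ) : ℝ) / M := by
        push_cast; field_simp
      have e2 : 1 - ((a i : ℝ) / M) = ((M - a i : ℤ) : ℝ) / M := by push_cast; field_simp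
      simp only [arc, Bool.false_eq_true, if_false, Set.mem_Ioc, e1, e2, k1, k2]
      omega
    · have e1 : ((a i : ℝ) / M + len i / M) = ((a i + len i : ℤ) : ℝ) / M := by
        push_cast; field_simp
      simp only [arc, if_true, Set.mem_Ioc, e1, k1, k2]
      omega

theorem fill {ι : Type} [Fintype ι] {M : ℕ} (hM : 0 < M) (hM2 : Even M) (a len : ι → ℤ)
    (h0 : ∀ i, 0 ≤ a i) (h1 : ∀ i, 0 < len i) (h2 : ∀ i, a i + len i ≤ M)
    (hd : ∀ i i' m, a i ≤ m → m < a i + len i → a i' ≤ m → m < a i' + len i' → i = i')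
    (hm : ∀ i i' m, a i ≤ m → m < a i + len i → a i' ≤ M - 1 - m →
      ¬ M - 1 - m < a i' + len i') :
    ∃ Φ : Finset ℤ, #Φ + 2 * ∑ i, len i ≤ M ∧
      Part (ι := ι ⊕ Φ) (fun i => ((Sum.elim a Subtype.val i : ℤ) : ℝ) / M)
        (fun i => ((Sum.elim len (fun _ => 1) i : ℤ) : ℝ) / M) := by
  classical
  set Cov := univ.biUnion fun i => Ico (a i) (a i + len i) with hCov
  have hC : ∀ m, m ∈ Cov ↔ ∃ i, a i ≤ m ∧ m < a i + len i := fun m => by simp [hCov]
  set Φ : Finset ℤ := {m ∈ Ico (0 : ℤ) (M : ℤ) | 2 * m < M ∧ m ∉ Cov ∧ M - 1 - m ∉ Cov} with hΦ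
  have hF : ∀ m : ℤ, m ∈ Φ ↔ (0 ≤ m ∧ m < M) ∧ 2 * m < M ∧ m ∉ Cov ∧ M - 1 - m ∉ Cov :=
    fun m => by
    rw [hΦ, mem_filter, mem_Ico]
  obtain ⟨M', hM'⟩ := hM2
  refine ⟨Φ, ?_, part_of_cells hM _ _ ?_ ?_ ?_ fun m m0 m1 => ?_⟩
  · have c1 : (#Cov : ℤ) = ∑ i, len i := by
      rw [hCov, card_biUnion fun i _ i' _ h => disjoint_left.mpr fun m hm hm' =>
        h (hd i i' m (mem_Ico.mp hm).1 (mem_Ico.mp hm).2 (mem_Ico.mp hm').1 (mem_Ico.mp hm').2)]
      push_cast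
      exact sum_congr rfl fun i _ => by have := h1 i; rw [Int.card_Ico]; omega
    have c2 : #(Cov.image fun m => (M : ℤ) - 1 - m) = #Cov :=
      card_image_of_injective _ fun _ _ h => by simpa using h
    have c3 : #(Φ ∪ (Cov ∪ Cov.image fun m => (M : ℤ) - 1 - m)) ≤ #(Ico (0 : ℤ) M) := by
      refine card_le_card fun m hm => mem_Ico.mpr ?_
      simp only [mem_union, mem_image, hF, hC] at hm
      rcases hm with hm | ⟨i, hi⟩ | ⟨m', ⟨i, hi⟩, rfl⟩
      · exact hm.1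
      all_goals have := h0 i; have := h2 i; omega
    rw [card_union_of_disjoint, card_union_of_disjoint, c2, Int.card_Ico] at c3
    · omega
    · refine disjoint_left.mpr fun m hm1 hm2 => ?_
      obtain ⟨m', h', rfl⟩ := mem_image.mp hm2
      obtain ⟨i, hi⟩ := (hC _).mp hm1
      obtain ⟨i', hi'⟩ := (hC _).mp h'
      exact hm i' i m' hi'.1 hi'.2 hi.1 hi.2
    · refine disjoint_left.mpr fun m hm1 hm2 => ?_
      rcases mem_union.mp hm2 with h | h
      · exact ((hF _).mp hm1).2.2.1 h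
      · obtain ⟨m', h', rfl⟩ := mem_image.mp h
        exact ((hF _).mp hm1).2.2.2 (by simpa using h')
  · rintro (i | m)
    exacts [h0 i, ((hF _).mp m.2).1.1]
  · rintro (i | m)
    exacts [h1 i, one_pos]
  · rintro (i | m)
    exacts [h2 i, ((hF _).mp m.2).1.2]
  · refine existsUnique_of_exists_of_unique ?_ ?_
    · by_cases c1 : m ∈ Cov
      · obtain ⟨i, hi⟩ := (hC _).mp c1
        exact ⟨(.inl i, true), hi⟩
      by_cases c2 : M - 1 - m ∈ Cov
      · obtain ⟨i, hi⟩ := (hC _).mp c2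
        exact ⟨(.inl i, false), hi⟩
      by_cases c3 : 2 * m < M
      · exact ⟨(.inr ⟨m, (hF _).mpr ⟨⟨m0, m1⟩, c3, c1, c2⟩⟩, true), by simp⟩
      · exact ⟨(.inr ⟨M - 1 - m, (hF _).mpr ⟨by omega, by omega, c2, by simpa using c1⟩⟩, false),
          by simp⟩
    · have k : ∀ i (f : Φ) m', a i ≤ m' → m' < a i + len i → f.1 ≠ m' ∧ f.1 ≠ M - 1 - m' :=
        fun i f m' c1 c2 => ⟨fun h => ((hF _).mp f.2).2.2.1 ((hC _).mpr ⟨i, h ▸ ⟨c1, c2⟩⟩),
          fun h => ((hF _).mp f.2).2.2.2 ((hC _).mpr ⟨i, by omega⟩)⟩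
      rintro ⟨i | f, _ | _⟩ ⟨i' | f', _ | _⟩ ⟨c1, c2⟩ ⟨c3, c4⟩ <;>
        simp only [Sum.elim_inl, Sum.elim_inr, Bool.false_eq_true, if_false, if_true]
          at c1 c2 c3 c4
      · rw [hd _ _ _ c1 c2 c3 c4]
      · exact absurd c2 (hm _ _ _ c3 c4 c1)
      · have := k _ f' _ c1 c2; omega
      · have := k _ f' _ c1 c2; omega
      · exact absurd c4 (hm _ _ _ c1 c2 c3)
      · rw [hd _ _ _ c1 c2 c3 c4]
      · have := k _ f' _ c1 c2; omega
      · have := k _ f' _ c1 c2; omega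
      · have := k _ f _ c3 c4; omega
      · have := k _ f _ c3 c4; omega
      · rw [show f = f' from Subtype.ext (by omega)]
      · have := ((hF _).mp f.2).2.1; have := ((hF _).mp f'.2).2.1; omega
      · have := k _ f _ c3 c4; omega
      · have := k _ f _ c3 c4; omega
      · have := ((hF _).mp f.2).2.1; have := ((hF _).mp f'.2).2.1; omega
      · rw [show f = f' from Subtype.ext (by omega)]

theorem abs_sum_le_of_windows {J : Type} [Fintype J] {δ T τ B : ℝ} (hT : 0 < T) (hB : 0 ≤ B)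
    (F : J → ℝ) (h1 : ∀ j, |F j| ≤ B) (h2 : ∀ j, F j ≠ 0 →
      δ + (Fintype.equivFin J j : ℕ) * T ≤ τ ∧ τ < δ + (Fintype.equivFin J j : ℕ) * T + T) :
    |∑ j, F j| ≤ B := by
  by_cases h : ∃ j, F j ≠ 0
  · obtain ⟨j, hj⟩ := h
    rw [sum_eq_single j (fun j' _ hne => ?_) (by simp)]
    · exact h1 j
    by_contra hj'
    have k : ∀ a b : ℕ, δ + a * T ≤ τ → τ < δ + b * T + T → a ≤ b := fun a b c1 c2 => by
      have : (a : ℝ) < b + 1 := lt_of_mul_lt_mul_right (by linarith) hT.le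
      exact Nat.lt_succ_iff.mp (by exact_mod_cast this)
    exact hne ((Fintype.equivFin J).injective (Fin.ext (le_antisymm
      (k _ _ (h2 _ hj').1 (h2 _ hj).2) (k _ _ (h2 _ hj).1 (h2 _ hj').2))))
  · push Not at h
    simpa [h] using hB

theorem window_le {J : Type} [Fintype J] (j : J) {c u : ℝ} (hc : Fintype.card J ≤ c)
    (hu : 0 ≤ u) : (Fintype.equivFin J j : ℕ) * (u / c) + u / c ≤ u := by
  have a1 : ((Fintype.equivFin J j : ℕ) : ℝ) + 1 ≤ Fintype.card J := by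
    exact_mod_cast (Fintype.equivFin J j).is_lt
  have a2 : (0 : ℝ) ≤ (Fintype.equivFin J j : ℕ) := by positivity
  rw [← add_one_mul, mul_div_assoc', div_le_iff₀ (by linarith), mul_comm]
  gcongr
  linarith

theorem coprime_sum {S : Type} [DecidableEq S] (T : Finset S) (q d : S → ℤ)
    (hq : ∀ s s', s ≠ s' → IsCoprime (q s) (q s')) (hd : ∀ s ∈ T, IsCoprime (d s) (q s)) :
    IsCoprime (∑ s ∈ T, d s * ∏ s' ∈ T.erase s, q s') (∏ s ∈ T, q s) := by
  refine IsCoprime.prod_right fun s hs => ?_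
  obtain ⟨z, hz⟩ : q s ∣ ∑ s' ∈ T.erase s, d s' * ∏ s'' ∈ T.erase s', q s'' :=
    dvd_sum fun s' hs' =>
      (dvd_prod_of_mem q (mem_erase.mpr ⟨(mem_erase.mp hs').1.symm, hs⟩)).mul_left _
  rw [← add_sum_erase _ _ hs, hz]
  exact ((hd s hs).mul_left
    (IsCoprime.prod_left fun s' hs' => hq _ _ (mem_erase.mp hs').1)).add_mul_left_left _

/-- The time-frequency design. -/
theorem design {ε : ℝ} (hε : 0 < ε) :
    ∃ (ι : Type) (_ : Fintype ι) (x ℓ t T : ι → ℝ) (ζ : ι → ℂ) (δ : ℝ), Part x ℓ ∧ 0 < δ ∧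
      (∀ i, 0 < T i) ∧ (∀ i, δ ≤ t i) ∧ (∀ i, t i + T i ≤ 1 - δ) ∧ (∀ i, ‖ζ i‖ = 1) ∧
      ∀ (k : ℤ) (τ ω : ℝ) (w H : ℝ → ℝ → ℝ), (∀ a b, 0 ≤ w a b ∧ w a b ≤ ω) →
        (∀ a b, 0 < b → w a b ≠ 0 → a ≤ τ ∧ τ < a + b) →
        |2 * (∑ i, (w (t i) (T i) * √(ℓ i / T i) : ℝ) *
          (ζ i * ee (-(k * x i) + ℓ i * H (t i) (T i)))).re| ≤ ω * (1 + ε) := by
  classical
  obtain ⟨ι, S, _, _, i₀, n, β, f, hl, hf, hβ0, hβ1, hF, hsum⟩ := exists_F (half_pos hε)
  set A := ∑ s, ‖f s‖ with hA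
  have hA0 : 0 ≤ A := sum_nonneg fun _ _ => norm_nonneg _
  obtain ⟨e, he1, he2, he⟩ : ∃ e : ℝ, (1 + 4 * e) * (1 + ε / 2 + 4 * e * A) + 2 * √(6 * e) < 1 + ε
      ∧ e < 1 / 4 ∧ 0 < e := by
    have a1 : ∀ᶠ e in 𝓝 (0 : ℝ), (1 + 4 * e) * (1 + ε / 2 + 4 * e * A) + 2 * √(6 * e) < 1 + ε :=
      ContinuousAt.eventually_lt (by fun_prop) continuousAt_const (by simp; linarith)
    exact (((a1.and (gt_mem_nhds (show (0 : ℝ) < 1 / 4 by norm_num))).filter_mono
      nhdsWithin_le_nhds).and (self_mem_nhdsWithin (s := Set.Ioi 0))).exists.imp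
      fun e h => ⟨h.1.1, h.1.2, h.2⟩
  have hf0 : ∀ s, 0 < ‖f s‖ := fun s => norm_pos_iff.mpr (hf s)
  obtain ⟨D, q, J, _, v, X, hD, hD2, hX, hq0, hq1, hq2, hq3, hlD, hlv, hdis, hmir, hq4, hq5, hJ⟩ :=
    packing i₀ n β hl hβ0 hβ1 (fun s => ‖f s‖ ^ 2) (fun s => pow_pos (hf0 s) 2) hsum he
  set Q : S → ℕ := fun s => ∏ s' ∈ univ.erase s, q s' with hQ
  set M : ℕ := (∏ s, q s) * D with hM
  have hQ0 : ∀ s, 0 < Q s := fun s => prod_pos fun s _ => hq0 s
  have hM0 : 0 < M := Nat.mul_pos (prod_pos fun s _ => hq0 s) hD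
  have hMQ : ∀ s, M = q s * D * Q s := fun s => by
    rw [hM, ← mul_prod_erase _ _ (mem_univ s)]; ring
  have hMQ' : ∀ s, (M : ℤ) = q s * D * Q s := fun s => by exact_mod_cast hMQ s
  have hMQ'' : ∀ s, (M : ℝ) = q s * D * Q s := fun s => by exact_mod_cast hMQ s
  have hqD : ∀ s, (0 : ℤ) < q s * D := fun s => by have := hq0 s; positivity
  set nv : J → S → ℤ := fun j s => ∑ i, n s i * v j i with hnv
  set a : (Σ p : J × S, Fin (Q p.2)) → ℤ := fun i =>
    nv i.1.1 i.1.2 % (q i.1.2 * D) + q i.1.2 * D * i.2 with ha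
  have hr0 : ∀ j s, 0 ≤ nv j s % (q s * D) := fun j s => Int.emod_nonneg _ (hqD s).ne'
  have hrd : ∀ j s, nv j s % (q s * D) = nv j s - q s * D * (nv j s / (q s * D)) := fun j s =>
    Int.emod_def _ _
  have hr1 : ∀ j s, nv j s % (q s * D) + n s i₀ ≤ q s * D := fun j s => by
    have := Int.le_of_dvd (sub_pos.mpr (Int.emod_lt_of_pos (nv j s) (hqD s)))
      (dvd_sub ((hlD s).mul_left _) (by
        rw [hrd]; exact dvd_sub (hlv j s) (((hlD s).mul_left _).mul_right _)))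
    linarith
  have hcong : ∀ i m, (q i.1.2 * D : ℤ) ∣ m - (nv i.1.1 i.1.2 + (m - a i)) := fun i m =>
    ⟨i.2 - nv i.1.1 i.1.2 / (q i.1.2 * D), by simp only [ha, hrd]; ring⟩
  obtain ⟨Φ, hΦ, hP⟩ := fill hM0 (hD2.mul_left _) a (fun i => n i.1.2 i₀)
    (fun i => add_nonneg (hr0 _ _) (by positivity)) (fun i => hl _)
    (fun i => by
      have a1 := hr1 i.1.1 i.1.2
      have a2 : (i.2 : ℤ) + 1 ≤ Q i.1.2 := by exact_mod_cast i.2.2
      have a3 := mul_le_mul_of_nonneg_left a2 (hqD i.1.2).le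
      simp only [ha, hMQ' i.1.2]
      linarith)
    (fun i i' m c1 c2 c3 c4 => by
      obtain ⟨b1, b2, b3⟩ := hdis _ _ _ _ m (m - a i) (m - a i') (by omega) (by omega) (by omega)
        (by omega) (hcong i m) (hcong i' m)
      obtain ⟨⟨j, s⟩, u⟩ := i
      obtain ⟨⟨j', s'⟩, u'⟩ := i'
      simp only at b1 b2
      subst b1 b2
      simp only [ha, sub_right_inj, add_right_inj] at b3
      obtain rfl : u = u' := Fin.ext (by exact_mod_cast mul_left_cancel₀ (hqD s).ne' b3)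
      rfl)
    (fun i i' m c1 c2 c3 c4 => by
      refine hmir i.1.1 i.1.2 i'.1.1 i'.1.2 m (m - a i) (M - 1 - m - a i') (by omega) (by omega)
        (by omega) (by omega) (hcong i m) ?_
      have := dvd_sub (hcong i' (M - 1 - m)) (Dvd.intro _ (hMQ' i'.1.2).symm)
      rwa [show (M : ℤ) - 1 - m - (nv i'.1.1 i'.1.2 + (M - 1 - m - a i')) - M
        = -1 - m - (nv i'.1.1 i'.1.2 + (M - 1 - m - a i')) by ring] at this)
  set c : ℝ := (Fintype.card J : ℝ) with hc
  have hM0' : (0 : ℝ) < M := by exact_mod_cast hM0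
  have hD' : (0 : ℝ) < D := by exact_mod_cast hD
  have hq0' : ∀ s, (0 : ℝ) < q s := fun s => by exact_mod_cast hq0 s
  have hQ0' : ∀ s, (0 : ℝ) < Q s := fun s => by exact_mod_cast hQ0 s
  have hl' : ∀ s, (0 : ℝ) < n s i₀ := fun s => by exact_mod_cast hl s
  have hc0 : 0 < c := lt_of_lt_of_le (mul_pos (by linarith) (by positivity)) hJ
  set r : S → ℝ := fun s => n s i₀ * X / q s with hr
  have hr2 : ∀ s, r s ≤ ‖f s‖ ^ 2 := fun s => by
    have := hq4 s
    rw [div_le_iff₀ (pow_pos (hf0 s) 2)] at this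
    rw [hr, div_le_iff₀ (hq0' s)]; linarith
  have hr3 : ∀ s, ‖f s‖ ^ 2 ≤ (1 + 2 * e) * r s := fun s => by
    have := hq5 s
    rw [mul_div_assoc', le_div_iff₀ (pow_pos (hf0 s) 2)] at this
    rw [hr, mul_div_assoc', le_div_iff₀ (hq0' s)]; linarith
  have hcov : #Φ + c / (D * X) / (1 + 2 * e) * M ≤ M := by
    have a1 : (#Φ : ℝ) + 2 * ∑ i : (Σ p : J × S, Fin (Q p.2)), (n i.1.2 i₀ : ℝ) ≤ M := by
      exact_mod_cast hΦ
    have a2 : ∑ i : (Σ p : J × S, Fin (Q p.2)), (n i.1.2 i₀ : ℝ)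
        = c / (D * X) * (∑ s, r s) * M := by
      rw [Fintype.sum_sigma, Fintype.sum_prod_type]
      simp only [sum_const, card_univ, Fintype.card_fin, nsmul_eq_mul, ← hc]
      rw [mul_sum, mul_sum, sum_mul]
      refine sum_congr rfl fun s _ => ?_
      have := hq0' s
      rw [hMQ'' s, hr]; field_simp
    have a3 : 1 / (1 + 2 * e) ≤ 2 * ∑ s, r s := by
      rw [div_le_iff₀ (by positivity), mul_assoc, mul_comm _ (1 + 2 * e), mul_sum _ r]
      refine hsum.ge.trans ?_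
      gcongr with s
      exact hr3 s
    have a4 := mul_le_mul_of_nonneg_left a3 (show 0 ≤ c / (D * X) * M by positivity)
    rw [a2] at a1
    calc _ = #Φ + c / (D * X) * M * (1 / (1 + 2 * e)) := by ring
      _ ≤ _ := by linarith
  have hc1 : c / (D * X) ≤ 1 + 2 * e := by
    rw [← div_le_one (by positivity)]
    have : (0 : ℝ) ≤ #Φ := by positivity
    exact le_of_mul_le_mul_right (by linarith) hM0'
  have hΦ1 : (#Φ : ℝ) ≤ 3 * e * M := by
    have a1 : 1 - 3 * e ≤ c / (D * X) / (1 + 2 * e) := by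
      rw [le_div_iff₀ (by positivity), le_div_iff₀ (by positivity)]
      refine le_trans (mul_le_mul_of_nonneg_right ?_ (by positivity)) hJ
      nlinarith
    nlinarith
  set B : S → ℤ := fun s => ∑ s' ∈ univ.erase s, (∑ i, β s' i * n s i) *
    ∏ s'' ∈ (univ.erase s).erase s', (q s'' : ℤ) with hB
  have hBQ : ∀ s, IsCoprime (2 * B s) (Q s) := fun s => by
    simp only [hQ, Nat.cast_prod]
    exact (IsCoprime.prod_right fun s' _ => hq1 s').mul_left (coprime_sum _ _ _ hq2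
      fun s' hs' => hq3 _ _ (mem_erase.mp hs').1.symm)
  have hBd : ∀ s, (B s : ℝ) / Q s = ∑ s', (∑ i, (β s' i : ℝ) * n s i) / q s' := fun s => by
    rw [← add_sum_erase _ _ (mem_univ s), show ∑ i, (β s i : ℝ) * n s i = 0 by
      exact_mod_cast hβ0 s, zero_div, zero_add, hB]
    push_cast
    rw [sum_div]
    refine sum_congr rfl fun s' hs' => ?_
    rw [div_eq_div_iff (hQ0' s).ne' (hq0' s').ne', hQ]
    push_cast
    rw [← mul_prod_erase _ _ hs']; ring
  choose g hg1 hg2 using fun j s => gauss (hQ0 s) (hBQ s) (-(nv j s / (q s * D)))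
  set T₀ := (1 - 2 * e) / c with hT₀
  set T₁ := (1 - 2 * e) / (3 * e * M) with hT₁
  have he3 : 0 < 1 - 2 * e := by linarith
  have hT₀0 : 0 < T₀ := by positivity
  have hT₁0 : 0 < T₁ := by positivity
  refine ⟨_, inferInstance, _, _,
    Sum.elim (fun i => e + (Fintype.equivFin J i.1.1 : ℕ) * T₀)
      (fun m => e + (Fintype.equivFin Φ m : ℕ) * T₁),
    Sum.elim (fun _ => T₀) (fun _ => T₁),
    Sum.elim (fun i => f i.1.2 / ‖f i.1.2‖ * g i.1.1 i.1.2 i.2) (fun _ => 1), e, hP, he,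
    ?_, ?_, ?_, ?_, fun k τ ω w H hw hw2 => ?_⟩
  · rintro (i | m)
    exacts [hT₀0, hT₁0]
  · rintro (i | m) <;> exact le_add_of_nonneg_right (by positivity)
  · rintro (i | m)
    · have := window_le i.1.1 hc.ge he3.le
      simp only [Sum.elim_inl]; linarith
    · have := window_le m (c := 3 * e * M) (by simpa using hΦ1) he3.le
      simp only [Sum.elim_inr]; linarith
  · rintro (i | m)
    · simp [hg1, (hf0 _).ne']
    · simp
  have hω : 0 ≤ ω := (hw 0 0).1.trans (hw 0 0).2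
  rw [Fintype.sum_sum_type, Complex.add_re, mul_add, Fintype.sum_sigma, Fintype.sum_prod_type,
    Complex.re_sum, Complex.re_sum (s := (univ : Finset Φ)), mul_sum, mul_sum]
  simp only [Sum.elim_inl, Sum.elim_inr]
  refine (abs_add_le _ _).trans ((add_le_add
    (abs_sum_le_of_windows (δ := e) (τ := τ) (B := ω * ((1 + 4 * e) * (1 + ε / 2 + 4 * e * A)))
      hT₀0 (by positivity) _ (fun j => ?_) fun j hj => hw2 _ _ hT₀0 fun h => hj (by simp [h]))
    (abs_sum_le_of_windows (δ := e) (τ := τ) (B := ω * (2 * √(6 * e)))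
      hT₁0 (by positivity) _ (fun m => ?_) fun m hm => hw2 _ _ hT₁0 fun h => hm (by simp [h]))).trans
    (by rw [← mul_add]; gcongr))
  · set w₀ := w (e + (Fintype.equivFin J j : ℕ) * T₀) T₀ with hw₀
    set H₀ := H (e + (Fintype.equivFin J j : ℕ) * T₀) T₀ with hH₀
    set φ : ι → ℝ := fun i => -(k * v j i / M) + k ^ 2 * ∑ s', (β s' i : ℝ) / q s'
      + (Pi.single i₀ (H₀ / M) : ι → ℝ) i with hφ
    set Λ := c / (D * X) / (1 - 2 * e) with hΛ
    have hΛ1 : √Λ ≤ 1 + 4 * e := by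
      rw [Real.sqrt_le_left (by positivity), hΛ, div_le_iff₀ he3]
      refine hc1.trans ?_
      nlinarith [mul_pos he (show 0 < 1 / 4 - e by linarith), mul_pos he he,
        mul_pos (mul_pos he he) (show 0 < 1 / 4 - e by linarith)]
    have key : ∀ s, ∑ u : Fin (Q s), ((w₀ * √((n s i₀ : ℝ) / M / T₀) : ℝ) : ℂ) *
        (f s / ‖f s‖ * g j s u * ee (-(k * ((a ⟨(j, s), u⟩ : ℝ) / M)) + n s i₀ / M * H₀))
        = (w₀ * √Λ : ℝ) * (f s * ee (dot (n s) φ)
          + ((√(r s) / ‖f s‖ - 1 : ℝ) : ℂ) * (f s * ee (dot (n s) φ))) := fun s => by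
      have a0 := hq0' s
      have a0' := hQ0' s
      have e1 : ∀ u : Fin (Q s), ee (-(k * ((a ⟨(j, s), u⟩ : ℝ) / M)) + n s i₀ / M * H₀)
          = ee (-(k * nv j s / M) + k * (nv j s / (q s * D) : ℤ) / Q s + n s i₀ / M * H₀)
            * ee (-(k * (u : ℕ) / Q s)) := fun u => by
        rw [← ee_add]
        congr 1
        simp only [ha, hrd, hMQ'' s]
        push_cast
        field_simp
        ring
      have e2 : dot (n s) φ = (-(k * nv j s / M) + k * (nv j s / (q s * D) : ℤ) / Q s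
          + n s i₀ / M * H₀) + (B s * k ^ 2 + (-(nv j s / (q s * D)) : ℤ) * k) / Q s := by
        rw [add_div, mul_comm (B s : ℝ), mul_div_assoc _ (B s : ℝ), hBd]
        simp only [dot, hφ, hnv, mul_add, sum_add_distrib, Pi.single_apply, mul_ite, mul_zero,
          sum_ite_eq', mem_univ, if_true, mul_sum, sum_div, mul_neg, sum_neg_distrib,
          Int.cast_sum, Int.cast_mul, Int.cast_neg]
        have b1 : ∑ i, (n s i : ℝ) * (k * v j i / M) = ∑ i, (k : ℝ) * (n s i * v j i) / M :=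
          sum_congr rfl fun i _ => by ring
        have b2 : ∑ i, ∑ s', (n s i : ℝ) * (k ^ 2 * (β s' i / q s'))
            = ∑ s', ∑ i, (k : ℝ) ^ 2 * (β s' i * n s i / q s') := by
          rw [sum_comm]
          exact sum_congr rfl fun s' _ => sum_congr rfl fun i _ => by ring
        rw [b1, b2]
        ring
      have e3 : √((n s i₀ : ℝ) / M / T₀) * √(Q s) = √Λ * √(r s) := by
        rw [← Real.sqrt_mul (by have := hl' s; positivity), ← Real.sqrt_mul (by positivity)]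
        congr 1
        rw [hT₀, hΛ, hr, hMQ'' s]
        field_simp
      have e4 := hg2 j s k
      rw [← Fin.sum_univ_eq_sum_range (fun u => g j s u * ee (-(k * u / Q s)))] at e4
      simp only [e1]
      generalize -(k * nv j s / M : ℝ) + k * (nv j s / (q s * D) : ℤ) / Q s + n s i₀ / M * H₀ = E₀
        at e2 ⊢
      rw [e2, ee_add]
      generalize ee E₀ = E
      calc _ = ((w₀ * √((n s i₀ : ℝ) / M / T₀) : ℝ) : ℂ) * (f s / ‖f s‖ * E) *
            ∑ u : Fin (Q s), g j s u * ee (-(k * (u : ℕ) / Q s)) := by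
            rw [mul_sum]; exact sum_congr rfl fun u _ => by ring
        _ = ((w₀ * (√((n s i₀ : ℝ) / M / T₀) * √(Q s)) : ℝ) : ℂ) * (f s / ‖f s‖ * E) *
            ee ((B s * k ^ 2 + (-(nv j s / (q s * D)) : ℤ) * k) / Q s) := by
            rw [e4]; push_cast; ring
        _ = _ := by rw [e3]; push_cast; ring
    simp only [key]
    rw [← mul_sum, Complex.re_ofReal_mul, sum_add_distrib, Complex.add_re, mul_left_comm, abs_mul,
      abs_of_nonneg (mul_nonneg (hw _ _).1 (Real.sqrt_nonneg _)), mul_add, ← mul_assoc ω]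
    refine mul_le_mul (mul_le_mul (hw _ _).2 hΛ1 (Real.sqrt_nonneg _) hω)
      ((abs_add_le _ _).trans (add_le_add (hF φ) ?_)) (abs_nonneg _) (by positivity)
    rw [abs_mul, abs_two, show 4 * e * A = 2 * (2 * e * A) by ring, hA, mul_sum]
    refine mul_le_mul_of_nonneg_left ((Complex.abs_re_le_norm _).trans ((norm_sum_le _ _).trans
      (sum_le_sum fun s _ => ?_))) zero_le_two
    rw [norm_mul, norm_mul, norm_ee, mul_one, Complex.norm_real, Real.norm_eq_abs]
    refine mul_le_mul_of_nonneg_right ?_ (norm_nonneg _)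
    have b1 : √(r s) / ‖f s‖ ≤ 1 := by
      rw [div_le_one (hf0 s)]; exact Real.sqrt_le_iff.mpr ⟨norm_nonneg _, hr2 s⟩
    have b2 : 1 - 2 * e ≤ √(r s) / ‖f s‖ := by
      rw [le_div_iff₀ (hf0 s)]
      refine Real.le_sqrt_of_sq_le ?_
      have b3 : (1 - 2 * e) ^ 2 * (1 + 2 * e) ≤ 1 := by nlinarith [mul_pos he he]
      have b4 : 0 ≤ r s := by have := hl' s; have := hq0' s; simp only [hr]; positivity
      have b5 := mul_le_mul_of_nonneg_left (hr3 s) (sq_nonneg (1 - 2 * e))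
      nlinarith
    rw [abs_le]; constructor <;> linarith
  · rw [abs_mul, abs_two, mul_left_comm ω]
    refine mul_le_mul_of_nonneg_left ((Complex.abs_re_le_norm _).trans ?_) zero_le_two
    rw [norm_mul, norm_mul, norm_ee, norm_one, mul_one, mul_one, Complex.norm_real,
      Real.norm_of_nonneg (mul_nonneg (hw _ _).1 (Real.sqrt_nonneg _))]
    refine mul_le_mul (hw _ _).2 (Real.sqrt_le_sqrt ?_) (Real.sqrt_nonneg _) hω
    rw [hT₁, div_div_eq_mul_div, div_le_iff₀ he3, Int.cast_one]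
    have : 1 / (M : ℝ) * (3 * e * M) = 3 * e := by field_simp
    rw [this]
    nlinarith

end Crest.Agent.R75
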