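import Crest.Agent.R75.Osc

set_option autoImplicit false

namespace Crest.Agent.R75

open Complex MeasureTheory Set Filter Topology intervalIntegral
open scoped Real ComplexConjugate

theorem integral_ee_mul {k : ℝ} (hk : k ≠ 0) (a b : ℝ) :
    ∫ x in a..b, ee (k * x) = ee (k * b) / (2 * π * I * k) - ee (k * a) / (2 * π * I * k) := by
  have hpi : (π : ℂ) ≠ 0 := by exact_mod_cast Real.pi_ne_zero
  have hk' : (k : ℂ) ≠ 0 := by exact_mod_cast hk
  refine integral_eq_sub_of_hasDerivAt (f := fun x => ee (k * x) / (2 * π * I * k)) (fun x _ => ?_)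
    ((by fun_prop : Continuous fun x => ee (k * x)).intervalIntegrable _ _)
  refine ((hasDerivAt_ee ((hasDerivAt_id x).const_mul k)).div_const _).congr_deriv ?_
  simp only [id, mul_one]
  field_simp

theorem integral_ee_int (k : ℤ) : ∫ x in (0 : ℝ)..1, ee (k * x) = if k = 0 then 1 else 0 := by
  split_ifs with h
  · simp [h, ee_zero]
  · rw [integral_ee_mul (by exact_mod_cast h), mul_one, mul_zero, ee_int, ee_zero, sub_self]

theorem fourierCoeffOn_eq_ee (f : ℝ → ℂ) (k : ℤ) :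
    fourierCoeffOn zero_lt_one f k = ∫ x in (0 : ℝ)..1, f x * ee (-(k * x)) := by
  rw [fourierCoeffOn_eq_integral]
  simp only [sub_zero, div_one, one_smul, smul_eq_mul]
  refine integral_congr fun x _ => ?_
  simp only [fourier_coe_apply, ee]
  rw [mul_comm]
  congr 2
  push_cast; ring

theorem parseval {f : ℝ → ℂ} (hf : Measurable f) {C : ℝ} (hC : ∀ x ∈ Ioc (0 : ℝ) 1, ‖f x‖ ≤ C) :
    HasSum (fun k : ℤ => ‖∫ x in (0 : ℝ)..1, f x * ee (-(k * x))‖ ^ 2)
      (∫ x in (0 : ℝ)..1, ‖f x‖ ^ 2) := by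
  have := hasSum_sq_fourierCoeffOn (f := f) zero_lt_one
    (MemLp.of_bound hf.aestronglyMeasurable C
      ((ae_restrict_iff' measurableSet_Ioc).mpr (ae_of_all _ hC)))
  simpa only [fourierCoeffOn_eq_ee, sub_zero, inv_one, one_smul] using this

theorem ii_of_bound {f : ℝ → ℂ} (hf : Measurable f) {a b C : ℝ} (hC : ∀ x ∈ uIoc a b, ‖f x‖ ≤ C) :
    IntervalIntegrable f volume a b := by
  rw [intervalIntegrable_iff]
  exact Measure.integrableOn_of_bounded (M := C) (by simp [uIoc]) hf.aestronglyMeasurable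
    ((ae_restrict_iff' measurableSet_uIoc).mpr (ae_of_all _ hC))

/-- Fourier inversion for a unimodular function with small Fourier tails. -/
theorem inversion {P : ℝ → ℂ} (hP : Measurable P) (h1 : ∀ x ∈ Ioc (0 : ℝ) 1, ‖P x‖ = 1) (N : ℕ)
    (c : ℤ → ℂ) (hc : ∀ k, c k = ∫ x in (0 : ℝ)..1, P x * ee (-(k * x))) (β : ℕ → ℝ)
    (hβ : Summable β) (hp : ∀ j : ℕ, ‖c ((j + N : ℕ) : ℤ)‖ ≤ β j)
    (hn : ∀ j : ℕ, ‖c (-(j + 1))‖ ≤ β j) (θ : ℝ) :
    |‖∑ k ∈ Finset.range N, c k * ee (k * θ)‖ - 1| ≤ 2 * ∑' j, β j := by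
  have s1 : Summable fun j : ℕ => ‖c j‖ :=
    (summable_nat_add_iff N).mp (Summable.of_nonneg_of_le (fun _ => norm_nonneg _) hp hβ)
  have s2 : Summable fun j : ℕ => ‖c (-(j + 1))‖ :=
    Summable.of_nonneg_of_le (fun _ => norm_nonneg _) hn hβ
  have s : Summable fun k : ℤ => ‖c k‖ := Summable.of_nat_of_neg_add_one s1 s2
  set g : ℝ → ℂ := fun θ => ∑' k : ℤ, c k * ee (k * θ) with hg
  have nb : ∀ (k : ℤ) (x : ℝ), ‖c k * ee x‖ = ‖c k‖ := fun k x => by rw [norm_mul, norm_ee, mul_one]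
  have cg : Continuous g := continuous_tsum (fun k => by fun_prop) s fun k x => (nb k _).le
  have bg : ∀ x, ‖g x‖ ≤ ∑' k, ‖c k‖ := fun x =>
    tsum_of_norm_bounded s.hasSum fun k => (nb k _).le
  have hcoef : ∀ m : ℤ, ∫ x in (0 : ℝ)..1, g x * ee (-(m * x)) = c m := by
    intro m
    have e1 : ∀ x, g x * ee (-(m * x)) = ∑' k : ℤ, c k * ee ((k - m : ℤ) * x) := fun x => by
      simp only [hg]
      rw [← tsum_mul_right]
      refine tsum_congr fun k => ?_
      rw [mul_assoc, ← ee_add]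
      congr 2
      push_cast; ring
    simp_rw [e1]
    rw [integral_of_le zero_le_one, ← integral_tsum_of_summable_integral_norm]
    · simp_rw [← integral_of_le zero_le_one, intervalIntegral.integral_const_mul, integral_ee_int]
      rw [tsum_eq_single m fun k hk => by rw [if_neg (sub_ne_zero.mpr hk), mul_zero]]
      simp
    · exact fun k => (by fun_prop : Continuous fun x : ℝ =>
        c k * ee ((k - m : ℤ) * x)).integrableOn_Ioc
    · simp_rw [nb]
      simpa using s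
  have hzero : ∫ x in (0 : ℝ)..1, ‖P x - g x‖ ^ 2 = 0 := by
    have := parseval (f := fun x => P x - g x) (hP.sub cg.measurable) (C := 1 + ∑' k, ‖c k‖)
      fun x hx => (norm_sub_le _ _).trans (add_le_add (h1 x hx).le (bg x))
    refine this.unique ?_
    have e : ∀ k : ℤ, ∫ x in (0 : ℝ)..1, (P x - g x) * ee (-(k * x)) = 0 := fun k => by
      simp_rw [sub_mul]
      rw [intervalIntegral.integral_sub, hcoef, hc, sub_self]
      · exact ii_of_bound (C := 1) (by fun_prop) fun x hx => by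
          rw [uIoc_of_le zero_le_one] at hx
          rw [norm_mul, norm_ee, mul_one, h1 x hx]
      · exact (by fun_prop : Continuous fun x : ℝ => g x * ee (-(k * x))).intervalIntegrable _ _
    simp [e]
  have hae : ∀ᵐ x ∂(volume.restrict (Ioc (0 : ℝ) 1)), ‖g x‖ = 1 := by
    rw [integral_of_le zero_le_one, integral_eq_zero_iff_of_nonneg (fun x => by positivity)] at hzero
    · filter_upwards [hzero, ae_restrict_mem measurableSet_Ioc] with x hx hx'
      have : P x - g x = 0 := by simpa using hx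
      rw [← sub_eq_zero.mp this, h1 x hx']
    · refine Measure.integrableOn_of_bounded (M := (1 + ∑' k, ‖c k‖) ^ 2) (by simp)
        ((hP.sub cg.measurable).norm.pow_const 2).aestronglyMeasurable
        ((ae_restrict_iff' measurableSet_Ioc).mpr (ae_of_all _ fun x hx => ?_))
      rw [norm_pow, norm_norm]
      exact pow_le_pow_left₀ (norm_nonneg _)
        ((norm_sub_le _ _).trans (add_le_add (h1 x hx).le (bg x))) 2
  have hon : EqOn (fun x => ‖g x‖) (fun _ => 1) (Icc 0 1) := by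
    refine Measure.eqOn_Icc_of_ae_eq volume zero_ne_one ?_ cg.norm.continuousOn continuousOn_const
    rw [← Measure.restrict_congr_set Ioc_ae_eq_Icc]
    exact hae
  have hθ : ‖g θ‖ = 1 := by
    have := hon (show Int.fract θ ∈ Icc (0 : ℝ) 1 from ⟨Int.fract_nonneg θ, (Int.fract_lt_one θ).le⟩)
    simp only at this
    rw [← this]
    congr 1
    refine tsum_congr fun k => ?_
    rw [← ee_add_int (k * Int.fract θ) (k * ⌊θ⌋)]
    congr 2
    push_cast
    rw [← mul_add, Int.fract_add_floor]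
  have t1 : Summable fun j : ℕ => c j * ee ((j : ℤ) * θ) :=
    Summable.of_norm_bounded s1 fun j => (nb _ _).le
  have t2 : Summable fun j : ℕ => c (-(j + 1)) * ee ((-(j + 1) : ℤ) * θ) :=
    Summable.of_norm_bounded s2 fun j => (nb _ _).le
  have e : g θ = ∑ k ∈ Finset.range N, c k * ee (k * θ)
      + (∑' j : ℕ, c ((j + N : ℕ) : ℤ) * ee (((j + N : ℕ) : ℤ) * θ)
        + ∑' j : ℕ, c (-(j + 1)) * ee ((-(j + 1) : ℤ) * θ)) := by
    simp only [hg]
    rw [tsum_of_nat_of_neg_add_one (f := fun k : ℤ => c k * ee (k * θ)) t1 t2,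
      ← t1.sum_add_tsum_nat_add N, add_assoc]
    simp
  have b1 : ‖∑' j : ℕ, c ((j + N : ℕ) : ℤ) * ee (((j + N : ℕ) : ℤ) * θ)‖ ≤ ∑' j, β j :=
    tsum_of_norm_bounded hβ.hasSum fun j => (nb _ _).le.trans (hp j)
  have b2 : ‖∑' j : ℕ, c (-(j + 1)) * ee ((-(j + 1) : ℤ) * θ)‖ ≤ ∑' j, β j :=
    tsum_of_norm_bounded hβ.hasSum fun j => (nb _ _).le.trans (hn j)
  rw [← hθ, abs_sub_comm]
  refine (abs_norm_sub_norm_le _ _).trans ?_
  rw [e, add_sub_cancel_left]
  linarith [norm_add_le (∑' j : ℕ, c ((j + N : ℕ) : ℤ) * ee (((j + N : ℕ) : ℤ) * θ))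
    (∑' j : ℕ, c (-(j + 1)) * ee ((-(j + 1) : ℤ) * θ))]

section Glue

variable {ι : Type} [Fintype ι]

/-- Slot `p.1` (if `p.2`) or its mirror image. -/
def arc (x ℓ : ι → ℝ) (p : ι × Bool) : Set ℝ :=
  if p.2 then Ioc (x p.1) (x p.1 + ℓ p.1) else Ioc (1 - (x p.1 + ℓ p.1)) (1 - x p.1)

/-- The slots and their mirror images partition `(0, 1]`. -/
structure Part (x ℓ : ι → ℝ) : Prop where
  lo : ∀ i, 0 ≤ x i
  pos : ∀ i, 0 < ℓ i
  hi : ∀ i, x i + ℓ i ≤ 1
  uniq : ∀ θ ∈ Ioc (0 : ℝ) 1, ∃! p, θ ∈ arc x ℓ p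

/-- The glued function. -/
noncomputable def glue (x ℓ : ι → ℝ) (g : ι → ℝ → ℂ) (θ : ℝ) : ℂ :=
  ∑ p : ι × Bool, (arc x ℓ p).indicator
    (fun θ => if p.2 then g p.1 θ else conj (g p.1 (1 - θ))) θ

theorem measurable_glue (x ℓ : ι → ℝ) {g : ι → ℝ → ℂ} (hg : ∀ i, Measurable (g i)) :
    Measurable (glue x ℓ g) := by
  refine Finset.measurable_sum _ fun p _ => Measurable.indicator ?_ ?_
  · split_ifs
    · exact hg _
    · exact continuous_conj.measurable.comp ((hg _).comp (measurable_const.sub measurable_id))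
  · unfold arc; split_ifs <;> exact measurableSet_Ioc

theorem Part.glue_apply {x ℓ : ι → ℝ} (h : Part x ℓ) (g : ι → ℝ → ℂ) {θ : ℝ}
    (hθ : θ ∈ Ioc (0 : ℝ) 1) : ∃ i, glue x ℓ g θ = g i θ ∨ glue x ℓ g θ = conj (g i (1 - θ)) := by
  obtain ⟨p, hp, hu⟩ := h.uniq θ hθ
  refine ⟨p.1, ?_⟩
  unfold glue
  rw [Finset.sum_eq_single p (fun q _ hq => indicator_of_notMem (fun h => hq (hu q h)) _)
    (fun h => absurd (Finset.mem_univ p) h), indicator_of_mem hp]
  split_ifs <;> simp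

theorem integral_indicator_Ioc {f : ℝ → ℂ} {a b : ℝ} (h0 : 0 ≤ a) (hab : a ≤ b) (h1 : b ≤ 1) :
    ∫ x in (0 : ℝ)..1, (Ioc a b).indicator f x = ∫ x in a..b, f x := by
  rw [integral_of_le zero_le_one, integral_of_le hab, setIntegral_indicator measurableSet_Ioc,
    inter_eq_right.mpr (Ioc_subset_Ioc h0 h1)]

theorem Part.integral_glue {x ℓ : ι → ℝ} (h : Part x ℓ) {g : ι → ℝ → ℂ}
    (hg : ∀ i, Measurable (g i)) (hg1 : ∀ i θ, ‖g i θ‖ = 1) (k : ℤ) :
    ∫ θ in (0 : ℝ)..1, glue x ℓ g θ * ee (-(k * θ))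
      = (2 * (∑ i, ∫ θ in (x i)..(x i + ℓ i), g i θ * ee (-(k * θ))).re : ℝ) := by
  unfold glue
  simp_rw [Finset.sum_mul, ← indicator_mul_left (g := fun θ : ℝ => ee (-(k * θ)))]
  rw [intervalIntegral.integral_finsetSum]
  · rw [Fintype.sum_prod_type, ← Complex.add_conj, map_sum, ← Finset.sum_add_distrib]
    refine Finset.sum_congr rfl fun i _ => ?_
    have a1 := h.lo i
    have a2 := h.pos i
    have a3 := h.hi i
    rw [Fintype.sum_bool]
    simp only [arc, if_true, Bool.false_eq_true, if_false]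
    rw [integral_indicator_Ioc a1 (by linarith) a3,
      integral_indicator_Ioc (by linarith) (by linarith) (by linarith)]
    congr 1
    rw [← intervalIntegral_conj, ← intervalIntegral.integral_comp_sub_left
      (fun θ => conj (g i (1 - θ)) * ee (-(k * θ))) 1]
    refine integral_congr fun θ _ => ?_
    simp only [sub_sub_cancel, map_mul]
    rw [← ee_neg, ← ee_add_int _ k]
    congr 2
    ring
  · intro p _
    refine ii_of_bound (C := 1) (Measurable.indicator (Measurable.mul ?_ (by fun_prop)) ?_)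
      fun θ _ => (norm_indicator_le_norm_self _ _).trans ?_
    · split_ifs
      · exact hg _
      · exact continuous_conj.measurable.comp ((hg _).comp (measurable_const.sub measurable_id))
    · unfold arc; split_ifs <;> exact measurableSet_Ioc
    · rw [Pi.mul_apply, norm_mul, norm_ee, mul_one]
      split_ifs <;> simp [hg1]

theorem Part.telescope {x ℓ : ι → ℝ} (h : Part x ℓ) {k : ℤ} (hk : k ≠ 0) (p : ℝ) :
    (∑ i, (ee (-(k * (x i + ℓ i))) / (2 * π * I * p) - ee (-(k * x i)) / (2 * π * I * p))).re = 0 := by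
  have h1 := h.integral_glue (g := fun _ _ => 1) (fun _ => measurable_const) (by simp) k
  have h2 : ∫ θ in (0 : ℝ)..1, glue x ℓ (fun _ _ => 1) θ * ee (-(k * θ))
      = ∫ θ in (0 : ℝ)..1, ee ((-k : ℤ) * θ) := by
    refine integral_congr_ae (ae_of_all _ fun θ hθ => ?_)
    rw [uIoc_of_le zero_le_one] at hθ
    obtain ⟨i, hi | hi⟩ := h.glue_apply (fun _ _ => 1) hθ <;> simp [hi]
  rw [h2, integral_ee_int, if_neg (neg_ne_zero.mpr hk)] at h1
  have h3 : (∑ i, ∫ θ in (x i)..(x i + ℓ i), (1 : ℂ) * ee (-(k * θ))).re = 0 := by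
    have : (2 * (∑ i, ∫ θ in (x i)..(x i + ℓ i), (1 : ℂ) * ee (-(k * θ))).re : ℝ) = 0 := by
      exact_mod_cast h1.symm
    linarith
  have hk' : (k : ℝ) ≠ 0 := by exact_mod_cast hk
  have hk'' : (k : ℂ) ≠ 0 := by exact_mod_cast hk
  have h4 : ∑ i, (ee (-(k * (x i + ℓ i))) / (2 * π * I * p) - ee (-(k * x i)) / (2 * π * I * p))
      = ((-k / p : ℝ) : ℂ) * ∑ i, ∫ θ in (x i)..(x i + ℓ i), (1 : ℂ) * ee (-(k * θ)) := by
    rw [Finset.mul_sum]
    refine Finset.sum_congr rfl fun i _ => ?_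
    simp_rw [one_mul, ← neg_mul]
    rw [integral_ee_mul (neg_ne_zero.mpr hk')]
    push_cast
    field_simp
    ring
  rw [h4, Complex.re_ofReal_mul, h3, mul_zero]

end Glue

end Crest.Agent.R75
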