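import Mathlib

set_option autoImplicit false

namespace Crest.Agent.R75

open Complex MeasureTheory Set Filter Topology intervalIntegral
open scoped Real

/-- The additive character `x ↦ exp (2 π i x)`. -/
noncomputable def ee (x : ℝ) : ℂ := Complex.exp (2 * π * I * x)

theorem norm_ee (x : ℝ) : ‖ee x‖ = 1 := by
  have : (2 * π * I * x : ℂ) = ((2 * π * x : ℝ) : ℂ) * I := by push_cast; ring
  rw [ee, this, Complex.norm_exp_ofReal_mul_I]

theorem ee_add (x y : ℝ) : ee (x + y) = ee x * ee y := by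
  rw [ee, ee, ee, ← Complex.exp_add]; congr 1; push_cast; ring

theorem ee_zero : ee 0 = 1 := by simp [ee]

theorem ee_int (n : ℤ) : ee n = 1 := by
  rw [ee, Complex.exp_eq_one_iff]
  exact ⟨n, by push_cast; ring⟩

theorem ee_add_int (x : ℝ) (n : ℤ) : ee (x + n) = ee x := by rw [ee_add, ee_int, mul_one]

theorem ee_neg (x : ℝ) : ee (-x) = (starRingEnd ℂ) (ee x) := by
  rw [ee, ee, ← Complex.exp_conj]
  congr 1
  simp [Complex.conj_ofReal, map_ofNat]

theorem ee_ne_zero (x : ℝ) : ee x ≠ 0 := Complex.exp_ne_zero _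

@[fun_prop]
theorem continuous_ee : Continuous ee := by unfold ee; fun_prop

theorem ee_sum {ι : Type*} (s : Finset ι) (f : ι → ℝ) : ee (∑ i ∈ s, f i) = ∏ i ∈ s, ee (f i) := by
  classical
  induction s using Finset.induction_on with
  | empty => simp [ee_zero]
  | insert a s ha ih => rw [Finset.sum_insert ha, Finset.prod_insert ha, ee_add, ih]

theorem ee_nat_mul (n : ℕ) (x : ℝ) : ee (n * x) = ee x ^ n := by
  rw [ee, ee, ← Complex.exp_nat_mul]; congr 1; push_cast; ring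

theorem hasDerivAt_ee {g : ℝ → ℝ} {g' x : ℝ} (h : HasDerivAt g g' x) :
    HasDerivAt (fun x => ee (g x)) (ee (g x) * (2 * π * I * g')) x := by
  unfold ee
  exact ((h.ofReal_comp).const_mul (2 * π * I : ℂ)).cexp

theorem norm_ee_sub_le (x y : ℝ) : ‖ee x - ee y‖ ≤ 7 * |x - y| := by
  have e : ee x - ee y = ee y * (ee (x - y) - 1) := by
    rw [mul_sub, ← ee_add, mul_one, add_sub_cancel]
  rw [e, norm_mul, norm_ee, one_mul]
  have : (2 * π * I * (x - y : ℝ) : ℂ) = I * ((2 * π * (x - y) : ℝ) : ℂ) := by push_cast; ring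
  rw [ee, this]
  refine (Real.norm_exp_I_mul_ofReal_sub_one_le).trans ?_
  rw [Real.norm_eq_abs, abs_mul, abs_of_pos Real.two_pi_pos]
  have := Real.pi_lt_d2
  gcongr
  linarith

theorem norm_two_pi_I : ‖(2 * π * I : ℂ)‖ = 2 * π := by
  simp [abs_of_pos Real.pi_pos]

theorem norm_bdry (y p D : ℝ) (hD : 0 < D) (h : D ≤ |p|) :
    ‖ee y / (2 * π * I * p)‖ ≤ 1 / (4 * D) := by
  rw [norm_div, norm_ee, norm_mul, norm_two_pi_I, Complex.norm_real, Real.norm_eq_abs]
  refine one_div_le_one_div_of_le (by positivity) ?_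
  have := Real.pi_gt_three
  gcongr
  linarith

/-- First-derivative test. -/
theorem fdt {g g1 g2 : ℝ → ℝ} (h1 : ∀ x, HasDerivAt g (g1 x) x) (h2 : ∀ x, HasDerivAt g1 (g2 x) x)
    (hc : Continuous g2) {a b D : ℝ} (hab : a ≤ b) (hD : 0 < D) (hg2 : ∀ x ∈ Icc a b, 0 ≤ g2 x)
    (hg1 : ∀ x ∈ Icc a b, D ≤ |g1 x|) : ‖∫ x in a..b, ee (g x)‖ ≤ 1 / D := by
  have hne : ∀ x ∈ Icc a b, g1 x ≠ 0 := fun x hx h => by
    have := hg1 x hx
    rw [h, abs_zero] at this
    linarith
  have cg : Continuous g := continuous_iff_continuousAt.mpr fun x => (h1 x).continuousAt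
  have cg1 : Continuous g1 := continuous_iff_continuousAt.mpr fun x => (h2 x).continuousAt
  have hpi : (π : ℂ) ≠ 0 := by exact_mod_cast Real.pi_ne_zero
  have co : ContinuousOn (fun x => ee (g x) * ((g2 x / g1 x ^ 2 : ℝ) / (2 * π * I))) (uIcc a b) := by
    rw [uIcc_of_le hab]
    refine (continuous_ee.comp cg).continuousOn.mul (ContinuousOn.div_const ?_ _)
    exact continuous_ofReal.comp_continuousOn (hc.continuousOn.div (cg1.pow 2).continuousOn
      fun x hx => pow_ne_zero 2 (hne x hx))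
  have key := integral_eq_sub_of_hasDerivAt (a := a) (b := b)
    (f := fun x => ee (g x) / (2 * π * I * g1 x))
    (f' := fun x => ee (g x) - ee (g x) * ((g2 x / g1 x ^ 2 : ℝ) / (2 * π * I)))
    (fun x hx => by
      rw [uIcc_of_le hab] at hx
      have hx' : (g1 x : ℂ) ≠ 0 := by exact_mod_cast hne x hx
      have := (hasDerivAt_ee (h1 x)).div (((h2 x).ofReal_comp).const_mul (2 * π * I : ℂ))
        (by simp [hpi, hx'])
      refine this.congr_deriv ?_
      push_cast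
      field_simp)
    (((continuous_ee.comp cg).continuousOn.sub co).intervalIntegrable)
  have ce : Continuous fun x => ee (g x) := continuous_ee.comp cg
  rw [integral_sub (ce.intervalIntegrable _ _) co.intervalIntegrable,
    sub_eq_iff_eq_add] at key
  have co2 : ContinuousOn (fun x => g2 x / g1 x ^ 2) (uIcc a b) := by
    rw [uIcc_of_le hab]
    exact hc.continuousOn.div (cg1.pow 2).continuousOn fun x hx => pow_ne_zero 2 (hne x hx)
  have key2 := integral_eq_sub_of_hasDerivAt (a := a) (b := b) (f := fun x => -(g1 x)⁻¹)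
    (f' := fun x => g2 x / g1 x ^ 2) (fun x hx => by
      rw [uIcc_of_le hab] at hx
      refine ((h2 x).inv (hne x hx)).neg.congr_deriv ?_
      ring) co2.intervalIntegrable
  have a1 : ‖∫ x in a..b, ee (g x) * ((g2 x / g1 x ^ 2 : ℝ) / (2 * π * I))‖
      ≤ ∫ x in a..b, (g2 x / g1 x ^ 2) / 4 := by
    refine norm_integral_le_of_norm_le hab (ae_of_all _ fun x hx => ?_)
      (co2.div_const 4).intervalIntegrable
    have h0 : 0 ≤ g2 x / g1 x ^ 2 := div_nonneg (hg2 x ⟨hx.1.le, hx.2⟩) (sq_nonneg _)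
    rw [norm_mul, norm_ee, one_mul, norm_div, norm_two_pi_I, Complex.norm_real,
      Real.norm_of_nonneg h0]
    have := Real.pi_gt_three
    gcongr
    linarith
  rw [intervalIntegral.integral_div, key2] at a1
  have b1 : ∀ x ∈ Icc a b, |(g1 x)⁻¹| ≤ 1 / D := fun x hx => by
    rw [abs_inv, ← one_div]; exact one_div_le_one_div_of_le hD (hg1 x hx)
  have b2 := abs_le.mp (b1 a ⟨le_rfl, hab⟩)
  have b3 := abs_le.mp (b1 b ⟨hab, le_rfl⟩)
  have b4 := norm_bdry (g a) _ D hD (hg1 a ⟨le_rfl, hab⟩)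
  have b5 := norm_bdry (g b) _ D hD (hg1 b ⟨hab, le_rfl⟩)
  have e : 1 / (4 * D) = 1 / D / 4 := by field_simp
  rw [key]
  refine (norm_add_le _ _).trans ?_
  have := norm_sub_le (ee (g b) / (2 * π * I * g1 b)) (ee (g a) / (2 * π * I * g1 a))
  linarith [b2.2, b3.1]

/-- Two integrations by parts. -/
theorem ibp2 {g g1 g2 g3 : ℝ → ℝ} (h1 : ∀ x, HasDerivAt g (g1 x) x)
    (h2 : ∀ x, HasDerivAt g1 (g2 x) x) (h3 : ∀ x, HasDerivAt g2 (g3 x) x) (hc : Continuous g3)
    {a b D A B : ℝ} (hab : a ≤ b) (hD : 0 < D) (hg1 : ∀ x ∈ Icc a b, D ≤ |g1 x|)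
    (hg2 : ∀ x ∈ Icc a b, |g2 x| ≤ A) (hg3 : ∀ x ∈ Icc a b, |g3 x| ≤ B) :
    ‖(∫ x in a..b, ee (g x)) - (ee (g b) / (2 * π * I * g1 b) - ee (g a) / (2 * π * I * g1 a))‖
      ≤ 2 * (A / D ^ 3) + (B / D ^ 3 + 3 * A ^ 2 / D ^ 4) * (b - a) := by
  have hne : ∀ x ∈ Icc a b, g1 x ≠ 0 := fun x hx h => by
    have := hg1 x hx
    rw [h, abs_zero] at this
    linarith
  have cg : Continuous g := continuous_iff_continuousAt.mpr fun x => (h1 x).continuousAt
  have cg1 : Continuous g1 := continuous_iff_continuousAt.mpr fun x => (h2 x).continuousAt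
  have cg2 : Continuous g2 := continuous_iff_continuousAt.mpr fun x => (h3 x).continuousAt
  have hpi : (π : ℂ) ≠ 0 := by exact_mod_cast Real.pi_ne_zero
  have hA : 0 ≤ A := (abs_nonneg _).trans (hg2 a ⟨le_rfl, hab⟩)
  have hB : 0 ≤ B := (abs_nonneg _).trans (hg3 a ⟨le_rfl, hab⟩)
  set R : ℝ → ℂ := fun x => ee (g x) *
    ((g3 x / g1 x ^ 3 - 3 * g2 x ^ 2 / g1 x ^ 4 : ℝ) / (2 * π * I) ^ 2) with hR
  have co : ContinuousOn R (uIcc a b) := by
    rw [uIcc_of_le hab]
    refine (continuous_ee.comp cg).continuousOn.mul (ContinuousOn.div_const ?_ _)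
    exact continuous_ofReal.comp_continuousOn ((hc.continuousOn.div (cg1.pow 3).continuousOn
      fun x hx => pow_ne_zero 3 (hne x hx)).sub (((cg2.pow 2).const_mul 3).continuousOn.div
        (cg1.pow 4).continuousOn fun x hx => pow_ne_zero 4 (hne x hx)))
  set H : ℝ → ℂ := fun x => ee (g x) * g2 x / ((2 * π * I) ^ 2 * (g1 x) ^ 3) with hH
  have key := integral_eq_sub_of_hasDerivAt (a := a) (b := b)
    (f := fun x => ee (g x) / (2 * π * I * g1 x) + H x) (f' := fun x => ee (g x) + R x)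
    (fun x hx => by
      rw [uIcc_of_le hab] at hx
      have hx' : (g1 x : ℂ) ≠ 0 := by exact_mod_cast hne x hx
      have d1 := (hasDerivAt_ee (h1 x)).div (((h2 x).ofReal_comp).const_mul (2 * π * I : ℂ))
        (by simp [hpi, hx'])
      have d2 := ((hasDerivAt_ee (h1 x)).mul ((h3 x).ofReal_comp)).div
        ((((h2 x).ofReal_comp).pow 3).const_mul ((2 * π * I : ℂ) ^ 2)) (by simp [hpi, hx'])
      refine (d1.add d2).congr_deriv ?_
      simp only [hR, Pi.mul_apply, Pi.pow_apply]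
      push_cast
      field_simp
      ring)
    (((continuous_ee.comp cg).continuousOn.add co).intervalIntegrable)
  have ce : Continuous fun x => ee (g x) := continuous_ee.comp cg
  rw [integral_add (ce.intervalIntegrable _ _) co.intervalIntegrable,
    ← eq_sub_iff_add_eq] at key
  have h2pi : 1 ≤ (2 * π) ^ 2 := one_le_pow₀ (by linarith [Real.pi_gt_three])
  have bH : ∀ x ∈ Icc a b, ‖H x‖ ≤ A / D ^ 3 := fun x hx => by
    simp only [hH]
    rw [norm_div, norm_mul, norm_ee, one_mul, norm_mul, norm_pow, norm_pow, norm_two_pi_I,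
      Complex.norm_real, Complex.norm_real, Real.norm_eq_abs, Real.norm_eq_abs]
    refine div_le_div₀ hA (hg2 x hx) (by positivity) ?_
    have := pow_le_pow_left₀ hD.le (hg1 x hx) 3
    nlinarith [pow_pos hD 3]
  have bR : ‖∫ x in a..b, R x‖ ≤ (B / D ^ 3 + 3 * A ^ 2 / D ^ 4) * |b - a| := by
    refine norm_integral_le_of_norm_le_const fun x hx => ?_
    rw [uIoc_of_le hab] at hx
    have hx' : x ∈ Icc a b := ⟨hx.1.le, hx.2⟩
    simp only [hR]
    rw [norm_mul, norm_ee, one_mul, norm_div, norm_pow, norm_two_pi_I, Complex.norm_real,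
      Real.norm_eq_abs]
    refine (div_le_self (abs_nonneg _) h2pi).trans ((abs_sub _ _).trans (add_le_add ?_ ?_))
    · rw [abs_div, abs_pow]
      exact div_le_div₀ hB (hg3 x hx') (by positivity) (pow_le_pow_left₀ hD.le (hg1 x hx') 3)
    · rw [abs_div, abs_pow, abs_mul, abs_pow, abs_of_pos (by norm_num : (0 : ℝ) < 3)]
      refine div_le_div₀ (by positivity) ?_ (by positivity) (pow_le_pow_left₀ hD.le (hg1 x hx') 4)
      have := pow_le_pow_left₀ (abs_nonneg _) (hg2 x hx') 2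
      linarith
  rw [abs_of_nonneg (sub_nonneg.mpr hab)] at bR
  rw [key]
  have e : ee (g b) / (2 * π * I * g1 b) + H b - (ee (g a) / (2 * π * I * g1 a) + H a)
      - (∫ x in a..b, R x) - (ee (g b) / (2 * π * I * g1 b) - ee (g a) / (2 * π * I * g1 a))
      = H b - H a - ∫ x in a..b, R x := by ring
  rw [e]
  refine (norm_sub_le _ _).trans ?_
  have := norm_sub_le (H b) (H a)
  linarith [bH a ⟨le_rfl, hab⟩, bH b ⟨hab, le_rfl⟩]

theorem gauss_tail {c : ℂ} (hc : 0 < c.re) {A B : ℝ} (hA : 0 < A) (hAB : A ≤ B) :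
    ‖∫ x in A..B, cexp (-c * (x : ℂ) ^ 2)‖ ≤ 1 / (‖c‖ * A) := by
  have hc0 : c ≠ 0 := fun h => by simp [h] at hc
  have hn : 0 < ‖c‖ := norm_pos_iff.mpr hc0
  have hle : ∀ x : ℝ, ‖cexp (-c * (x : ℂ) ^ 2)‖ ≤ 1 := fun x => by
    rw [Complex.norm_exp, Real.exp_le_one_iff, ← Complex.ofReal_pow, Complex.re_mul_ofReal,
      Complex.neg_re]
    nlinarith [sq_nonneg x]
  have hpos : ∀ x ∈ uIcc A B, 0 < x := fun x hx => by
    rw [uIcc_of_le hAB] at hx; linarith [hx.1]
  have c1 : Continuous fun x : ℝ => cexp (-c * (x : ℂ) ^ 2) := by fun_prop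
  have co : ContinuousOn (fun x : ℝ => cexp (-c * (x : ℂ) ^ 2) / (2 * c * x ^ 2)) (uIcc A B) :=
    c1.continuousOn.div (by fun_prop) fun x hx => by
      have : (x : ℂ) ≠ 0 := by exact_mod_cast (hpos x hx).ne'
      simp [hc0, this]
  have key := integral_eq_sub_of_hasDerivAt (a := A) (b := B)
    (f := fun x : ℝ => -cexp (-c * (x : ℂ) ^ 2) / (2 * c * x))
    (f' := fun x : ℝ => cexp (-c * (x : ℂ) ^ 2) + cexp (-c * (x : ℂ) ^ 2) / (2 * c * x ^ 2))
    (fun x hx => by
      have hx' : (x : ℂ) ≠ 0 := by exact_mod_cast (hpos x hx).ne'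
      have d0 : HasDerivAt (fun x : ℝ => (x : ℂ)) 1 x := (hasDerivAt_id x).ofReal_comp
      have d1 := (((d0.pow 2).const_mul (-c)).cexp.neg).div (d0.const_mul (2 * c))
        (by simp [hc0, hx'])
      refine d1.congr_deriv ?_
      simp only [Pi.neg_apply, Pi.pow_apply]
      field_simp
      ring)
    ((c1.continuousOn.add co).intervalIntegrable)
  rw [integral_add (c1.intervalIntegrable _ _) co.intervalIntegrable, ← eq_sub_iff_add_eq] at key
  have co2 : ContinuousOn (fun x : ℝ => 1 / (2 * ‖c‖ * x ^ 2)) (uIcc A B) :=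
    continuousOn_const.div (by fun_prop) fun x hx => by have := hpos x hx; positivity
  have key2 := integral_eq_sub_of_hasDerivAt (a := A) (b := B)
    (f := fun x : ℝ => -(x⁻¹ / (2 * ‖c‖))) (f' := fun x : ℝ => 1 / (2 * ‖c‖ * x ^ 2))
    (fun x hx => by
      have hx' := (hpos x hx).ne'
      refine ((hasDerivAt_inv hx').div_const (2 * ‖c‖)).neg.congr_deriv ?_
      field_simp) co2.intervalIntegrable
  have a1 : ‖∫ x in A..B, cexp (-c * (x : ℂ) ^ 2) / (2 * c * x ^ 2)‖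
      ≤ ∫ x in A..B, 1 / (2 * ‖c‖ * x ^ 2) := by
    refine norm_integral_le_of_norm_le hAB (ae_of_all _ fun x hx => ?_) co2.intervalIntegrable
    rw [norm_div]
    have : ‖(2 * c * (x : ℂ) ^ 2)‖ = 2 * ‖c‖ * x ^ 2 := by simp
    rw [this]
    exact div_le_div_of_nonneg_right (hle x) (by positivity)
  rw [key2] at a1
  have b1 : ∀ x : ℝ, 0 < x → ‖-cexp (-c * (x : ℂ) ^ 2) / (2 * c * x)‖ ≤ x⁻¹ / (2 * ‖c‖) := by
    intro x hx
    rw [norm_div, norm_neg]
    have : ‖(2 * c * (x : ℂ))‖ = 2 * ‖c‖ * x := by simp [abs_of_pos hx]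
    rw [this]
    refine (div_le_div_of_nonneg_right (hle x) (by positivity)).trans (le_of_eq ?_)
    field_simp
  rw [key]
  refine (norm_sub_le _ _).trans ?_
  have := norm_sub_le (-cexp (-c * (B : ℂ) ^ 2) / (2 * c * B)) (-cexp (-c * (A : ℂ) ^ 2) / (2 * c * A))
  have e : 1 / (‖c‖ * A) = 2 * (A⁻¹ / (2 * ‖c‖)) := by field_simp
  linarith [b1 A hA, b1 B (by linarith)]

theorem gauss_trunc {c : ℂ} (hc : 0 < c.re) {A : ℝ} (hA : 0 < A) :
    ‖(∫ x in (-A)..A, cexp (-c * (x : ℂ) ^ 2)) - ((π : ℂ) / c) ^ (1 / 2 : ℂ)‖ ≤ 2 / (‖c‖ * A) := by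
  have c1 : Continuous fun x : ℝ => cexp (-c * (x : ℂ) ^ 2) := by fun_prop
  rw [← integral_gaussian_complex hc]
  have lim := intervalIntegral_tendsto_integral (integrable_cexp_neg_mul_sq hc)
    (a := fun B : ℝ => -B) (b := fun B : ℝ => B) tendsto_neg_atTop_atBot tendsto_id
  refine le_of_tendsto ((tendsto_const_nhds.sub lim).norm) ?_
  filter_upwards [eventually_ge_atTop A] with B hB
  rw [← integral_add_adjacent_intervals (a := -B) (b := -A) (c := B) (c1.intervalIntegrable _ _)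
    (c1.intervalIntegrable _ _), ← integral_add_adjacent_intervals (a := -A) (b := A) (c := B)
    (c1.intervalIntegrable _ _) (c1.intervalIntegrable _ _)]
  have e : ∫ x in (-B)..(-A), cexp (-c * (x : ℂ) ^ 2) = ∫ x in A..B, cexp (-c * (x : ℂ) ^ 2) := by
    rw [← intervalIntegral.integral_comp_neg]
    simp
  rw [e]
  have := gauss_tail hc hA hB
  have e2 : ∀ u v : ℂ, u - (v + (u + v)) = -(2 * v) := fun u v => by ring
  rw [e2, norm_neg, norm_mul, Complex.norm_ofNat, div_eq_mul_one_div 2]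
  linarith

/-- The Fresnel constant. -/
noncomputable def Fr : ℂ := I ^ (1 / 2 : ℂ)

theorem norm_Fr : ‖Fr‖ = 1 := by
  have : (1 / 2 : ℂ) = ((1 / 2 : ℝ) : ℂ) := by push_cast; rfl
  rw [Fr, this, Complex.norm_cpow_real, Complex.norm_I, Real.one_rpow]

theorem fresnel {A : ℝ} (hA : 0 < A) : ‖(∫ x in (-A)..A, ee (x ^ 2 / 2)) - Fr‖ ≤ 1 / A := by
  have hpi : (π : ℂ) ≠ 0 := by exact_mod_cast Real.pi_ne_zero
  have c1 : ContinuousAt (fun δ : ℝ => ((π : ℂ) / (δ - π * I)) ^ (1 / 2 : ℂ)) 0 := by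
    refine ContinuousAt.cpow (ContinuousAt.div continuousAt_const (by fun_prop) (by simp [hpi]))
      continuousAt_const ?_
    have : (π : ℂ) / ((0 : ℝ) - π * I) = I := by
      simp only [ofReal_zero, zero_sub]; field_simp; simp
    rw [this]
    simp [Complex.mem_slitPlane_iff]
  have e1 : ((π : ℂ) / ((0 : ℝ) - π * I)) ^ (1 / 2 : ℂ) = Fr := by
    have : (π : ℂ) / ((0 : ℝ) - π * I) = I := by
      simp only [ofReal_zero, zero_sub]; field_simp; simp
    rw [this, Fr]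
  have c2 : Continuous fun δ : ℝ => ∫ x in (-A)..A, cexp (-((δ : ℂ) - π * I) * (x : ℂ) ^ 2) :=
    continuous_parametric_intervalIntegral_of_continuous' (by fun_prop) _ _
  have e2 : ∫ x in (-A)..A, cexp (-(((0 : ℝ) : ℂ) - π * I) * (x : ℂ) ^ 2)
      = ∫ x in (-A)..A, ee (x ^ 2 / 2) := by
    refine integral_congr fun x _ => ?_
    simp only [ee]
    congr 1
    push_cast; ring
  have lim := ((c2.continuousAt (x := 0)).sub c1).norm.tendsto.mono_left
    (nhdsWithin_le_nhds (s := Ioi 0))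
  rw [← e1, ← e2]
  refine le_of_tendsto lim ?_
  filter_upwards [self_mem_nhdsWithin] with δ hδ
  have hδ' : 0 < δ := hδ
  refine (gauss_trunc (c := δ - π * I) (by simpa using hδ') hA).trans ?_
  have : 2 ≤ ‖(δ : ℂ) - π * I‖ := by
    refine le_trans ?_ (Complex.abs_im_le_norm _)
    simp [abs_of_pos Real.pi_pos]
    linarith [Real.pi_gt_three]
  rw [div_le_div_iff₀ (by positivity) hA]
  nlinarith

theorem fresnel_scaled {κ h : ℝ} (hκ : 0 < κ) (hh : 0 < h) (u₀ : ℝ) :
    ‖(∫ u in (u₀ - h)..(u₀ + h), ee (κ * (u - u₀) ^ 2 / 2)) - Fr / (√κ : ℝ)‖ ≤ 1 / (κ * h) := by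
  have hs : 0 < √κ := Real.sqrt_pos.mpr hκ
  have e1 : ∫ u in (u₀ - h)..(u₀ + h), ee (κ * (u - u₀) ^ 2 / 2)
      = (√κ)⁻¹ • ∫ x in (-(√κ * h))..(√κ * h), ee (x ^ 2 / 2) := by
    have := intervalIntegral.integral_comp_mul_sub (fun x => ee (x ^ 2 / 2)) (a := u₀ - h)
      (b := u₀ + h) hs.ne' (√κ * u₀)
    rw [show √κ * (u₀ - h) - √κ * u₀ = -(√κ * h) by ring,
      show √κ * (u₀ + h) - √κ * u₀ = √κ * h by ring] at this
    rw [← this]
    refine integral_congr fun u _ => ?_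
    congr 1
    rw [← mul_sub, mul_pow, Real.sq_sqrt hκ.le]
  have e2 : Fr / (√κ : ℝ) = (√κ)⁻¹ • Fr := by
    rw [Complex.real_smul]; push_cast; ring
  rw [e1, e2, ← smul_sub, norm_smul, Real.norm_of_nonneg (by positivity)]
  refine (mul_le_mul_of_nonneg_left (fresnel (by positivity)) (by positivity)).trans (le_of_eq ?_)
  field_simp
  rw [Real.sq_sqrt hκ.le]

end Crest.Agent.R75
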