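import Crest.Agent.R75.Types

set_option autoImplicit false

namespace Crest.Agent.R75

open Finset

theorem exists_fibre_inj {J K : Type} [Fintype J] [DecidableEq K] (g : J → K) (q : ℕ)
    (h : ∀ k, #{j | g j = k} ≤ q) :
    ∃ b : J → ℕ, (∀ j, b j < q) ∧ ∀ j j', g j = g j' → b j = b j' → j = j' := by
  classical
  have : ∀ k, ∃ e : J → ℕ, (∀ j, g j = k → e j < q) ∧
      ∀ j j', g j = k → g j' = k → e j = e j' → j = j' := fun k => by
    set F : Finset J := {j | g j = k} with hF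
    have hm : ∀ j, g j = k → j ∈ F := fun j hj => by simp [hF, hj]
    refine ⟨fun j => if h : j ∈ F then F.equivFin ⟨j, h⟩ else 0, fun j hj => ?_,
      fun j j' hj hj' he => ?_⟩
    · simp only [dif_pos (hm j hj)]
      exact (Fin.is_lt _).trans_le (h k)
    · simp only [dif_pos (hm j hj), dif_pos (hm j' hj')] at he
      exact congrArg Subtype.val (F.equivFin.injective (Fin.ext he))
  choose e h1 h2 using this
  exact ⟨fun j => e (g j) j, fun j => h1 _ _ rfl,
    fun j j' hg he => h2 (g j) j j' rfl hg.symm (by simpa only [hg] using he)⟩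

theorem exists_moduli {S : Type} [Fintype S] (y : S → ℝ) (hy : ∀ s, 0 ≤ y s) (T : ℕ) :
    ∃ (lam : ℕ) (q : S → ℕ), 0 < lam ∧ (∀ s, lam * y s ≤ q s) ∧
      (∀ s, q s ≤ lam * (y s + 2 * Fintype.card S)) ∧ (∀ s, 0 < q s) ∧
      (∀ s s', s ≠ s' → IsCoprime (q s : ℤ) (q s')) ∧
      ∀ s (d : ℤ), d ≠ 0 → d.natAbs ≤ T → IsCoprime d (q s) := by
  classical
  set K := Fintype.card S with hK
  set τ : S → ℕ := fun s => K * ⌈y s / K⌉₊ + Fintype.equivFin S s with hτ
  have hτi : ∀ s s', τ s = τ s' → s = s' := fun s s' h => by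
    have := congrArg (· % K) h
    simp only [hτ, Nat.mul_add_mod] at this
    rw [Nat.mod_eq_of_lt (Fin.is_lt _), Nat.mod_eq_of_lt (Fin.is_lt _)] at this
    exact (Fintype.equivFin S).injective (Fin.ext this)
  set lam := (T + ∑ s, τ s).factorial with hlam
  have hlam0 : 0 < lam := Nat.factorial_pos _
  have hlam1 : (1 : ℝ) ≤ lam := by exact_mod_cast hlam0
  have hco : ∀ s s', τ s < τ s' → Nat.Coprime (τ s * lam + 1) (τ s' * lam + 1) := fun s s' h =>
    Nat.coprime_mul_succ (Nat.dvd_factorial (by omega) (by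
      have := single_le_sum (f := τ) (fun _ _ => Nat.zero_le _) (mem_univ s')
      omega))
  refine ⟨lam, fun s => τ s * lam + 1, hlam0, fun s => ?_, fun s => ?_, fun s => by positivity,
    fun s s' h => ?_, fun s d hd hdT => ?_⟩
  · have hK0 : (0 : ℝ) < K := by exact_mod_cast (Fintype.equivFin S s).pos
    have a1 := Nat.le_ceil (y s / K)
    rw [div_le_iff₀ hK0] at a1
    have a2 : y s ≤ τ s := by
      simp only [hτ]; push_cast
      have : (0 : ℝ) ≤ (Fintype.equivFin S s : ℕ) := by positivity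
      linarith
    push_cast
    nlinarith
  · have hK0 : (0 : ℝ) < K := by exact_mod_cast (Fintype.equivFin S s).pos
    have a1 := (Nat.ceil_lt_add_one (div_nonneg (hy s) hK0.le)).le
    have a3 : ((Fintype.equivFin S s : ℕ) : ℝ) + 1 ≤ K := by
      exact_mod_cast (Fintype.equivFin S s).is_lt
    have a2 : (τ s : ℝ) + 1 ≤ y s + 2 * K := by
      simp only [hτ]; push_cast
      have := mul_le_mul_of_nonneg_left a1 hK0.le
      rw [mul_add, mul_div_cancel₀ _ hK0.ne'] at this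
      linarith
    push_cast
    nlinarith
  · rw [Nat.isCoprime_iff_coprime]
    rcases lt_trichotomy (τ s) (τ s') with h1 | h1 | h1
    exacts [hco _ _ h1, absurd (hτi _ _ h1) h, (hco _ _ h1).symm]
  · obtain ⟨e, he⟩ : d ∣ lam := Int.natAbs_dvd.mp (Int.natCast_dvd_natCast.mpr
      (Nat.dvd_factorial (by omega) (by omega)))
    exact ⟨-(τ s * e), 1, by push_cast; rw [he]; ring⟩

theorem exists_crt {S : Type} [Fintype S] (q l b : S → ℤ)
    (hq : ∀ s s', s ≠ s' → IsCoprime (q s) (q s')) (hl : ∀ s, IsCoprime (l s) (q s)) :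
    ∃ z : ℤ, ∀ s, q s ∣ l s * z - b s := by
  classical
  have : ∀ s, IsCoprime (l s * ∏ s' ∈ univ.erase s, q s') (q s) := fun s =>
    (hl s).mul_left (IsCoprime.prod_left fun s' hs' => hq _ _ (mem_erase.mp hs').1)
  choose α γ h using this
  refine ⟨∑ s, α s * (∏ s' ∈ univ.erase s, q s') * b s, fun s => ?_⟩
  rw [← add_sum_erase _ _ (mem_univ s), mul_add, add_sub_right_comm]
  refine dvd_add ⟨-(γ s * b s), by linear_combination b s * h s⟩
    (Dvd.dvd.mul_left (dvd_sum fun s' hs' => ?_) _)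
  exact ((dvd_prod_of_mem q (mem_erase.mpr ⟨(mem_erase.mp hs').1.symm, mem_univ _⟩)).mul_left
    _).mul_right _

/-- Near-perfect packing of the combs. -/
theorem packing {ι S : Type} [Fintype ι] [Fintype S] (i₀ : ι) (n β : S → ι → ℤ)
    (hl : ∀ s, 0 < n s i₀) (hβ0 : ∀ s, ∑ i, β s i * n s i = 0)
    (hβ1 : ∀ s s', s' ≠ s → ∑ i, β s i * n s' i ≠ 0) (π : S → ℝ) (hπ : ∀ s, 0 < π s)
    (hsum : 2 * ∑ s, π s = 1) {ε : ℝ} (hε : 0 < ε) :
    ∃ (D : ℕ) (q : S → ℕ) (J : Type) (_ : Fintype J) (v : J → ι → ℤ) (X : ℝ),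
      0 < D ∧ Even D ∧ 0 < X ∧ (∀ s, 0 < q s) ∧ (∀ s, IsCoprime (2 : ℤ) (q s)) ∧
      (∀ s s', s ≠ s' → IsCoprime (q s : ℤ) (q s')) ∧
      (∀ s s', s' ≠ s → IsCoprime (∑ i, β s i * n s' i) (q s)) ∧
      (∀ s, n s i₀ ∣ D) ∧ (∀ j s, n s i₀ ∣ ∑ i, n s i * v j i) ∧
      (∀ j s j' s' (a u u' : ℤ), 0 ≤ u → u < n s i₀ → 0 ≤ u' → u' < n s' i₀ →
        (q s * D : ℤ) ∣ a - (∑ i, n s i * v j i + u) →
        (q s' * D : ℤ) ∣ a - (∑ i, n s' i * v j' i + u') → j = j' ∧ s = s' ∧ u = u') ∧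
      (∀ j s j' s' (a u u' : ℤ), 0 ≤ u → u < n s i₀ → 0 ≤ u' → u' < n s' i₀ →
        (q s * D : ℤ) ∣ a - (∑ i, n s i * v j i + u) →
        ¬ (q s' * D : ℤ) ∣ -1 - a - (∑ i, n s' i * v j' i + u')) ∧
      (∀ s, n s i₀ * X / π s ≤ q s) ∧ (∀ s, q s ≤ (1 + 2 * ε) * (n s i₀ * X / π s)) ∧
      (1 - ε) * (D * X) ≤ Fintype.card J := by
  classical
  obtain ⟨W, hW0, hW2, hWl⟩ : ∃ W : ℕ, 0 < W ∧ Even W ∧ ∀ s, n s i₀ ∣ W :=
    ⟨2 * ∏ s, (n s i₀).natAbs, Nat.mul_pos two_pos (prod_pos fun s _ => by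
      have := hl s; omega), even_two_mul _, fun s => Int.natAbs_dvd.mp
        (Int.natCast_dvd_natCast.mpr ((dvd_prod_of_mem _ (mem_univ s)).mul_left _))⟩
  have hW0' : (0 : ℤ) < W := by exact_mod_cast hW0
  set c : Fin W → S → ℤ := fun σ s => n s i₀ * σ / W with hc
  set r : Fin W → S → ℤ := fun σ s => n s i₀ * σ % W with hr
  have hrc : ∀ σ s, n s i₀ * σ = r σ s + W * c σ s := fun σ s => (Int.emod_add_mul_ediv _ _).symm
  have hr0 : ∀ σ s, 0 ≤ r σ s := fun σ s => Int.emod_nonneg _ hW0'.ne'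
  have hr1 : ∀ σ s, n s i₀ ∣ r σ s := fun σ s =>
    (dvd_add_left ((hWl s).mul_right (c σ s))).mp (hrc σ s ▸ dvd_mul_right _ _)
  have hr2 : ∀ σ s, r σ s + n s i₀ ≤ W := fun σ s => by
    have := Int.le_of_dvd (sub_pos.mpr (Int.emod_lt_of_pos (n s i₀ * σ) hW0'))
      (dvd_sub (hWl s) (hr1 σ s))
    simp only [hr]; linarith
  obtain ⟨R, _, ty, V, h1, h2, h3, h4, h5⟩ := types i₀ n β hl hβ0 hβ1 π hπ hsum hε c
  have hR0 : 0 < R := Nat.pos_of_ne_zero (NeZero.ne R)
  have hR0' : (0 : ℤ) < R := by exact_mod_cast hR0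
  set X₁ : ℝ := (R : ℝ) ^ Fintype.card ι / R * ∏ s, π s with hX₁
  have hX₁0 : 0 < X₁ := by
    have := prod_pos fun s (_ : s ∈ univ) => hπ s
    positivity
  obtain ⟨κ₁, hκ₁⟩ := exists_nat_gt (2 * Fintype.card S / (ε * X₁))
  have hκ₁0 : (0 : ℝ) < κ₁ := lt_of_le_of_lt (by positivity) hκ₁
  have hl' : ∀ s, (1 : ℝ) ≤ n s i₀ := fun s => by exact_mod_cast hl s
  obtain ⟨lam, q, hlam, hq1, hq2, hq0, hq3, hq4⟩ := exists_moduli
    (fun s => (1 + ε) * (n s i₀ * (κ₁ * X₁) / π s))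
    (fun s => by have := hπ s; have := hl' s; positivity)
    (2 + ∑ s, (n s i₀).natAbs + ∑ s, ∑ s', (∑ i, β s i * n s' i).natAbs)
  have hlam' : (0 : ℝ) < lam := by exact_mod_cast hlam
  set y : Fin W × (ι → ZMod R) → S → ZMod R := fun v s => ∑ i, n s i * v.2 i + c v.1 s with hy
  replace h3 : ∀ v ∈ V, ∀ s, ty (y v s) s := h3
  have hb : ∀ s, ∃ b : V × Fin (lam * κ₁) → ℕ, (∀ j, b j < q s) ∧ ∀ j j',
      (y j.1 s, r j.1.1.1 s) = (y j'.1 s, r j'.1.1.1 s) → b j = b j' → j = j' := fun s => by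
    refine exists_fibre_inj _ _ fun k => ?_
    set A : Finset (Fin W) := {σ | r σ s = k.2} with hA
    have a1 : (#A : ℝ) ≤ n s i₀ := by
      have : #A ≤ #(Ico 0 (n s i₀)) := by
        refine card_le_card_of_injOn (fun σ => c σ s) (fun σ _ => ?_) fun σ hσ σ' hσ' h => ?_
        · have := hl s
          simp only [coe_Ico, Set.mem_Ico, hc]
          refine ⟨Int.ediv_nonneg (by positivity) hW0'.le, Int.ediv_lt_of_lt_mul hW0' ?_⟩
          exact mul_lt_mul_of_pos_left (by exact_mod_cast σ.2) this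
        · simp only [hA, coe_filter, mem_univ, true_and, Set.mem_ofPred_eq] at hσ hσ' h
          have := hrc σ s
          rw [hσ, h, ← hσ', ← hrc] at this
          exact Fin.ext (by exact_mod_cast mul_left_cancel₀ (hl s).ne' this)
      rw [Int.card_Ico, sub_zero] at this
      have e : ((n s i₀).toNat : ℤ) = n s i₀ := Int.toNat_of_nonneg (hl s).le
      rw [← e]
      exact_mod_cast this
    set B := A.biUnion fun σ => (univ.filter fun η => (σ, η) ∈ V ∧
      ∑ i, n s i * η i + c σ s = k.1).image (Prod.mk σ) with hB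
    have a2 : (#B : ℝ) ≤ n s i₀ * ((1 + ε) * (X₁ / π s)) := by
      refine (Nat.cast_le.mpr card_biUnion_le).trans ?_
      rw [Nat.cast_sum]
      refine (sum_le_card_nsmul _ _ ((1 + ε) * (X₁ / π s)) fun σ _ => ?_).trans ?_
      · refine (Nat.cast_le.mpr card_image_le).trans ((h4 σ s k.1).trans (le_of_eq ?_))
        rw [hX₁]; ring
      · have := hπ s
        rw [nsmul_eq_mul]; gcongr
    have a3 : #{j : V × Fin (lam * κ₁) | (y j.1 s, r j.1.1.1 s) = k}
        ≤ #(B ×ˢ (univ : Finset (Fin (lam * κ₁)))) := by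
      refine card_le_card_of_injOn (fun j => (j.1.1, j.2)) (fun j hj => ?_)
        fun j _ j' _ h => Prod.ext (Subtype.ext (Prod.mk.inj h).1) (Prod.mk.inj h).2
      simp only [coe_filter, mem_univ, true_and, Set.mem_ofPred_eq] at hj
      simp only [coe_product, coe_univ, Set.mem_prod, Set.mem_univ, and_true, mem_coe, hB,
        mem_biUnion, mem_image, mem_filter, mem_univ, true_and, hA, ← hj]
      exact ⟨j.1.1.1, rfl, j.1.1.2, ⟨j.1.2, rfl⟩, rfl⟩
    rw [← Nat.cast_le (α := ℝ)] at a3 ⊢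
    refine a3.trans (le_trans ?_ (hq1 s))
    rw [card_product, card_univ, Fintype.card_fin]
    push_cast
    refine (mul_le_mul_of_nonneg_right a2 (by positivity)).trans (le_of_eq ?_)
    ring
  choose b hb1 hb2 using hb
  set t : V × Fin (lam * κ₁) → S → ℤ := fun j s =>
    ∑ i, n s i * (j.1.1.2 i).val + c j.1.1.1 s with ht
  have hty : ∀ j s, (t j s : ZMod R) = y j.1 s := fun j s => by simp [ht, hy]
  choose z hz using fun j : V × Fin (lam * κ₁) => exists_crt (fun s => (q s : ℤ))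
    (fun s => n s i₀) (fun s => b s j - t j s / R) hq3 (fun s => hq4 s _ (hl s).ne' (by
      have := single_le_sum (f := fun s => (n s i₀).natAbs) (fun _ _ => Nat.zero_le _) (mem_univ s)
      omega))
  set v : V × Fin (lam * κ₁) → ι → ℤ := fun j i => W * (j.1.1.2 i).val
    + (Pi.single i₀ (j.1.1.1 + W * R * z j) : ι → ℤ) i with hv
  have hnv : ∀ j s, ∑ i, n s i * v j i = r j.1.1.1 s + W * (t j s + R * (n s i₀ * z j)) :=
    fun j s => by
      simp only [hv, ht, mul_add, sum_add_distrib, Pi.single_apply, mul_ite, mul_zero,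
        sum_ite_eq', mem_univ, if_true, hrc, mul_sum, mul_left_comm (W : ℤ)]
      ring
  have hred : ∀ j s (a u : ℤ), (q s * (W * R : ℕ) : ℤ) ∣ a - (∑ i, n s i * v j i + u) →
      ∃ e, a = r j.1.1.1 s + u + W * (t j s + R * (n s i₀ * z j + q s * e)) :=
    fun j s a u ⟨e, he⟩ => ⟨e, by rw [hnv] at he; push_cast at he; linear_combination he⟩
  refine ⟨W * R, q, V × Fin (lam * κ₁), inferInstance, v, lam * κ₁ * X₁, by positivity,
    hW2.mul_right _, by positivity, hq0, fun s => hq4 s 2 two_ne_zero (by simp; omega), hq3,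
    fun s s' h => hq4 s _ (hβ1 s s' h) ?_, fun s => ?_, fun j s => ?_,
    fun j s j' s' a u u' u0 u1 u0' u1' g1 g2 => ?_,
    fun j s j' s' a u u' u0 u1 u0' u1' g1 g2 => ?_, fun s => ?_, fun s => ?_, ?_⟩
  · have a1 := single_le_sum (f := fun s' => (∑ i, β s i * n s' i).natAbs)
      (fun _ _ => Nat.zero_le _) (mem_univ s')
    have a2 := single_le_sum (f := fun s => ∑ s', (∑ i, β s i * n s' i).natAbs)
      (fun _ _ => Nat.zero_le _) (mem_univ s)
    omega
  · push_cast; exact (hWl s).mul_right _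
  · rw [hnv]; exact dvd_add (hr1 _ _) ((hWl s).mul_right _)
  · obtain ⟨e, he⟩ := hred _ _ _ _ g1
    obtain ⟨e', he'⟩ := hred _ _ _ _ g2
    have a1 : r j.1.1.1 s + u - (r j'.1.1.1 s' + u') = 0 := by
      refine Int.eq_zero_of_abs_lt_dvd (m := W) ⟨(t j' s' + R * (n s' i₀ * z j' + q s' * e'))
        - (t j s + R * (n s i₀ * z j + q s * e)), by linear_combination he' - he⟩ ?_
      have := hr0 j.1.1.1 s
      have := hr0 j'.1.1.1 s'
      have := hr2 j.1.1.1 s
      have := hr2 j'.1.1.1 s'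
      rw [abs_lt]; omega
    have a2 : t j s + R * (n s i₀ * z j + q s * e) = t j' s' + R * (n s' i₀ * z j' + q s' * e') :=
      mul_left_cancel₀ hW0'.ne' (by linear_combination he' - he - a1)
    have a3 : y j.1 s = y j'.1 s' := by
      have := congrArg (Int.cast : ℤ → ZMod R) a2
      simpa [hty] using this
    obtain rfl : s = s' := h1 _ _ _ (h3 _ j.1.2 s) (a3 ▸ h3 _ j'.1.2 s')
    have a4 : u - u' = 0 := by
      refine Int.eq_zero_of_abs_lt_dvd (m := n s i₀) ?_ (by rw [abs_lt]; omega)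
      rw [show u - u' = r j'.1.1.1 s - r j.1.1.1 s by omega]
      exact dvd_sub (hr1 _ _) (hr1 _ _)
    refine ⟨hb2 s j j' (Prod.ext a3 (by simp only; omega)) ?_, rfl, by omega⟩
    have a5 : t j s % R = t j' s % R :=
      (ZMod.intCast_eq_intCast_iff' _ _ _).mp (by rw [hty, hty, a3])
    have a6 : t j s / R + (n s i₀ * z j + q s * e) = t j' s / R + (n s i₀ * z j' + q s * e') :=
      mul_left_cancel₀ hR0'.ne' (by
        linear_combination a2 - a5 + Int.emod_add_mul_ediv (t j s) R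
          - Int.emod_add_mul_ediv (t j' s) R)
    obtain ⟨m, hm⟩ := hz j s
    obtain ⟨m', hm'⟩ := hz j' s
    have a7 : (b s j : ℤ) - b s j' = 0 := by
      refine Int.eq_zero_of_abs_lt_dvd (m := q s) ⟨e' + m' - e - m, by
        linear_combination a6 + hm' - hm⟩ ?_
      have := hb1 s j
      have := hb1 s j'
      rw [abs_lt]; omega
    omega
  · obtain ⟨e, he⟩ := hred _ _ _ _ g1
    obtain ⟨e', he'⟩ := hred _ _ _ _ g2
    have a1 : r j.1.1.1 s + u + (r j'.1.1.1 s' + u') + 1 - W = 0 := by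
      refine Int.eq_zero_of_abs_lt_dvd (m := W) ⟨-(t j' s' + R * (n s' i₀ * z j' + q s' * e'))
        - (t j s + R * (n s i₀ * z j + q s * e)) - 1, by linear_combination -he' - he⟩ ?_
      have := hr0 j.1.1.1 s
      have := hr0 j'.1.1.1 s'
      have := hr2 j.1.1.1 s
      have := hr2 j'.1.1.1 s'
      rw [abs_lt]; omega
    have a2 : t j' s' + R * (n s' i₀ * z j' + q s' * e')
        = -1 - (t j s + R * (n s i₀ * z j + q s * e)) :=
      mul_left_cancel₀ hW0'.ne' (by linear_combination -he' - he - a1)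
    have a3 : y j'.1 s' = -1 - y j.1 s := by
      have := congrArg (Int.cast : ℤ → ZMod R) a2
      simpa [hty] using this
    exact h2 _ _ _ (h3 _ j.1.2 s) (a3 ▸ h3 _ j'.1.2 s')
  · refine le_trans ?_ (hq1 s)
    have := hπ s
    have := hl' s
    have : 0 ≤ ε * (n s i₀ * (lam * κ₁ * X₁) / π s) := by positivity
    calc _ ≤ (1 + ε) * (n s i₀ * (lam * κ₁ * X₁) / π s) := by linarith
      _ = _ := by ring
  · refine (hq2 s).trans ?_
    have a0 := hπ s
    have a1 : π s ≤ 1 := by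
      have := single_le_sum (f := π) (fun s _ => (hπ s).le) (mem_univ s)
      linarith
    have a2 : 2 * (Fintype.card S : ℝ) ≤ ε * (n s i₀ * (κ₁ * X₁) / π s) := by
      rw [div_lt_iff₀ (by positivity)] at hκ₁
      refine hκ₁.le.trans ?_
      rw [mul_left_comm]
      refine mul_le_mul_of_nonneg_left ?_ hε.le
      rw [le_div_iff₀ a0, mul_comm]
      gcongr
      exact a1.trans (hl' s)
    calc _ ≤ lam * ((1 + 2 * ε) * (n s i₀ * (κ₁ * X₁) / π s)) := by gcongr; linarith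
      _ = _ := by ring
  · rw [Fintype.card_prod, Fintype.card_coe, Fintype.card_fin]
    rw [Fintype.card_fin] at h5
    push_cast
    refine le_trans (le_of_eq ?_) (mul_le_mul_of_nonneg_right h5 (by positivity))
    rw [hX₁]
    field_simp

end Crest.Agent.R75
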