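import Crest.Agent.R75.Osc

set_option autoImplicit false

namespace Crest.Agent.R75

open Complex MeasureTheory Set Filter Topology intervalIntegral
open scoped Real

theorem mvt_ge {f f' : ℝ → ℝ} (h : ∀ x, HasDerivAt f (f' x) x) {x y m : ℝ} (hxy : x ≤ y)
    (hm : ∀ z ∈ Icc x y, m ≤ f' z) : m * (y - x) ≤ f y - f x := by
  rcases hxy.eq_or_lt with rfl | hlt
  · simp
  obtain ⟨z, hz, e⟩ := exists_hasDerivAt_eq_slope f f' hlt
    (fun z _ => (h z).continuousAt.continuousWithinAt) (fun z _ => h z)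
  have := hm z ⟨hz.1.le, hz.2.le⟩
  rwa [e, le_div_iff₀ (by linarith)] at this

theorem lip {f f' : ℝ → ℝ} (h : ∀ x, HasDerivAt f (f' x) x) {a b C : ℝ}
    (hC : ∀ z ∈ Icc a b, |f' z| ≤ C) {x y : ℝ} (hx : x ∈ Icc a b) (hy : y ∈ Icc a b) :
    |f y - f x| ≤ C * |y - x| :=
  (convex_Icc a b).norm_image_sub_le_of_norm_hasDerivWithin_le (f := f) (f' := f')
    (fun z _ => (h z).hasDerivWithinAt) hC hx hy

/-- The tapered chirp profile. -/
structure Shape (c K B : ℝ) (S0 S1 S2 S3 : ℝ → ℝ) : Prop where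
  d0 : ∀ x, HasDerivAt S0 (S1 x) x
  d1 : ∀ x, HasDerivAt S1 (S2 x) x
  d2 : ∀ x, HasDerivAt S2 (S3 x) x
  c3 : Continuous S3
  cpos : 0 < c
  lo : ∀ x, c ≤ S2 x
  b2 : ∀ x ∈ Icc (0 : ℝ) 1, |S2 x| ≤ B
  b3 : ∀ x ∈ Icc (0 : ℝ) 1, |S3 x| ≤ B
  z0 : S0 0 = 0
  z1 : S1 0 = 0
  o1 : S1 1 = 1
  k0 : K ≤ S2 0
  k1 : K ≤ S2 1

theorem exists_shape {c K : ℝ} (hc : 0 < c) (hc1 : c < 1) (hK : 0 < K) :
    ∃ (B : ℝ) (S0 S1 S2 S3 : ℝ → ℝ), Shape c K B S0 S1 S2 S3 := by
  obtain ⟨D, hD⟩ := exists_nat_ge (K / (1 - c))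
  rw [div_le_iff₀ (by linarith)] at hD
  set n : ℕ := 2 * D + 1 with hn
  have hn0 : (0 : ℝ) < n + 2 := by positivity
  set c' := 1 - K / (n + 2) with hc'
  have hcc : c ≤ c' := by
    have : K / (n + 2) ≤ 1 - c := by
      rw [div_le_iff₀ hn0, hn]; push_cast; nlinarith
    linarith
  set S1 : ℝ → ℝ := fun u => c' * u + K * ((2 * u - 1) ^ (n + 2) + 1) / (2 * (n + 2)) with hS1
  set S2 : ℝ → ℝ := fun u => c' + K * (2 * u - 1) ^ (n + 1) with hS2
  set S3 : ℝ → ℝ := fun u => K * ((n + 1) * (2 * u - 1) ^ n * 2) with hS3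
  have c1 : Continuous S1 := by rw [hS1]; fun_prop
  have c2 : Continuous S2 := by rw [hS2]; fun_prop
  have c3 : Continuous S3 := by rw [hS3]; fun_prop
  obtain ⟨B2, hB2⟩ := (isCompact_Icc (a := (0 : ℝ)) (b := 1)).exists_bound_of_continuousOn
    c2.continuousOn
  obtain ⟨B3, hB3⟩ := (isCompact_Icc (a := (0 : ℝ)) (b := 1)).exists_bound_of_continuousOn
    c3.continuousOn
  have d : ∀ u : ℝ, HasDerivAt (fun u : ℝ => 2 * u - 1) 2 u := fun u => by
    simpa using ((hasDerivAt_id u).const_mul 2).sub_const 1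
  have hev : Even (n + 1) := ⟨D + 1, by omega⟩
  have hod : Odd (n + 2) := ⟨D + 1, by omega⟩
  refine ⟨max B2 B3, fun u => ∫ x in (0 : ℝ)..u, S1 x, S1, S2, S3,
    fun x => (c1.integral_hasStrictDerivAt 0 x).hasDerivAt, fun x => ?_, fun x => ?_, c3, hc,
    fun x => ?_, fun x hx => (hB2 x hx).trans (le_max_left _ _),
    fun x hx => (hB3 x hx).trans (le_max_right _ _), by simp, ?_, ?_, ?_, ?_⟩
  · refine (((hasDerivAt_id x).const_mul c').add (((((d x).pow (n + 2)).add_const 1).const_mul K).div_const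
      (2 * (n + 2)))).congr_deriv ?_
    simp only [hS2]
    push_cast
    field_simp
  · refine ((((d x).pow (n + 1)).const_mul K).const_add c').congr_deriv ?_
    simp only [hS3]
    push_cast
    rfl
  · have := hev.pow_nonneg (2 * x - 1)
    simp only [hS2]
    nlinarith
  · simp [hS1, hod.neg_one_pow]
  · simp only [hS1, hc']
    norm_num
    field_simp
    ring
  · simp only [hS2, mul_zero, zero_sub, hev.neg_one_pow]; linarith
  · simp only [hS2]; norm_num; linarith

namespace Shape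

variable {c K B : ℝ} {S0 S1 S2 S3 : ℝ → ℝ}

theorem c2 (h : Shape c K B S0 S1 S2 S3) : Continuous S2 :=
  continuous_iff_continuousAt.mpr fun x => (h.d2 x).continuousAt

theorem c1 (h : Shape c K B S0 S1 S2 S3) : Continuous S1 :=
  continuous_iff_continuousAt.mpr fun x => (h.d1 x).continuousAt

theorem c0 (h : Shape c K B S0 S1 S2 S3) : Continuous S0 :=
  continuous_iff_continuousAt.mpr fun x => (h.d0 x).continuousAt

theorem mono (h : Shape c K B S0 S1 S2 S3) {x y : ℝ} (hxy : x ≤ y) : S1 x ≤ S1 y := by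
  have := mvt_ge h.d1 hxy (m := 0) fun z _ => h.cpos.le.trans (h.lo z)
  linarith

theorem mem (h : Shape c K B S0 S1 S2 S3) {x : ℝ} (hx : x ∈ Icc (0 : ℝ) 1) : S1 x ∈ Icc (0 : ℝ) 1 :=
  ⟨h.z1 ▸ h.mono hx.1, h.o1 ▸ h.mono hx.2⟩

theorem Bnn (h : Shape c K B S0 S1 S2 S3) : 0 ≤ B :=
  (abs_nonneg _).trans (h.b2 0 ⟨le_rfl, zero_le_one⟩)

theorem exists_u (h : Shape c K B S0 S1 S2 S3) (s : ℝ) : ∃ u ∈ Icc (0 : ℝ) 1,
    (u < 1 → s ≤ S1 u) ∧ (0 < u → S1 u ≤ s) ∧ (0 < u → u < 1 → 0 ≤ s ∧ s < 1) := by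
  rcases le_or_gt s 0 with h0 | h0
  · exact ⟨0, ⟨le_rfl, zero_le_one⟩, fun _ => by rwa [h.z1], fun h => absurd h (lt_irrefl _),
      fun h => absurd h (lt_irrefl _)⟩
  rcases le_or_gt 1 s with h1 | h1
  · exact ⟨1, ⟨zero_le_one, le_rfl⟩, fun h => absurd h (lt_irrefl _), fun _ => by rwa [h.o1],
      fun _ h => absurd h (lt_irrefl _)⟩
  obtain ⟨u, hu, e⟩ := intermediate_value_Icc zero_le_one h.c1.continuousOn
    (show s ∈ Icc (S1 0) (S1 1) by rw [h.z1, h.o1]; exact ⟨h0.le, h1.le⟩)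
  exact ⟨u, hu, fun _ => e.ge, fun _ => e.le, fun _ _ => ⟨h0.le, h1⟩⟩

theorem dg (h : Shape c K B S0 S1 S2 S3) (lam s x : ℝ) :
    HasDerivAt (fun u => lam * (S0 u - s * u)) (lam * (S1 x - s)) x := by
  simpa using ((h.d0 x).sub ((hasDerivAt_id x).const_mul s)).const_mul lam

theorem far (h : Shape c K B S0 S1 S2 S3) {lam s u m r : ℝ} (hl : 0 < lam) (hm : 0 < m) (hr : 0 < r)
    (hu : u ∈ Icc (0 : ℝ) 1) (h1 : u < 1 → s ≤ S1 u) (h0 : 0 < u → S1 u ≤ s)
    (hlo : ∀ z ∈ Icc (0 : ℝ) 1, |z - u| ≤ r → m ≤ S2 z) :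
    ‖(∫ x in (0 : ℝ)..1, ee (lam * (S0 x - s * x)))
      - ∫ x in (max 0 (u - r))..(min 1 (u + r)), ee (lam * (S0 x - s * x))‖ ≤ 2 / (lam * m * r) := by
  have ce : Continuous fun x => ee (lam * (S0 x - s * x)) := by have := h.c0; fun_prop
  have d2 : ∀ x, HasDerivAt (fun x => lam * (S1 x - s)) (lam * S2 x) x := fun x =>
    ((h.d1 x).sub_const s).const_mul lam
  have cc : Continuous fun x => lam * S2 x := h.c2.const_mul lam
  have pos : ∀ x, 0 ≤ lam * S2 x := fun x => mul_nonneg hl.le (h.cpos.le.trans (h.lo x))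
  have a1 : ‖∫ x in (0 : ℝ)..(max 0 (u - r)), ee (lam * (S0 x - s * x))‖ ≤ 1 / (lam * m * r) := by
    rcases le_or_gt (u - r) 0 with hh | hh
    · rw [max_eq_left hh, integral_same, norm_zero]; positivity
    rw [max_eq_right hh.le]
    refine fdt (h.dg lam s) d2 cc hh.le (by positivity) (fun x _ => pos x) fun x hx => ?_
    have b1 := h.mono hx.2
    have b2 := mvt_ge h.d1 (show u - r ≤ u by linarith) (m := m) fun z hz =>
      hlo z ⟨by linarith [hz.1], by linarith [hz.2, hu.2]⟩ (abs_le.mpr ⟨by linarith [hz.1], by linarith [hz.2]⟩)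
    have b3 := h0 (by linarith)
    rw [abs_mul, abs_of_pos hl, mul_assoc]
    refine mul_le_mul_of_nonneg_left (le_trans ?_ (neg_le_abs _)) hl.le
    linarith
  have a2 : ‖∫ x in (min 1 (u + r))..1, ee (lam * (S0 x - s * x))‖ ≤ 1 / (lam * m * r) := by
    rcases le_or_gt 1 (u + r) with hh | hh
    · rw [min_eq_left hh, integral_same, norm_zero]; positivity
    rw [min_eq_right hh.le]
    refine fdt (h.dg lam s) d2 cc hh.le (by positivity) (fun x _ => pos x) fun x hx => ?_
    have b1 := h.mono hx.1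
    have b2 := mvt_ge h.d1 (show u ≤ u + r by linarith) (m := m) fun z hz =>
      hlo z ⟨by linarith [hz.1, hu.1], by linarith [hz.2]⟩ (abs_le.mpr ⟨by linarith [hz.1], by linarith [hz.2]⟩)
    have b3 := h1 (by linarith)
    rw [abs_mul, abs_of_pos hl, mul_assoc]
    refine mul_le_mul_of_nonneg_left (le_trans ?_ (le_abs_self _)) hl.le
    linarith
  rw [← integral_add_adjacent_intervals (a := 0) (b := max 0 (u - r)) (c := 1)
    (ce.intervalIntegrable _ _) (ce.intervalIntegrable _ _),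
    ← integral_add_adjacent_intervals (a := max 0 (u - r)) (b := min 1 (u + r)) (c := 1)
    (ce.intervalIntegrable _ _) (ce.intervalIntegrable _ _)]
  have e : ∀ x y z : ℂ, x + (y + z) - y = x + z := fun x y z => by ring
  rw [e, div_eq_mul_one_div 2]
  linarith [norm_add_le (∫ x in (0 : ℝ)..(max 0 (u - r)), ee (lam * (S0 x - s * x)))
    (∫ x in (min 1 (u + r))..1, ee (lam * (S0 x - s * x)))]

theorem taylor (h : Shape c K B S0 S1 S2 S3) {u r x : ℝ} (hr : 0 ≤ r) (h0 : 0 ≤ u - r) (h1 : u + r ≤ 1)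
    (hx : x ∈ Icc (u - r) (u + r)) :
    |S0 x - S0 u - S1 u * (x - u) - S2 u * (x - u) ^ 2 / 2| ≤ B * r ^ 3 := by
  have hB := h.Bnn
  have hu : u ∈ Icc (u - r) (u + r) := ⟨by linarith, by linarith⟩
  have hd : ∀ z ∈ Icc (u - r) (u + r), |z - u| ≤ r := fun z hz =>
    abs_le.mpr ⟨by linarith [hz.1], by linarith [hz.2]⟩
  have di : ∀ z : ℝ, HasDerivAt (fun z : ℝ => z - u) 1 z := fun z => (hasDerivAt_id z).sub_const u
  have a2 : ∀ z ∈ Icc (u - r) (u + r), |S2 z - S2 u| ≤ B * r := fun z hz =>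
    (lip h.d2 (fun w hw => h.b3 w ⟨by linarith [hw.1], by linarith [hw.2]⟩) hu hz).trans
      (mul_le_mul_of_nonneg_left (hd z hz) hB)
  have a1 : ∀ z ∈ Icc (u - r) (u + r), |S1 z - S1 u - S2 u * (z - u)| ≤ B * r * r := fun z hz => by
    have := lip (f := fun z => S1 z - S1 u - S2 u * (z - u)) (f' := fun z => S2 z - S2 u)
      (fun z => (((h.d1 z).sub_const (S1 u)).sub ((di z).const_mul (S2 u))).congr_deriv (by simp))
      a2 hu hz
    simp only [sub_self, mul_zero, sub_zero] at this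
    exact this.trans (mul_le_mul_of_nonneg_left (hd z hz) (by positivity))
  have := lip (f := fun z => S0 z - S0 u - S1 u * (z - u) - S2 u * (z - u) ^ 2 / 2)
    (f' := fun z => S1 z - S1 u - S2 u * (z - u))
    (fun z => ((((h.d0 z).sub_const (S0 u)).sub ((di z).const_mul (S1 u))).sub
      ((((di z).pow 2).const_mul (S2 u)).div_const 2)).congr_deriv (by simp; ring)) a1 hu hx
  simp only [sub_self, mul_zero, sub_zero, ne_eq, OfNat.ofNat_ne_zero, not_false_eq_true, zero_pow,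
    zero_div] at this
  refine this.trans ((mul_le_mul_of_nonneg_left (hd x hx) (by positivity)).trans (le_of_eq ?_))
  ring

/-- Uniform stationary phase. -/
theorem sp (h : Shape c K B S0 S1 S2 S3) (hK : 0 < K) {η : ℝ} (hη : 0 < η) :
    ∃ lam0 : ℝ, 0 < lam0 ∧ ∀ lam, lam0 ≤ lam → ∀ s u : ℝ, u ∈ Icc (0 : ℝ) 1 → (u < 1 → s ≤ S1 u) →
      (0 < u → S1 u ≤ s) → ∀ w : ℝ, |w| ≤ 1 → (0 < u → u < 1 → w = 1) →
      ‖(√lam : ℝ) * (∫ x in (0 : ℝ)..1, ee (lam * (S0 x - s * x)))
        - (w / √(S2 u) : ℝ) * (Fr * ee (lam * (S0 u - s * u)))‖ ≤ 8 / √K + η := by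
  have hc := h.cpos
  have hB := h.Bnn
  have hsK : 0 < √K := Real.sqrt_pos.mpr hK
  set A := 6 / (c * η) + 1 / √K with hA
  have hA0 : 0 < A := by positivity
  set q := 28 * B * A ^ 4 / η + 4 * B * A / K + 1 with hq
  have hq0 : 0 < q := by positivity
  refine ⟨q ^ 2, by positivity, fun lam hlam s u hu h1 h0 w hw hw1 => ?_⟩
  have hl : 0 < lam := lt_of_lt_of_le (by positivity) hlam
  set p := √lam with hp
  have hp0 : 0 < p := Real.sqrt_pos.mpr hl
  have hpq : q ≤ p := Real.le_sqrt_of_sq_le hlam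
  have hpp : lam = p ^ 2 := (Real.sq_sqrt hl.le).symm
  have hS : 0 < S2 u := hc.trans_le (h.lo u)
  have hsS : 0 < √(S2 u) := Real.sqrt_pos.mpr hS
  set r := A / p with hr
  have hr0 : 0 < r := by positivity
  have ce : Continuous fun x => ee (lam * (S0 x - s * x)) := by have := h.c0; fun_prop
  by_cases hin : 0 ≤ u - r ∧ u + r ≤ 1
  · have hu0 : 0 < u := by linarith [hin.1]
    have hu1 : u < 1 := by linarith [hin.2]
    have hs : S1 u = s := le_antisymm (h0 hu0) (h1 hu1)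
    rw [hw1 hu0 hu1]
    have a1 := h.far hl hc hr0 hu h1 h0 fun z _ _ => h.lo z
    rw [max_eq_right hin.1, min_eq_right hin.2] at a1
    have a2 := fresnel_scaled (κ := lam * S2 u) (by positivity) hr0 u
    have ce2 : Continuous fun x => ee (lam * (S0 u - s * u)) * ee (lam * S2 u * (x - u) ^ 2 / 2) := by
      fun_prop
    have a3 : ‖(∫ x in (u - r)..(u + r), ee (lam * (S0 x - s * x)))
        - ee (lam * (S0 u - s * u)) * ∫ x in (u - r)..(u + r), ee (lam * S2 u * (x - u) ^ 2 / 2)‖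
        ≤ 7 * (lam * (B * r ^ 3)) * |u + r - (u - r)| := by
      rw [← intervalIntegral.integral_const_mul, ← integral_sub (ce.intervalIntegrable _ _)
        (ce2.intervalIntegrable _ _)]
      refine norm_integral_le_of_norm_le_const fun x hx => ?_
      rw [uIoc_of_le (by linarith)] at hx
      rw [← ee_add]
      refine (norm_ee_sub_le _ _).trans (mul_le_mul_of_nonneg_left ?_ (by norm_num))
      have := h.taylor hr0.le hin.1 hin.2 ⟨hx.1.le, hx.2⟩
      have e : lam * (S0 x - s * x) - (lam * (S0 u - s * u) + lam * S2 u * (x - u) ^ 2 / 2)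
          = lam * (S0 x - S0 u - S1 u * (x - u) - S2 u * (x - u) ^ 2 / 2) := by rw [hs]; ring
      rw [e, abs_mul, abs_of_pos hl]
      exact mul_le_mul_of_nonneg_left this hl.le
    rw [show u + r - (u - r) = 2 * r by ring, abs_of_pos (by positivity)] at a3
    set J0 := ∫ x in (0 : ℝ)..1, ee (lam * (S0 x - s * x))
    set J1 := ∫ x in (u - r)..(u + r), ee (lam * (S0 x - s * x))
    set J2 := ∫ x in (u - r)..(u + r), ee (lam * S2 u * (x - u) ^ 2 / 2)
    set E := ee (lam * (S0 u - s * u)) with hE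
    have e : (p : ℂ) * J0 - (1 / √(S2 u) : ℝ) * (Fr * E)
        = p * ((J0 - J1) + (J1 - E * J2) + E * (J2 - Fr / (√(lam * S2 u) : ℝ))) := by
      rw [Real.sqrt_mul hl.le, ← hp]
      have : (p : ℂ) ≠ 0 := by exact_mod_cast hp0.ne'
      have : ((√(S2 u) : ℝ) : ℂ) ≠ 0 := by exact_mod_cast hsS.ne'
      push_cast
      field_simp
      ring
    rw [e, norm_mul, Complex.norm_real, Real.norm_of_nonneg hp0.le]
    have a4 : ‖E * (J2 - Fr / (√(lam * S2 u) : ℝ))‖ ≤ 1 / (lam * c * r) := by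
      rw [norm_mul, hE, norm_ee, one_mul]
      refine a2.trans (one_div_le_one_div_of_le (by positivity) ?_)
      have := h.lo u
      gcongr
    have a5 := (norm_add₃_le).trans (add_le_add (add_le_add a1 a3) a4)
    refine (mul_le_mul_of_nonneg_left a5 hp0.le).trans ?_
    have e2 : p * (2 / (lam * c * r) + 7 * (lam * (B * r ^ 3)) * (2 * r) + 1 / (lam * c * r))
        = 3 / (c * A) + 14 * B * A ^ 4 / p := by
      rw [hr, hpp]; field_simp; ring
    rw [e2]
    have b1 : 3 / (c * A) ≤ η / 2 := by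
      rw [div_le_iff₀ (by positivity), hA]
      have : η / 2 * (c * (6 / (c * η) + 1 / √K)) = 3 + η / 2 * c / √K := by field_simp; ring
      rw [this]
      have : 0 ≤ η / 2 * c / √K := by positivity
      linarith
    have b2 : 14 * B * A ^ 4 / p ≤ η / 2 := by
      rw [div_le_iff₀ hp0]
      have : 28 * B * A ^ 4 / η ≤ p := by
        have : 0 ≤ 4 * B * A / K := by positivity
        linarith
      rw [div_le_iff₀ hη] at this
      linarith
    have : 0 ≤ 8 / √K := by positivity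
    linarith
  · have hBr : 2 * (B * r) ≤ K / 2 := by
      have : 4 * B * A / K ≤ p := by
        have : 0 ≤ 28 * B * A ^ 4 / η := by positivity
        linarith
      rw [div_le_iff₀ hK] at this
      rw [hr, ← mul_div_assoc, ← mul_div_assoc, div_le_iff₀ hp0]
      linarith
    have hlo : ∀ z ∈ Icc (0 : ℝ) 1, |z - u| ≤ r → K / 2 ≤ S2 z := by
      intro z hz hzr
      have hzr' := abs_le.mp hzr
      rcases not_and_or.mp hin with hh | hh
      · have := lip h.d2 h.b3 ⟨le_rfl, zero_le_one⟩ hz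
        have b : B * |z - 0| ≤ B * (2 * r) := mul_le_mul_of_nonneg_left (by
          rw [sub_zero, abs_of_nonneg hz.1]; linarith [not_le.mp hh]) hB
        linarith [(abs_le.mp this).1, h.k0]
      · have := lip h.d2 h.b3 ⟨zero_le_one, le_rfl⟩ hz
        have b : B * |z - 1| ≤ B * (2 * r) := mul_le_mul_of_nonneg_left (by
          rw [abs_sub_comm, abs_of_nonneg (by linarith [hz.2])]; linarith [not_le.mp hh]) hB
        linarith [(abs_le.mp this).1, h.k1]
    set r' := 1 / √K / p with hr'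
    have hr'0 : 0 < r' := by positivity
    have hrr : r' ≤ r := by
      rw [hr', hr, hA]
      gcongr
      have : 0 ≤ 6 / (c * η) := by positivity
      linarith
    have a1 := h.far hl (half_pos hK) hr'0 hu h1 h0 fun z hz hzr => hlo z hz (hzr.trans hrr)
    have a2 : ‖∫ x in (max 0 (u - r'))..(min 1 (u + r')), ee (lam * (S0 x - s * x))‖ ≤ 2 * r' := by
      refine (norm_integral_le_of_norm_le_const (C := 1) fun x _ => (norm_ee _).le).trans ?_
      have b1 := le_max_right 0 (u - r')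
      have b2 := min_le_right 1 (u + r')
      have b3 : max 0 (u - r') ≤ u := max_le hu.1 (by linarith)
      have b4 : u ≤ min 1 (u + r') := le_min hu.2 (by linarith)
      rw [one_mul, abs_of_nonneg (by linarith)]
      linarith
    have a3 := (norm_le_norm_sub_add _ _).trans (add_le_add a1 a2)
    refine (norm_sub_le _ _).trans ?_
    rw [norm_mul, norm_mul, norm_mul, norm_Fr, norm_ee, Complex.norm_real, Complex.norm_real,
      Real.norm_of_nonneg hp0.le, mul_one, mul_one, Real.norm_eq_abs, abs_div, abs_of_pos hsS]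
    have a4 := mul_le_mul_of_nonneg_left a3 hp0.le
    have e2 : p * (2 / (lam * (K / 2) * r') + 2 * r') = 6 / √K := by
      rw [hr', hpp]
      have : K = √K ^ 2 := (Real.sq_sqrt hK.le).symm
      generalize √K = k at *
      rw [this]
      field_simp
      ring
    have a5 : |w| / √(S2 u) ≤ 2 / √K := by
      rw [div_le_div_iff₀ hsS hsK]
      have b1 : √K ≤ 2 * √(S2 u) := by
        rw [Real.sqrt_le_left (by positivity), mul_pow, Real.sq_sqrt hS.le]
        linarith [hlo u hu (by simpa using hr0.le)]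
      nlinarith
    have e3 : 8 / √K = 6 / √K + 2 / √K := by ring
    linarith

end Shape

end Crest.Agent.R75
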