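import Crest.Agent.R75.SP
import Crest.Agent.R75.Inv

set_option autoImplicit false

namespace Crest.Agent.R75

open Complex MeasureTheory Set Filter Topology intervalIntegral
open scoped Real ComplexConjugate

/-- Phase of a chirp piece. -/
noncomputable def ph (S0 : ℝ → ℝ) (x L p Λ ϑ θ : ℝ) : ℝ :=
  ϑ + p * (θ - x) + L * Λ * S0 ((θ - x) / L)

/-- Fourier coefficient of a chirp piece. -/
noncomputable def JJ (S0 : ℝ → ℝ) (x L p Λ ϑ k : ℝ) : ℂ :=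
  ∫ θ in x..(x + L), ee (ph S0 x L p Λ ϑ θ - k * θ)

theorem JJ_eq (S0 : ℝ → ℝ) (x p ϑ k : ℝ) {L Λ : ℝ} (hL : 0 < L) (hΛ : 0 < Λ) :
    JJ S0 x L p Λ ϑ k = L * ee (ϑ - k * x) *
      ∫ u in (0 : ℝ)..1, ee (L * Λ * (S0 u - (k - p) / Λ * u)) := by
  have := intervalIntegral.smul_integral_comp_mul_add
    (fun θ => ee (ph S0 x L p Λ ϑ θ - k * θ)) (a := 0) (b := 1) L x
  rw [mul_zero, zero_add, mul_one, add_comm L x] at this
  rw [JJ, ← this, Complex.real_smul, mul_assoc, ← intervalIntegral.integral_const_mul (ee _)]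
  congr 1
  refine intervalIntegral.integral_congr fun u _ => ?_
  simp only [ph]
  rw [← ee_add, add_sub_cancel_right, mul_div_cancel_left₀ _ hL.ne']
  congr 1
  field_simp
  ring

theorem bdry_diff (y : ℝ) {a a' m D : ℝ} (hD : 0 < D) (ha : D ≤ |a|) (ha' : D ≤ |a'|)
    (hm : |a - a'| ≤ m) : ‖ee y / (2 * π * I * a) - ee y / (2 * π * I * a')‖ ≤ m / D ^ 2 := by
  have h0 : a ≠ 0 := fun h => by rw [h, abs_zero] at ha; linarith
  have h0' : a' ≠ 0 := fun h => by rw [h, abs_zero] at ha'; linarith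
  have hpi : (π : ℂ) ≠ 0 := by exact_mod_cast Real.pi_ne_zero
  have e : ee y / (2 * π * I * a) - ee y / (2 * π * I * a')
      = ee y / (2 * π * I) * (((a' - a) / (a * a') : ℝ) : ℂ) := by
    have : (a : ℂ) ≠ 0 := by exact_mod_cast h0
    have : (a' : ℂ) ≠ 0 := by exact_mod_cast h0'
    push_cast; field_simp
  rw [e, norm_mul, norm_div, norm_ee, norm_two_pi_I, Complex.norm_real, Real.norm_eq_abs, abs_div,
    abs_mul, abs_sub_comm]
  have b1 : 1 / (2 * π) ≤ 1 := by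
    rw [div_le_one Real.two_pi_pos]; linarith [Real.pi_gt_three]
  have b2 : |a - a'| / (|a| * |a'|) ≤ m / D ^ 2 :=
    div_le_div₀ ((abs_nonneg _).trans hm) hm (by positivity)
      (by rw [sq]; exact mul_le_mul ha ha' hD.le (abs_nonneg _))
  exact (mul_le_of_le_one_left (by positivity) b1).trans b2

variable {c K B : ℝ} {S0 S1 S2 S3 : ℝ → ℝ}

theorem Shape.JJ_tail (h : Shape c K B S0 S1 S2 S3) {x L p Λ ϑ k p' q' m D ρ : ℝ} (hL : 0 < L)
    (hΛ : 0 ≤ Λ) (hD : 0 < D) (hρ : Λ ≤ ρ * D) (hp : |p' - p| ≤ m) (hq : |q' - (p + Λ)| ≤ m)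
    (hk : ∀ z, p - m ≤ z → z ≤ p + Λ + m → D ≤ |z - k|) :
    ‖JJ S0 x L p Λ ϑ k - (ee (ph S0 x L p Λ ϑ (x + L) - k * (x + L)) / (2 * π * I * (q' - k : ℝ))
      - ee (ϑ - k * x) / (2 * π * I * (p' - k : ℝ)))‖
      ≤ ((3 * ρ * B + 3 * ρ ^ 2 * B ^ 2) / L + 2 * m) / D ^ 2 := by
  have hB := h.Bnn
  have hm : 0 ≤ m := (abs_nonneg _).trans hp
  have hρ0 : 0 ≤ ρ := by
    by_contra hc
    nlinarith [not_le.mp hc]
  have du : ∀ θ, HasDerivAt (fun θ => (θ - x) / L) (1 / L) θ := fun θ =>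
    ((hasDerivAt_id θ).sub_const x).div_const L
  have mem : ∀ θ ∈ Icc x (x + L), (θ - x) / L ∈ Icc (0 : ℝ) 1 := fun θ hθ =>
    ⟨div_nonneg (by linarith [hθ.1]) hL.le, (div_le_one hL).mpr (by linarith [hθ.2])⟩
  have key := ibp2 (g := fun θ => ph S0 x L p Λ ϑ θ - k * θ)
    (g1 := fun θ => p + Λ * S1 ((θ - x) / L) - k) (g2 := fun θ => Λ * (S2 ((θ - x) / L) * (1 / L)))
    (g3 := fun θ => Λ * (S3 ((θ - x) / L) * (1 / L) * (1 / L))) (a := x) (b := x + L) (D := D)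
    (A := Λ * (B * (1 / L))) (B := Λ * (B * (1 / L) * (1 / L)))
    (fun θ => (((((hasDerivAt_id θ).sub_const x).const_mul p).const_add ϑ).add
      (((h.d0 _).comp θ (du θ)).const_mul (L * Λ))).sub ((hasDerivAt_id θ).const_mul k)
      |>.congr_deriv (by field_simp))
    (fun θ => ((((h.d1 _).comp θ (du θ)).const_mul Λ).const_add p).sub_const k)
    (fun θ => ((((h.d2 _).comp θ (du θ)).mul_const (1 / L)).const_mul Λ))
    (by have := h.c3; fun_prop) (by linarith) hD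
    (fun θ hθ => by
      have := h.mem (mem θ hθ)
      exact hk _ (by nlinarith [this.1]) (by nlinarith [this.2]))
    (fun θ hθ => by
      rw [abs_mul, abs_mul, abs_of_nonneg hΛ, abs_of_pos (by positivity : 0 < 1 / L)]
      have := h.b2 _ (mem θ hθ)
      gcongr)
    (fun θ hθ => by
      rw [abs_mul, abs_mul, abs_mul, abs_of_nonneg hΛ, abs_of_pos (by positivity : 0 < 1 / L)]
      have := h.b3 _ (mem θ hθ)
      gcongr)
  simp only [add_sub_cancel_left, sub_self, zero_div, div_self hL.ne', h.z1, h.o1, mul_zero,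
    mul_one, add_zero] at key
  have e0 : ph S0 x L p Λ ϑ x = ϑ := by simp [ph, h.z0]
  rw [e0] at key
  have hp' := abs_le.mp hp
  have hq' := abs_le.mp hq
  have b1 := bdry_diff (ph S0 x L p Λ ϑ (x + L) - k * (x + L)) (a := p + Λ - k) (a' := q' - k)
    (m := m) hD (hk _ (by linarith) (by linarith)) (hk _ (by linarith) (by linarith))
    (by rw [abs_sub_comm]; convert hq using 2; ring)
  have b2 := bdry_diff (ϑ - k * x) (a := p' - k) (a' := p - k) (m := m) hD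
    (hk _ (by linarith) (by linarith)) (hk _ (by linarith) (by linarith))
    (by convert hp using 2; ring)
  have b3 : 2 * (Λ * (B * (1 / L)) / D ^ 3) + (Λ * (B * (1 / L) * (1 / L)) / D ^ 3
      + 3 * (Λ * (B * (1 / L))) ^ 2 / D ^ 4) * L ≤ (3 * ρ * B + 3 * ρ ^ 2 * B ^ 2) / L / D ^ 2 := by
    have e : (3 * ρ * B + 3 * ρ ^ 2 * B ^ 2) / L / D ^ 2
        = 2 * (ρ * D * (B * (1 / L)) / D ^ 3) + (ρ * D * (B * (1 / L) * (1 / L)) / D ^ 3
          + 3 * (ρ * D * (B * (1 / L))) ^ 2 / D ^ 4) * L := by field_simp; ring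
    rw [e]
    gcongr
  have e : ∀ J a a' b b' : ℂ, J - (a' - b') = (J - (a - b)) + (a - a') + (b' - b) := by
    intros; ring
  rw [e _ _ _ _ _]
  refine norm_add₃_le.trans ?_
  rw [add_div, mul_div_assoc 2]
  unfold JJ
  linarith

/-- Stationary phase for a piece. -/
theorem Shape.JJ_sp (h : Shape c K B S0 S1 S2 S3) (hK : 0 < K) {η : ℝ} (hη : 0 < η) :
    ∃ lam0 : ℝ, 0 < lam0 ∧ ∀ N x L p T ϑ k : ℝ, 0 < N → 0 < L → 0 < T → lam0 ≤ L * (N * T) →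
      ∀ u ∈ Icc (0 : ℝ) 1, (u < 1 → (k - p) / (N * T) ≤ S1 u) → (0 < u → S1 u ≤ (k - p) / (N * T)) →
      ∀ w : ℝ, |w| ≤ 1 → (0 < u → u < 1 → w = 1) →
      ‖(√N : ℝ) * JJ S0 x L p (N * T) ϑ k - (√(L / T) * (w / √(S2 u)) : ℝ) *
        (Fr * ee (ϑ - k * x + L * (N * T) * (S0 u - (k - p) / (N * T) * u)))‖
        ≤ √(L / T) * (8 / √K + η) := by
  obtain ⟨lam0, h0, hsp⟩ := h.sp hK hη
  refine ⟨lam0, h0, fun N x L p T ϑ k hN hL hT hl u hu h1 h2 w hw hw1 => ?_⟩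
  have a := hsp _ hl _ u hu h1 h2 w hw hw1
  have e1 : √N * L = √(L / T) * √(L * (N * T)) := by
    rw [← Real.sqrt_mul (by positivity), show L / T * (L * (N * T)) = N * L ^ 2 by field_simp,
      Real.sqrt_mul hN.le, Real.sqrt_sq hL.le]
  rw [JJ_eq S0 x p ϑ k hL (by positivity), ee_add]
  have e2 : ∀ J E E' : ℂ, (√N : ℝ) * (L * E * J) - (√(L / T) * (w / √(S2 u)) : ℝ) * (Fr * (E * E'))
      = (√(L / T) : ℝ) * (E * ((√(L * (N * T)) : ℝ) * J - (w / √(S2 u) : ℝ) * (Fr * E'))) := by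
    intro J E E'
    have : ((√N : ℝ) : ℂ) * L = (√(L / T) : ℝ) * (√(L * (N * T)) : ℝ) := by exact_mod_cast e1
    rw [Complex.ofReal_mul]
    linear_combination (E * J) * this
  rw [e2, norm_mul, norm_mul, norm_ee, one_mul, Complex.norm_real,
    Real.norm_of_nonneg (Real.sqrt_nonneg _)]
  exact mul_le_mul_of_nonneg_left a (Real.sqrt_nonneg _)

theorem Shape.JJ_bound (h : Shape c K B S0 S1 S2 S3) (hK : 0 < K) {η : ℝ} (hη : 0 < η) :
    ∃ lam0 : ℝ, 0 < lam0 ∧ ∀ N x L p T ϑ k : ℝ, 0 < N → 0 < L → 0 < T → lam0 ≤ L * (N * T) →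
      ‖(√N : ℝ) * JJ S0 x L p (N * T) ϑ k‖ ≤ √(L / T) * (1 / √c + (8 / √K + η)) := by
  obtain ⟨lam0, h0, hsp⟩ := h.JJ_sp hK hη
  refine ⟨lam0, h0, fun N x L p T ϑ k hN hL hT hl => ?_⟩
  obtain ⟨u, hu, h1, h2, -⟩ := h.exists_u ((k - p) / (N * T))
  have a := hsp N x L p T ϑ k hN hL hT hl u hu h1 h2 1 (by simp) (fun _ _ => rfl)
  refine (norm_le_norm_sub_add _ _).trans ((add_le_add a le_rfl).trans ?_)
  rw [norm_mul, norm_mul, norm_Fr, norm_ee, Complex.norm_real, Real.norm_of_nonneg (by positivity)]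
  have : 1 / √(S2 u) ≤ 1 / √c :=
    one_div_le_one_div_of_le (Real.sqrt_pos.mpr h.cpos) (Real.sqrt_le_sqrt (h.lo u))
  have := mul_le_mul_of_nonneg_left this (Real.sqrt_nonneg (L / T))
  linarith

/-- The function on one slot: transit, main chirp, transit. -/
noncomputable def slotFn (S0 : ℝ → ℝ) (x ℓ L p1 Λ1 p2 Λ2 ϑ p3 Λ3 θ : ℝ) : ℂ :=
  if θ ≤ x + L then ee (ph S0 x L p1 Λ1 0 θ)
  else if θ ≤ x + ℓ - L then ee (ph S0 (x + L) (ℓ - 2 * L) p2 Λ2 ϑ θ)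
  else ee (-ph S0 (-(x + ℓ)) L p3 Λ3 0 (-θ))

theorem norm_slotFn (S0 : ℝ → ℝ) (x ℓ L p1 Λ1 p2 Λ2 ϑ p3 Λ3 θ : ℝ) :
    ‖slotFn S0 x ℓ L p1 Λ1 p2 Λ2 ϑ p3 Λ3 θ‖ = 1 := by
  unfold slotFn; split_ifs <;> exact norm_ee _

theorem measurable_slotFn (hS : Continuous S0) (x ℓ L p1 Λ1 p2 Λ2 ϑ p3 Λ3 : ℝ) :
    Measurable (slotFn S0 x ℓ L p1 Λ1 p2 Λ2 ϑ p3 Λ3) := by
  unfold slotFn ph
  refine Measurable.ite measurableSet_Iic (Continuous.measurable (by fun_prop))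
    (Measurable.ite measurableSet_Iic (Continuous.measurable (by fun_prop))
      (Continuous.measurable (by fun_prop)))

theorem integral_slotFn (hS : Continuous S0) {x ℓ L : ℝ} (hL : 0 ≤ L) (hℓ : 2 * L ≤ ℓ)
    (p1 Λ1 p2 Λ2 ϑ p3 Λ3 k : ℝ) :
    ∫ θ in x..(x + ℓ), slotFn S0 x ℓ L p1 Λ1 p2 Λ2 ϑ p3 Λ3 θ * ee (-(k * θ))
      = JJ S0 x L p1 Λ1 0 k + JJ S0 (x + L) (ℓ - 2 * L) p2 Λ2 ϑ k
        + conj (JJ S0 (-(x + ℓ)) L p3 Λ3 0 k) := by
  have ii : ∀ a b, IntervalIntegrable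
      (fun θ => slotFn S0 x ℓ L p1 Λ1 p2 Λ2 ϑ p3 Λ3 θ * ee (-(k * θ))) volume a b := fun a b =>
    ii_of_bound (C := 1) ((measurable_slotFn hS _ _ _ _ _ _ _ _ _ _).mul (by fun_prop))
      fun θ _ => by rw [Pi.mul_apply, norm_mul, norm_slotFn, norm_ee, mul_one]
  rw [← integral_add_adjacent_intervals (b := x + ℓ - L) (ii _ _) (ii _ _),
    ← integral_add_adjacent_intervals (a := x) (b := x + L) (ii _ _) (ii _ _)]
  congr 1
  · congr 1
    · refine integral_congr_ae (ae_of_all _ fun θ hθ => ?_)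
      rw [uIoc_of_le (by linarith)] at hθ
      rw [slotFn, if_pos hθ.2, ← ee_add, sub_eq_add_neg]
    · rw [JJ, show x + L + (ℓ - 2 * L) = x + ℓ - L by ring]
      refine integral_congr_ae (ae_of_all _ fun θ hθ => ?_)
      rw [uIoc_of_le (by linarith)] at hθ
      rw [slotFn, if_neg (not_le.mpr hθ.1), if_pos hθ.2, ← ee_add, ← sub_eq_add_neg]
  · rw [JJ, ← intervalIntegral_conj, show -(x + ℓ) + L = -(x + ℓ - L) by ring,
      ← intervalIntegral.integral_comp_neg]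
    refine integral_congr_ae (ae_of_all _ fun θ hθ => ?_)
    rw [uIoc_of_le (by linarith)] at hθ
    rw [slotFn, if_neg (not_le.mpr (by linarith [hθ.1])), if_neg (not_le.mpr hθ.1), ← ee_add,
      ← ee_neg]
    congr 1
    ring

theorem ee_fract (y : ℝ) : ee (Int.fract y) = ee y := by
  rw [← ee_add_int _ ⌊y⌋, Int.fract_add_floor]

/-- Tail estimate for one slot. -/
theorem Shape.slot_tail (h : Shape c K B S0 S1 S2 S3) {x ℓ L N τ t T ϑ k D ρ : ℝ} (hL : 0 < L)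
    (hℓ : 3 * L ≤ ℓ) (hN : 0 ≤ N) (hτ0 : 0 ≤ τ) (hτ : τ ≤ t) (hT : 0 ≤ T) (hT1 : t + T ≤ 1)
    (hD : 0 < D) (hρ : N ≤ ρ * D)
    (hk : ∀ z, N * τ - 1 / L ≤ z → z ≤ N * (t + T) + 2 / L → D ≤ |z - k|) :
    ∃ μ1 μ3 : ℝ, μ1 = Int.fract (ϑ - ph S0 x L (N * τ) (N * (t - τ)) 0 (x + L)) ∧
      μ3 = Int.fract (-ph S0 (x + L) (ℓ - 2 * L) (N * t) (N * T) ϑ (x + L + (ℓ - 2 * L))
        - ph S0 (-(x + ℓ)) L (N * τ) (N * (t + T - τ)) 0 (-(x + ℓ) + L)) ∧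
      ‖JJ S0 x L (N * τ + μ1 / L) (N * (t - τ)) 0 k + JJ S0 (x + L) (ℓ - 2 * L) (N * t) (N * T) ϑ k
        + conj (JJ S0 (-(x + ℓ)) L (N * τ + μ3 / L) (N * (t + T - τ)) 0 k)
        - (ee (-(k * (x + ℓ))) / (2 * π * I * (N * τ - k : ℝ))
          - ee (-(k * x)) / (2 * π * I * (N * τ - k : ℝ)))‖
        ≤ 3 * (((3 * ρ * B + 3 * ρ ^ 2 * B ^ 2) / L + 2 * (1 / L)) / D ^ 2) := by
  refine ⟨_, _, rfl, rfl, ?_⟩
  set μ1 := Int.fract (ϑ - ph S0 x L (N * τ) (N * (t - τ)) 0 (x + L)) with hμ1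
  set μ3 := Int.fract (-ph S0 (x + L) (ℓ - 2 * L) (N * t) (N * T) ϑ (x + L + (ℓ - 2 * L))
        - ph S0 (-(x + ℓ)) L (N * τ) (N * (t + T - τ)) 0 (-(x + ℓ) + L)) with hμ3
  have hB := h.Bnn
  have m1 : 0 ≤ μ1 / L := div_nonneg (Int.fract_nonneg _) hL.le
  have m1' : μ1 / L ≤ 1 / L := div_le_div_of_nonneg_right (Int.fract_lt_one _).le hL.le
  have m3 : 0 ≤ μ3 / L := div_nonneg (Int.fract_nonneg _) hL.le
  have m3' : μ3 / L ≤ 1 / L := div_le_div_of_nonneg_right (Int.fract_lt_one _).le hL.le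
  have e2 : 2 / L = 1 / L + 1 / L := by ring
  have n1 : N * τ ≤ N * t := mul_le_mul_of_nonneg_left hτ hN
  have n2 : 0 ≤ N * T := mul_nonneg hN hT
  have n3 : 0 ≤ N * τ := mul_nonneg hN hτ0
  have n4 : N * (t + T) ≤ N := mul_le_of_le_one_right hN hT1
  have hρ0 : 0 ≤ ρ := by
    by_contra hc
    nlinarith [not_le.mp hc]
  have a1 := h.JJ_tail (x := x) (L := L) (p := N * τ + μ1 / L) (Λ := N * (t - τ)) (ϑ := 0) (k := k)
    (p' := N * τ) (q' := N * t) (m := 1 / L) (ρ := ρ) hL (by linarith) hD (by linarith)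
    (abs_le.mpr ⟨by linarith, by linarith⟩) (abs_le.mpr ⟨by linarith, by linarith⟩)
    fun z h1 h2 => hk z (by linarith) (by linarith)
  have a2 := h.JJ_tail (x := x + L) (L := ℓ - 2 * L) (p := N * t) (Λ := N * T) (ϑ := ϑ) (k := k)
    (p' := N * t) (q' := N * (t + T)) (m := 1 / L) (ρ := ρ) (by linarith) n2 hD (by linarith)
    (abs_le.mpr ⟨by linarith, by linarith⟩) (abs_le.mpr ⟨by linarith, by linarith⟩)
    fun z h1 h2 => hk z (by linarith) (by linarith)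
  have a3 := h.JJ_tail (x := -(x + ℓ)) (L := L) (p := N * τ + μ3 / L) (Λ := N * (t + T - τ))
    (ϑ := 0) (k := k) (p' := N * τ) (q' := N * (t + T)) (m := 1 / L) (ρ := ρ) hL (by linarith) hD
    (by linarith) (abs_le.mpr ⟨by linarith, by linarith⟩) (abs_le.mpr ⟨by linarith, by linarith⟩)
    fun z h1 h2 => hk z (by linarith) (by linarith)
  have a2' : ((3 * ρ * B + 3 * ρ ^ 2 * B ^ 2) / (ℓ - 2 * L) + 2 * (1 / L)) / D ^ 2
      ≤ ((3 * ρ * B + 3 * ρ ^ 2 * B ^ 2) / L + 2 * (1 / L)) / D ^ 2 := by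
    gcongr; linarith
  have phs : ∀ x p Λ μ : ℝ, ph S0 x L (p + μ / L) Λ 0 (x + L) = ph S0 x L p Λ 0 (x + L) + μ := by
    intro x p Λ μ
    simp only [ph, add_sub_cancel_left]
    field_simp
    ring
  have j1 : ee (ph S0 x L (N * τ + μ1 / L) (N * (t - τ)) 0 (x + L) - k * (x + L))
      = ee (ϑ - k * (x + L)) := by
    rw [phs, sub_eq_add_neg, ee_add, ee_add, hμ1, ee_fract, ← ee_add, ← ee_add]
    congr 1; ring
  have j3 : conj (ee (ph S0 (-(x + ℓ)) L (N * τ + μ3 / L) (N * (t + T - τ)) 0 (-(x + ℓ) + L)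
      - k * (-(x + ℓ) + L))) = ee (ph S0 (x + L) (ℓ - 2 * L) (N * t) (N * T) ϑ (x + L + (ℓ - 2 * L))
        - k * (x + L + (ℓ - 2 * L))) := by
    rw [phs, sub_eq_add_neg, ee_add, ee_add, hμ3, ee_fract, ← ee_add, ← ee_add, ← ee_neg]
    congr 1; ring
  have cj : ∀ (z : ℂ) (r : ℝ), conj (z / (2 * π * I * r)) = -(conj z / (2 * π * I * r)) := by
    intro z r
    simp [map_ofNat, div_neg, Complex.conj_ofReal]
  rw [← Complex.norm_conj, map_sub, map_sub, cj, cj, j3, ← ee_neg] at a3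
  rw [j1] at a1
  rw [show -(0 - k * -(x + ℓ)) = -(k * (x + ℓ)) by ring] at a3
  rw [show 0 - k * x = -(k * x) by ring] at a1
  have e : ∀ J1 J2 J3 a b c d : ℂ, J1 + J2 + J3 - (d - a)
      = (J1 - (b - a)) + (J2 - (c - b)) + (J3 - (-c - -d)) := by intros; ring
  rw [e]
  refine norm_add₃_le.trans ?_
  linarith

end Crest.Agent.R75
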