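import Mathlib

set_option autoImplicit false

namespace Crest.Agent.R75

open Finset

open Classical in
/-- Indicator of a proposition. -/
noncomputable def ind (P : Prop) : ℝ := if P then 1 else 0

theorem ind_eq (P : Prop) [Decidable P] : ind P = if P then 1 else 0 := by
  unfold ind; congr

theorem ind_pos {P : Prop} (h : P) : ind P = 1 := if_pos h

theorem ind_neg {P : Prop} (h : ¬ P) : ind P = 0 := if_neg h

theorem ind_nonneg (P : Prop) : 0 ≤ ind P := by unfold ind; positivity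

theorem sum_ind {α : Type} (s : Finset α) (P : α → Prop) [DecidablePred P] :
    ∑ x ∈ s, ind (P x) = #(s.filter P) := by
  simp only [ind_eq]; exact sum_boole _ _

section Prob

variable {Y Λ : Type} [Fintype Y] [DecidableEq Y] [Fintype Λ] [DecidableEq Λ]

theorem prob_cyl {μ : Λ → ℝ} (h1 : ∑ l, μ l = 1) {I : Type} (T : Finset I) (p : I → Y)
    (hp : Set.InjOn p T) (lab : I → Λ) :
    ∑ ω : Y → Λ, (∏ y, μ (ω y)) * ind (∀ i ∈ T, ω (p i) = lab i)
      = ∏ i ∈ T, μ (lab i) := by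
  classical
  have e : ∀ ω : Y → Λ, (∏ y, μ (ω y)) * ind (∀ i ∈ T, ω (p i) = lab i)
      = ∏ y, (μ (ω y) * ∏ i ∈ T with p i = y, if ω y = lab i then 1 else 0) := fun ω => by
    rw [ind_eq, prod_mul_distrib, ← prod_boole, ← prod_fiberwise (g := p)]
    congr 1
    exact prod_congr rfl fun y _ => prod_congr rfl fun i hi => by rw [(mem_filter.mp hi).2]
  simp only [e]
  rw [← Fintype.prod_sum (fun y l => μ l * ∏ i ∈ T with p i = y, if l = lab i then (1 : ℝ) else 0),
    ← prod_fiberwise (g := p)]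
  refine prod_congr rfl fun y _ => ?_
  rcases ({i ∈ T | p i = y} : Finset I).eq_empty_or_nonempty with h | ⟨i, hi⟩
  · simp [h, h1]
  · have : ({i ∈ T | p i = y} : Finset I) = {i} := by
      refine eq_singleton_iff_unique_mem.mpr ⟨hi, fun j hj => ?_⟩
      rw [mem_filter] at hi hj
      exact hp hj.1 hi.1 (hj.2.trans hi.2.symm)
    simp [this]

theorem second_moment {μ : Λ → ℝ} (h0 : ∀ l, 0 ≤ μ l) (h1 : ∑ l, μ l = 1) {α S : Type}
    (H : Finset α) (T : Finset S) (p : α → S → Y) (lab : α → S → Λ)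
    (hp : ∀ η ∈ H, Set.InjOn (p η) T) {P b : ℝ} (hP : ∀ η ∈ H, ∏ s ∈ T, μ (lab η s) = P)
    (hb : ∀ η ∈ H, ∑ η' ∈ H, ind (∃ s ∈ T, ∃ s' ∈ T, p η s = p η' s') ≤ b) :
    ∑ ω : Y → Λ, (∏ y, μ (ω y)) *
      (∑ η ∈ H, ind (∀ s ∈ T, ω (p η s) = lab η s) - #H * P) ^ 2 ≤ #H * b := by
  classical
  set Z : α → (Y → Λ) → ℝ := fun η ω => ind (∀ s ∈ T, ω (p η s) = lab η s) with hZ
  set w : (Y → Λ) → ℝ := fun ω => ∏ y, μ (ω y) with hw
  have hw0 : ∀ ω, 0 ≤ w ω := fun ω => prod_nonneg fun _ _ => h0 _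
  have hw1 : ∑ ω, w ω = 1 := by
    simpa [ind_eq] using prob_cyl (Y := Y) h1 (∅ : Finset Empty) Empty.elim (by simp) Empty.elim
  have e1 : ∑ ω, w ω * ∑ η ∈ H, Z η ω = #H * P := by
    simp only [mul_sum]
    rw [sum_comm, ← nsmul_eq_mul, ← sum_const]
    exact sum_congr rfl fun η hη => (prob_cyl h1 T _ (hp η hη) _).trans (hP η hη)
  have e2 : ∑ ω, w ω * (∑ η ∈ H, Z η ω) ^ 2 ≤ (#H * P) ^ 2 + #H * b := by
    have : ∀ η ∈ H, ∀ η' ∈ H, ∑ ω, w ω * (Z η ω * Z η' ω) ≤ P ^ 2 +
        ind (∃ s ∈ T, ∃ s' ∈ T, p η s = p η' s') := fun η hη η' hη' => by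
      rw [ind_eq]
      split_ifs with h
      · refine le_trans (sum_le_sum fun ω _ => mul_le_of_le_one_right (hw0 ω) ?_)
          (hw1.le.trans (le_add_of_nonneg_left (sq_nonneg _)))
        simp only [hZ, ind_eq]; split_ifs <;> norm_num
      · push Not at h
        have := prob_cyl h1 (T.disjSum T) (Sum.elim (p η) (p η')) (by
          rintro (s | s) hs (s' | s') hs' hh <;>
            simp only [mem_coe, inl_mem_disjSum, inr_mem_disjSum, Sum.elim_inl, Sum.elim_inr]
              at hs hs' hh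
          · rw [hp η hη hs hs' hh]
          · exact absurd hh (h s hs s' hs')
          · exact absurd hh.symm (h s' hs' s hs)
          · rw [hp η' hη' hs hs' hh]) (Sum.elim (lab η) (lab η'))
        rw [prod_disjSum] at this
        simp only [Sum.elim_inl, Sum.elim_inr, hP η hη, hP η' hη'] at this
        rw [add_zero, sq, ← this]
        refine le_of_eq (sum_congr rfl fun ω _ => ?_)
        simp only [hZ, hw, Sum.forall, inl_mem_disjSum, inr_mem_disjSum, Sum.elim_inl,
          Sum.elim_inr, ind_eq, ite_and]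
        congr 1
        split_ifs <;> simp
    have e : ∀ ω, w ω * (∑ η ∈ H, Z η ω) ^ 2 = ∑ η ∈ H, ∑ η' ∈ H, w ω * (Z η ω * Z η' ω) :=
      fun ω => by rw [sq, sum_mul_sum]; simp only [mul_sum]
    simp only [e]
    rw [sum_comm]
    calc _ ≤ ∑ η ∈ H, (#H * P ^ 2 + b) := by
          refine sum_le_sum fun η hη => ?_
          rw [sum_comm]
          refine (sum_le_sum (this η hη)).trans ?_
          rw [sum_add_distrib, sum_const, nsmul_eq_mul]
          linarith [hb η hη]
      _ = _ := by rw [sum_const, nsmul_eq_mul]; ring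
  have e3 : ∀ ω, w ω * (∑ η ∈ H, Z η ω - #H * P) ^ 2 = w ω * (∑ η ∈ H, Z η ω) ^ 2
      - 2 * (#H * P) * (w ω * ∑ η ∈ H, Z η ω) + (#H * P) ^ 2 * w ω := fun ω => by ring
  change ∑ ω, w ω * (∑ η ∈ H, Z η ω - #H * P) ^ 2 ≤ _
  simp only [e3]
  rw [sum_add_distrib, sum_sub_distrib, ← mul_sum, ← mul_sum, e1, hw1]
  linarith

end Prob

theorem tail_le {X m h ε : ℝ} (hε : 0 < ε) (hh : 0 < h) (hm : m ≤ h) :
    (if (1 + ε) * h < X then X else 0) ≤ (1 + ε) / (ε ^ 2 * h) * (X - m) ^ 2 := by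
  split_ifs with hX
  · rw [div_mul_eq_mul_div, le_div_iff₀ (by positivity)]
    have a1 : ε * h ≤ X - m := by linarith
    have a2 : ε * X ≤ (1 + ε) * (X - m) := by nlinarith
    have a3 : 0 < X := lt_trans (by positivity) hX
    have := mul_le_mul a2 a1 (by positivity) (le_trans (by positivity) a2)
    linarith
  · positivity

theorem card_hyper {ι F : Type} [Fintype ι] [Field F] [Fintype F] [DecidableEq F]
    (A : (ι → F) → Prop) [DecidablePred A] [DecidableEq ι] (φ : (ι → F) → F) (v : ι → F) {a : F}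
    (ha : a ≠ 0) (hA : ∀ η (t : F), A η → A (η + t • v))
    (hφ : ∀ η (t : F), φ (η + t • v) = φ η + t * a) (b : F) :
    (#{η | A η ∧ φ η = b} : ℝ) ≤ #{η | A η} / Fintype.card F := by
  rw [le_div_iff₀ (by exact_mod_cast Fintype.card_pos), ← card_univ, ← Nat.cast_mul,
    ← card_product, Nat.cast_le]
  refine card_le_card_of_injOn (fun p => p.1 + p.2 • v) (fun p hp => ?_) fun p hp q hq h => ?_
  · simp only [coe_product, coe_filter, mem_univ, true_and, Set.mem_prod, Set.mem_ofPred_eq]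
      at hp ⊢
    exact hA _ _ hp.1.1
  · simp only [coe_product, coe_filter, mem_univ, true_and, Set.mem_prod, Set.mem_ofPred_eq]
      at hp hq
    have h2 := congrArg φ h
    simp only [hφ, hp.1.2, hq.1.2, add_right_inj] at h2
    have h3 := mul_right_cancel₀ ha h2
    simp only [h3, add_left_inj] at h
    exact Prod.ext h h3

/-- Random types modulo a large prime. -/
theorem types {ι S : Type} [Fintype ι] [Fintype S] [DecidableEq ι] (i₀ : ι) (n β : S → ι → ℤ)
    (hl : ∀ s, 0 < n s i₀) (hβ0 : ∀ s, ∑ i, β s i * n s i = 0)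
    (hβ1 : ∀ s s', s' ≠ s → ∑ i, β s i * n s' i ≠ 0) (π : S → ℝ) (hπ : ∀ s, 0 < π s)
    (hsum : 2 * ∑ s, π s = 1) {ε : ℝ} (hε : 0 < ε) {Z : Type} [Fintype Z] [DecidableEq Z]
    (c : Z → S → ℤ) :
    ∃ (R : ℕ) (_ : NeZero R) (ty : ZMod R → S → Prop) (V : Finset (Z × (ι → ZMod R))),
      (∀ y s s', ty y s → ty y s' → s = s') ∧ (∀ y s s', ty y s → ¬ ty (-1 - y) s') ∧
      (∀ v ∈ V, ∀ s, ty (∑ i, n s i * v.2 i + c v.1 s) s) ∧
      (∀ σ s y, (#{η | (σ, η) ∈ V ∧ ∑ i, n s i * η i + c σ s = y} : ℝ)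
        ≤ (1 + ε) * (R ^ Fintype.card ι / R * ((∏ s, π s) / π s))) ∧
      (1 - ε) * (Fintype.card Z * (R ^ Fintype.card ι * ∏ s, π s)) ≤ #V := by
  classical
  set K : ℝ := (Fintype.card S : ℝ) with hK
  set Pt := ∏ s, π s with hPt
  have hPt0 : 0 < Pt := prod_pos fun s _ => hπ s
  set C := (2 * K ^ 2 * Pt + ∑ s, (1 + ε) / (ε ^ 2 * (Pt / π s)) * (2 * K ^ 2)) / (ε * Pt) with hC
  obtain ⟨R, hR, hp⟩ := Nat.exists_infinite_primes (⌈C⌉₊ + ∑ s, 2 * (n s i₀).natAbs
    + ∑ s, ∑ s', (∑ i, β s i * n s' i).natAbs + 1)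
  have : Fact R.Prime := ⟨hp⟩
  have hRC : C ≤ R := (Nat.le_ceil C).trans (by exact_mod_cast (by omega))
  have hR0 : (0 : ℝ) < R := by exact_mod_cast hp.pos
  have hne : ∀ d : ℤ, d ≠ 0 → d.natAbs < R → (d : ZMod R) ≠ 0 := fun d hd hd' h =>
    hd (Int.eq_zero_of_abs_lt_dvd ((ZMod.intCast_zmod_eq_zero_iff_dvd d R).mp h)
      (by rw [abs_lt]; omega))
  have hn2 : ∀ s, (n s i₀ + n s i₀ : ZMod R) ≠ 0 := fun s => by
    have a1 := single_le_sum (f := fun s => 2 * (n s i₀).natAbs) (fun _ _ => Nat.zero_le _)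
      (mem_univ s)
    have a2 := hl s
    exact_mod_cast hne (n s i₀ + n s i₀) (by omega) (by omega)
  have hn1 : ∀ s, (n s i₀ : ZMod R) ≠ 0 := fun s h => hn2 s (by rw [h, add_zero])
  set L : S → (ι → ZMod R) → ZMod R := fun s η => ∑ i, n s i * η i with hL
  have hLa : ∀ s η (t : ZMod R) v, L s (η + t • v) = L s η + t * L s v := fun s η t v => by
    simp only [hL, Pi.add_apply, Pi.smul_apply, smul_eq_mul, mul_add, sum_add_distrib, mul_sum,
      mul_left_comm t]
  have hL1 : ∀ s, L s (Pi.single i₀ 1) = n s i₀ := fun s => by simp [hL, Pi.single_apply]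
  have hL2 : ∀ s s', L s' (fun i => β s i) = (∑ i, β s i * n s' i : ℤ) := fun s s' => by
    simp [hL, mul_comm]
  have hL3 : ∀ s, L s (fun i => β s i) = 0 := fun s => by rw [hL2, hβ0, Int.cast_zero]
  have hL4 : ∀ s s', s' ≠ s → L s' (fun i => β s i) ≠ 0 := fun s s' h => by
    rw [hL2]
    have a1 := single_le_sum (f := fun s' => (∑ i, β s i * n s' i).natAbs)
      (fun _ _ => Nat.zero_le _) (mem_univ s')
    have a2 := single_le_sum (f := fun s => ∑ s', (∑ i, β s i * n s' i).natAbs)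
      (fun _ _ => Nat.zero_le _) (mem_univ s)
    exact hne _ (hβ1 s s' h) (by omega)
  set ρ : ℝ := (R : ℝ) ^ Fintype.card ι with hρ
  have hρ0 : 0 < ρ := by positivity
  have hc1 : ∀ (φ : (ι → ZMod R) → ZMod R) (v : ι → ZMod R) (a : ZMod R), a ≠ 0 →
      (∀ η (t : ZMod R), φ (η + t • v) = φ η + t * a) → ∀ b, (#{η | φ η = b} : ℝ) ≤ ρ / R :=
    fun φ v a ha hφ b => by
      simpa [hρ] using card_hyper (fun _ => True) φ v ha (fun _ _ _ => trivial) hφ b
  set y : Z → (ι → ZMod R) → S → ZMod R := fun σ η s => L s η + c σ s with hy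
  have hya : ∀ σ s η (t : ZMod R) v, y σ (η + t • v) s = y σ η s + t * L s v :=
    fun σ s η t v => by simp only [hy, hLa]; ring
  have hc2 : ∀ σ s b, (#{η | y σ η s = b} : ℝ) ≤ ρ / R := fun σ s =>
    hc1 _ (Pi.single i₀ 1) _ (hn1 s) fun η t => by rw [hya, hL1]
  have hc3 : ∀ σ s s' b b', s' ≠ s → (#{η | y σ η s = b ∧ y σ η s' = b'} : ℝ) ≤ ρ / R / R :=
    fun σ s s' b b' h => by
      refine (card_hyper (fun η => y σ η s = b) (fun η => y σ η s') (fun i => β s i) (hL4 s s' h)
        (fun η t h => by rw [hya, hL3, h]; ring) (fun η t => hya ..) b').trans ?_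
      rw [ZMod.card]
      gcongr
      exact hc2 ..
  set G : Z → Finset (ι → ZMod R) := fun σ =>
    {η | ∀ s s', y σ η s + y σ η s' ≠ -1 ∧ (s' ≠ s → y σ η s' - y σ η s ≠ 0)} with hG
  have hGc : ∀ σ, ρ - 2 * K ^ 2 * (ρ / R) ≤ #(G σ) := fun σ => by
    have a1 : (G σ)ᶜ ⊆ univ.biUnion fun p : S × S =>
        (univ.filter fun η => y σ η p.1 + y σ η p.2 = -1) ∪
        (univ.filter fun η => p.2 ≠ p.1 ∧ y σ η p.2 - y σ η p.1 = 0) := fun η hη => by
      simp only [hG, mem_compl, mem_filter, mem_univ, true_and, not_forall, not_and_or,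
        not_not, mem_biUnion, mem_union, Prod.exists, exists_prop] at hη ⊢
      exact hη
    have a2 : (#(G σ)ᶜ : ℝ) ≤ ∑ p : S × S, (ρ / R + ρ / R) := by
      refine (Nat.cast_le.mpr ((card_le_card a1).trans card_biUnion_le)).trans ?_
      rw [Nat.cast_sum]
      refine sum_le_sum fun p _ => (Nat.cast_le.mpr (card_union_le _ _)).trans ?_
      rw [Nat.cast_add]
      by_cases h : p.2 = p.1
      · refine add_le_add (hc1 _ (Pi.single i₀ 1) _ (hn2 p.1) (fun η t => ?_) _) ?_
        · rw [hya, hya, h, hL1]; ring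
        · simp only [h, ne_eq, not_true, false_and, filter_false, card_empty, Nat.cast_zero]
          positivity
      · simp only [ne_eq, h, not_false_eq_true, true_and]
        refine add_le_add (hc1 _ (fun i => β p.1 i) _ (hL4 _ _ h) (fun η t => ?_) _)
          (hc1 _ (fun i => β p.1 i) _ (hL4 _ _ h) (fun η t => ?_) _) <;> rw [hya, hya, hL3] <;> ring
    have a3 : (#(G σ) : ℝ) + #(G σ)ᶜ = ρ := by
      rw [← Nat.cast_add, card_add_card_compl]; simp [hρ]
    rw [sum_const, card_univ, Fintype.card_prod, nsmul_eq_mul, Nat.cast_mul, ← hK] at a2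
    linarith
  set p : ZMod R → ZMod R := fun u => u * (u + 1) with hpd
  have hpp : ∀ u u', p u = p u' → u' = u ∨ u' = -1 - u := fun u u' h => by
    have : (u' - u) * (u' - (-1 - u)) = 0 := by
      simp only [hpd] at h; linear_combination -h
    simpa only [mul_eq_zero, sub_eq_zero] using this
  have hinj : ∀ σ, ∀ η ∈ G σ, Function.Injective fun s => p (y σ η s) := fun σ η hη s s' h => by
    have a1 := (mem_filter.mp hη).2 s s'
    by_contra hs
    rcases hpp _ _ h with h | h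
    · exact a1.2 (Ne.symm hs) (sub_eq_zero.mpr h)
    · exact a1.1 (by rw [h]; ring)
  set sd : ZMod R → Bool := fun u => decide (u.val < (-1 - u).val) with hsd
  set μ : S × Bool → ℝ := fun l => π l.1 with hμ
  have hμ0 : ∀ l, 0 ≤ μ l := fun l => (hπ _).le
  have hμ1 : ∑ l, μ l = 1 := by
    rw [Fintype.sum_prod_type, ← hsum, mul_sum]; simp [hμ]
  set w : (ZMod R → S × Bool) → ℝ := fun ω => ∏ u, μ (ω u) with hw
  set X : Z → S → ZMod R → (ZMod R → S × Bool) → ℝ := fun σ s b ω =>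
    ∑ η ∈ G σ with y σ η s = b,
      ind (∀ s' ∈ univ.erase s, ω (p (y σ η s')) = (s', sd (y σ η s'))) with hX
  set cap : S → ℝ := fun s => (1 + ε) * (ρ / R * (Pt / π s)) with hcap
  set V : (ZMod R → S × Bool) → Finset (Z × (ι → ZMod R)) := fun ω =>
    {v | v.2 ∈ G v.1 ∧ (∀ s, ω (p (y v.1 v.2 s)) = (s, sd (y v.1 v.2 s))) ∧
      ∀ s, X v.1 s (y v.1 v.2 s) ω ≤ cap s} with hV
  have hVl : ∀ ω, ∑ σ, (∑ η ∈ G σ, ind (∀ s ∈ univ, ω (p (y σ η s)) = (s, sd (y σ η s)))
      - ∑ s, ∑ b, if cap s < X σ s b ω then X σ s b ω else 0)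
      ≤ #(V ω) := fun ω => by
    rw [hV, card_filter, Nat.cast_sum, Fintype.sum_prod_type]
    refine sum_le_sum fun σ _ => ?_
    have e : ∀ s, (∑ b, if cap s < X σ s b ω then X σ s b ω else 0) = ∑ η ∈ G σ,
        if cap s < X σ s (y σ η s) ω then ind (∀ s' ∈ univ.erase s,
          ω (p (y σ η s')) = (s', sd (y σ η s'))) else 0 := fun s => by
      rw [← sum_fiberwise (G σ) (fun η => y σ η s)]
      refine sum_congr rfl fun b _ => ?_
      rw [sum_congr rfl (g := fun η => if cap s < X σ s b ω then ind (∀ s' ∈ univ.erase s,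
          ω (p (y σ η s')) = (s', sd (y σ η s'))) else 0)
          (fun η hη => by rw [(mem_filter.mp hη).2])]
      split_ifs <;> simp only [hX, sum_const_zero]
    simp only [e]
    rw [sum_comm, ← sum_sub_distrib]
    refine (sum_le_sum fun η hη => ?_).trans
      (sum_le_sum_of_subset_of_nonneg (subset_univ _) fun _ _ _ => by positivity)
    have a0 : ∀ s, (0 : ℝ) ≤ if cap s < X σ s (y σ η s) ω then ind (∀ s' ∈ univ.erase s,
          ω (p (y σ η s')) = (s', sd (y σ η s'))) else 0 := fun s => by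
      split_ifs
      exacts [ind_nonneg _, le_rfl]
    have a1 := sum_nonneg fun s (_ : s ∈ univ) => a0 s
    by_cases h1 : ∀ s, ω (p (y σ η s)) = (s, sd (y σ η s))
    · rw [ind_pos fun s _ => h1 s]
      by_cases h2 : ∀ s, X σ s (y σ η s) ω ≤ cap s
      · rw [if_pos ⟨hη, h1, h2⟩]; push_cast; linarith
      · push Not at h2
        obtain ⟨s, hs⟩ := h2
        have a2 := single_le_sum (fun s _ => a0 s) (mem_univ s)
        rw [if_pos hs, ind_pos fun s' _ => h1 s'] at a2
        exact le_trans (by linarith) (Nat.cast_nonneg _)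
    · rw [ind_neg fun h => h1 fun s => h s (mem_univ _)]
      exact le_trans (by linarith) (Nat.cast_nonneg _)
  have hw0 : ∀ ω, 0 ≤ w ω := fun ω => prod_nonneg fun _ _ => hμ0 _
  have hw1 : ∑ ω, w ω = 1 := by
    simpa [ind_eq] using prob_cyl (Y := ZMod R) hμ1 (∅ : Finset (S × Bool)) (fun _ => 0) (by simp) id
  have hE : (1 - ε) * (Fintype.card Z * (ρ * Pt)) ≤ ∑ ω, w ω * #(V ω) := by
    refine le_trans ?_ (sum_le_sum fun ω _ => mul_le_mul_of_nonneg_left (hVl ω) (hw0 ω))
    simp only [mul_sum (univ : Finset Z)]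
    rw [sum_comm, mul_left_comm, ← card_univ, ← nsmul_eq_mul, ← sum_const]
    refine sum_le_sum fun σ _ => ?_
    simp only [mul_sub, sum_sub_distrib, mul_sum]
    have a1 : ∑ ω, ∑ η ∈ G σ, w ω * ind (∀ s ∈ univ, ω (p (y σ η s)) = (s, sd (y σ η s)))
        = #(G σ) * Pt := by
      rw [sum_comm, ← nsmul_eq_mul, ← sum_const]
      exact sum_congr rfl fun η hη => prob_cyl hμ1 univ _ (hinj σ η hη).injOn _
    have a2 : ∑ ω, ∑ s, ∑ b, w ω * (if cap s < X σ s b ω then X σ s b ω else 0)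
        ≤ (∑ s, (1 + ε) / (ε ^ 2 * (Pt / π s)) * (2 * K ^ 2)) * (ρ / R) := by
      rw [sum_comm, sum_mul]
      refine sum_le_sum fun s _ => ?_
      have hPs : 0 < Pt / π s := div_pos hPt0 (hπ s)
      rw [sum_comm]
      refine (sum_le_card_nsmul _ _ ((1 + ε) / (ε ^ 2 * (ρ / R * (Pt / π s))) *
        (ρ / R * (2 * K ^ 2 * (ρ / R / R)))) fun b _ => ?_).trans (le_of_eq ?_)
      · have b1 : (#{η ∈ G σ | y σ η s = b} : ℝ) ≤ ρ / R :=
          (Nat.cast_le.mpr (card_le_card (filter_subset_filter _ (subset_univ _)))).trans (hc2 ..)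
        have b2 := second_moment hμ0 hμ1 {η ∈ G σ | y σ η s = b} (univ.erase s)
          (fun η s => p (y σ η s)) (fun η s => (s, sd (y σ η s)))
          (fun η hη => (hinj σ η (mem_filter.mp hη).1).injOn) (P := Pt / π s)
          (b := 2 * K ^ 2 * (ρ / R / R))
          (fun η _ => by
            rw [eq_div_iff (hπ s).ne']; exact prod_erase_mul _ _ (mem_univ s))
          (fun η _ => by
            rw [sum_ind]
            refine (Nat.cast_le (α := ℝ).mpr ((card_le_card
              (t := (univ ×ˢ univ.erase s).biUnion fun q : S × S =>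
                  (univ.filter fun η' => y σ η' s = b ∧ y σ η' q.2 = y σ η q.1) ∪
                  (univ.filter fun η' => y σ η' s = b ∧ y σ η' q.2 = -1 - y σ η q.1))
                fun η' hη' => by
              simp only [mem_filter] at hη'
              obtain ⟨⟨-, h1⟩, s₁, -, s₂, h2, h3⟩ := hη'
              refine mem_biUnion.mpr ⟨(s₁, s₂), mem_product.mpr ⟨mem_univ _, h2⟩, ?_⟩
              simpa [h1] using hpp _ _ h3).trans card_biUnion_le)).trans ?_
            rw [Nat.cast_sum]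
            refine (sum_le_card_nsmul _ _ (ρ / R / R + ρ / R / R) fun q hq => ?_).trans ?_
            · have := (mem_erase.mp (mem_product.mp hq).2).1
              refine (Nat.cast_le.mpr (card_union_le _ _)).trans ?_
              rw [Nat.cast_add]
              exact add_le_add (hc3 _ _ _ _ _ this) (hc3 _ _ _ _ _ this)
            · have : (#((univ : Finset S) ×ˢ univ.erase s) : ℝ) ≤ K ^ 2 := by
                rw [hK, sq, ← Nat.cast_mul, ← Fintype.card_prod, Nat.cast_le]
                exact card_le_univ _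
              rw [nsmul_eq_mul, ← two_mul, mul_left_comm, mul_assoc]
              gcongr)
        calc _ ≤ ∑ ω, (1 + ε) / (ε ^ 2 * (ρ / R * (Pt / π s))) * (w ω *
              (X σ s b ω - #{η ∈ G σ | y σ η s = b} * (Pt / π s)) ^ 2) :=
              sum_le_sum fun ω _ => by
                rw [mul_left_comm]
                exact mul_le_mul_of_nonneg_left (tail_le hε (by positivity) (by gcongr)) (hw0 ω)
          _ ≤ _ := by
              rw [← mul_sum]
              refine mul_le_mul_of_nonneg_left (b2.trans ?_) (by positivity)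
              gcongr
      · rw [card_univ, ZMod.card, nsmul_eq_mul]
        field_simp
    rw [a1]
    have a3 := mul_le_mul_of_nonneg_right (hGc σ) hPt0.le
    rw [hC, div_le_iff₀ (by positivity)] at hRC
    have a4 := mul_le_mul_of_nonneg_right hRC (show 0 ≤ ρ / R by positivity)
    have a5 : R * (ε * Pt) * (ρ / R) = ε * (ρ * Pt) := by field_simp
    linarith
  obtain ⟨ω, hω⟩ : ∃ ω, (1 - ε) * (Fintype.card Z * (ρ * Pt)) ≤ #(V ω) := by
    by_contra hcon
    push Not at hcon
    obtain ⟨ω₀, hω₀⟩ : ∃ ω, w ω ≠ 0 := by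
      by_contra h
      push Not at h
      simp [h] at hw1
    have := sum_lt_sum (s := univ) (fun ω _ => mul_le_mul_of_nonneg_left (hcon ω).le (hw0 ω))
      ⟨ω₀, mem_univ _, mul_lt_mul_of_pos_left (hcon ω₀) ((hw0 ω₀).lt_of_ne' hω₀)⟩
    rw [← sum_mul, hw1] at this
    linarith
  refine ⟨R, inferInstance, fun u s => u ≠ -1 - u ∧ ω (p u) = (s, sd u), V ω,
    fun u s s' h h' => (Prod.mk.inj (h.2.symm.trans h'.2)).1, fun u s s' h h' => ?_,
    fun v hv s => ?_, fun σ s b => ?_, hω⟩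
  · have e : p (-1 - u) = p u := by simp only [hpd]; ring
    have a1 := (Prod.mk.inj (h.2.symm.trans (e ▸ h'.2))).2
    simp only [hsd, sub_sub_cancel, decide_eq_decide] at a1
    exact h.1 (ZMod.val_injective _ (by omega))
  · obtain ⟨h1, h2, -⟩ := (mem_filter.mp hv).2
    refine ⟨fun h => ((mem_filter.mp h1).2 s s).1 ?_, h2 s⟩
    change y v.1 v.2 s = -1 - y v.1 v.2 s at h
    linear_combination h
  · rcases ({η | (σ, η) ∈ V ω ∧ ∑ i, n s i * η i + c σ s = b} : Finset _).eq_empty_or_nonempty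
      with h | ⟨η₀, h⟩
    · rw [h, card_empty, Nat.cast_zero]
      have := hπ s
      positivity
    · obtain ⟨h1, h2⟩ := (mem_filter.mp h).2
      have a1 := (mem_filter.mp h1).2.2.2 s
      change y σ η₀ s = b at h2
      rw [h2] at a1
      refine le_trans ?_ a1
      simp only [hX]
      rw [sum_ind, Nat.cast_le]
      refine card_le_card fun η hη => ?_
      obtain ⟨h3, h4⟩ := (mem_filter.mp hη).2
      obtain ⟨h5, h6, -⟩ := (mem_filter.mp h3).2
      exact mem_filter.mpr ⟨mem_filter.mpr ⟨h5, h4⟩, fun s' _ => h6 s'⟩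

end Crest.Agent.R75
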